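import Mathlib

/-! Fundamental theorem of calculus for holomorphic functions composed with Lipschitz curves. -/

namespace Vale.Agent.Lib.P123H99

open MeasureTheory Set Filter Topology Complex
open scoped Real

/-- Lipschitz curves: almost every point is a point of differentiability. -/
lemma ae_diff {γ : ℝ → ℂ} {L : NNReal} (h : LipschitzWith L γ) :
    ∀ᵐ t : ℝ, DifferentiableAt ℝ γ t := h.ae_differentiableAt

lemma norm_deriv_le {γ : ℝ → ℂ} {L : NNReal} (h : LipschitzWith L γ) (t : ℝ) :
    ‖deriv γ t‖ ≤ L := norm_deriv_le_of_lipschitz h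

/-- A measurable bounded complex function is interval integrable. -/
lemma ii_of_bdd {f : ℝ → ℂ} (hm : AEStronglyMeasurable f volume) {C : ℝ}
    (hC : ∀ᵐ t : ℝ, ‖f t‖ ≤ C) (a b : ℝ) : IntervalIntegrable f volume a b := by
  rw [intervalIntegrable_iff]
  refine Measure.integrableOn_of_bounded (M := C) ?_ hm ?_
  · simp
  · exact ae_restrict_of_ae hC

lemma ii_of_bdd_real {f : ℝ → ℝ} (hm : AEStronglyMeasurable f volume) {C : ℝ}
    (hC : ∀ᵐ t : ℝ, ‖f t‖ ≤ C) (a b : ℝ) : IntervalIntegrable f volume a b := by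
  rw [intervalIntegrable_iff]
  refine Measure.integrableOn_of_bounded (M := C) ?_ hm ?_
  · simp
  · exact ae_restrict_of_ae hC

/-- The basic fundamental theorem for a function Lipschitz on an interval with values in the complex
numbers. -/
lemma ftc_lip {F : ℝ → ℂ} {a b : ℝ} {K : NNReal} (hF : LipschitzOnWith K F (uIcc a b)) :
    ∫ t in a..b, deriv F t = F b - F a := by
  have hre : LipschitzOnWith K (fun t => (F t).re) (uIcc a b) := by
    refine LipschitzOnWith.of_dist_le_mul ?_
    intro x hx y hy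
    have := hF.dist_le_mul x hx y hy
    calc dist (F x).re (F y).re ≤ dist (F x) (F y) := by
          rw [Complex.dist_eq, Real.dist_eq, ← Complex.sub_re]
          exact Complex.abs_re_le_norm _
      _ ≤ _ := this
  have him : LipschitzOnWith K (fun t => (F t).im) (uIcc a b) := by
    refine LipschitzOnWith.of_dist_le_mul ?_
    intro x hx y hy
    have := hF.dist_le_mul x hx y hy
    calc dist (F x).im (F y).im ≤ dist (F x) (F y) := by
          rw [Complex.dist_eq, Real.dist_eq, ← Complex.sub_im]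
          exact Complex.abs_im_le_norm _
      _ ≤ _ := this
  have acre := hre.absolutelyContinuousOnInterval
  have acim := him.absolutelyContinuousOnInterval
  have fre := acre.integral_deriv_eq_sub
  have fim := acim.integral_deriv_eq_sub
  have iire := acre.intervalIntegrable_deriv
  have iiim := acim.intervalIntegrable_deriv
  -- a.e. formula for deriv F
  have hae : ∀ᵐ t : ℝ, t ∈ uIcc a b → t ∉ ({a, b} : Set ℝ) →
      deriv F t = (((deriv (fun t => (F t).re) t : ℝ)) : ℂ)
        + (((deriv (fun t => (F t).im) t : ℝ)) : ℂ) * I := by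
    filter_upwards [acre.ae_differentiableAt, acim.ae_differentiableAt] with t h1 h2 ht ht2
    have hd1 := (h1 ht).hasDerivAt
    have hd2 := (h2 ht).hasDerivAt
    have hd : HasDerivAt F ((((deriv (fun t => (F t).re) t : ℝ)) : ℂ) +
        (((deriv (fun t => (F t).im) t : ℝ)) : ℂ) * I) t := by
      have := (hd1.ofReal_comp).add (hd2.ofReal_comp.mul_const I)
      refine this.congr_of_eventuallyEq (Eventually.of_forall fun x => ?_)
      simp [Complex.re_add_im]
    exact hd.deriv
  have hsub : ∫ t in a..b, deriv F t =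
      ∫ t in a..b, ((((deriv (fun t => (F t).re) t : ℝ)) : ℂ)
        + (((deriv (fun t => (F t).im) t : ℝ)) : ℂ) * I) := by
    apply intervalIntegral.integral_congr_ae
    have hfin : ∀ᵐ t : ℝ, t ∉ ({a, b} : Set ℝ) := by
      have : volume ({a, b} : Set ℝ) = 0 := by
        exact ((Set.toFinite _).measure_zero _)
      exact measure_eq_zero_iff_ae_notMem.mp this
    filter_upwards [hae, hfin] with t h h2 ht
    have : t ∈ uIcc a b := Set.uIoc_subset_uIcc ht
    exact h this h2
  have iire' : IntervalIntegrable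
      (fun t => (((deriv (fun t => (F t).re) t : ℝ)) : ℂ)) volume a b := ⟨iire.1.ofReal, iire.2.ofReal⟩
  have iiim' : IntervalIntegrable
      (fun t => (((deriv (fun t => (F t).im) t : ℝ)) : ℂ)) volume a b := ⟨iiim.1.ofReal, iiim.2.ofReal⟩
  rw [hsub, intervalIntegral.integral_add iire' (iiim'.mul_const I),
    intervalIntegral.integral_mul_const, intervalIntegral.integral_ofReal,
    intervalIntegral.integral_ofReal, fre, fim]
  apply Complex.ext <;> simp

/-- Holomorphic functions are Lipschitz on compact subsets of their open domain. -/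
lemma lip_on_compact {U : Set ℂ} (hU : IsOpen U) {Ψ : ℂ → ℂ} (hΨ : DifferentiableOn ℂ Ψ U)
    {K : Set ℂ} (hK : IsCompact K) (hKU : K ⊆ U) : ∃ C : NNReal, LipschitzOnWith C Ψ K := by
  apply LocallyLipschitzOn.exists_lipschitzOnWith_of_compact hK
  intro x hx
  have hxU := hKU hx
  have ha : AnalyticAt ℂ Ψ x := hΨ.analyticAt (hU.mem_nhds hxU)
  have hc : ContDiffAt ℝ 1 Ψ x := (ha.contDiffAt (n := 1)).restrict_scalars ℝ
  obtain ⟨C, t, ht, hl⟩ := hc.exists_lipschitzOnWith
  exact ⟨C, t, mem_nhdsWithin_of_mem_nhds ht, hl⟩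

/-- Fundamental theorem along a Lipschitz curve for a holomorphic function on an open set. -/
theorem ftc_comp {U : Set ℂ} (hU : IsOpen U) {Ψ : ℂ → ℂ} (hΨ : DifferentiableOn ℂ Ψ U)
    {w : ℝ → ℂ} {L : NNReal} (hw : LipschitzWith L w) {a b : ℝ} (hab : a ≤ b)
    (hwU : ∀ t ∈ Icc a b, w t ∈ U) :
    ∫ t in a..b, deriv Ψ (w t) * deriv w t = Ψ (w b) - Ψ (w a) := by
  have hK : IsCompact (w '' Icc a b) := isCompact_Icc.image hw.continuous
  have hKU : w '' Icc a b ⊆ U := by rintro _ ⟨t, ht, rfl⟩; exact hwU t ht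
  obtain ⟨C, hC⟩ := lip_on_compact hU hΨ hK hKU
  have hFl : LipschitzOnWith (C * L) (fun t => Ψ (w t)) (uIcc a b) := by
    rw [uIcc_of_le hab]
    have := hC.comp (hw.lipschitzOnWith (s := Icc a b)) (Set.mapsTo_image _ _)
    exact this
  rw [← ftc_lip hFl]
  apply intervalIntegral.integral_congr_ae
  filter_upwards [hw.ae_differentiableAt] with t hd ht
  have ht' : t ∈ Icc a b := by
    rw [uIoc_of_le hab] at ht; exact ⟨ht.1.le, ht.2⟩
  have hdiff : HasDerivAt Ψ (deriv Ψ (w t)) (w t) :=
    ((hΨ (w t) (hwU t ht')).differentiableAt (hU.mem_nhds (hwU t ht'))).hasDerivAt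
  have h2 := HasDerivAt.scomp t hdiff hd.hasDerivAt
  have h3 : deriv (fun t => Ψ (w t)) t = deriv w t • deriv Ψ (w t) := h2.deriv
  rw [h3, smul_eq_mul, mul_comm]

end Vale.Agent.Lib.P123H99
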