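import Mathlib
import Vale.Agent.Lib.P123H99.Ftc

/-! Closed convex curves: the density of visual measure, the angle function at a regular point. -/

namespace Vale.Agent.Lib.P123H99

open MeasureTheory Set Filter Topology Complex
open scoped Real ComplexConjugate

set_option linter.unusedSectionVars false
set_option linter.unusedSimpArgs false

variable {γ : ℝ → ℂ}

/-- The tangent functional at the parameter `t`. -/
noncomputable def tang (γ : ℝ → ℂ) (t : ℝ) (p : ℂ) : ℝ := (conj (deriv γ t) * (p - γ t)).im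

/-- The density of the visual measure from the point `p`. -/
noncomputable def dens (γ : ℝ → ℂ) (p : ℂ) (t : ℝ) : ℝ := (deriv γ t / (γ t - p)).im / π

lemma dens_eq (p : ℂ) (t : ℝ) : dens γ p t = tang γ t p / (π * normSq (γ t - p)) := by
  unfold dens tang
  have : p - γ t = -(γ t - p) := by ring
  rw [this]
  generalize deriv γ t = w
  generalize γ t - p = z
  simp only [Complex.div_im, Complex.mul_im, Complex.conj_re, Complex.conj_im, Complex.neg_re,
    Complex.neg_im]
  ring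

/-- Closed convex curves, described by their first order properties. -/
structure ConvCurve (γ : ℝ → ℂ) : Prop where
  lip : ∃ L : NNReal, LipschitzWith L γ
  per : Function.Periodic γ (2 * π)
  simple : ∀ s t : ℝ, s < t → t < s + 2 * π → γ s ≠ γ t
  deriv_ne : ∀ t, DifferentiableAt ℝ γ t → deriv γ t ≠ 0
  support : ∀ t, DifferentiableAt ℝ γ t → ∀ s, 0 ≤ tang γ t (γ s)

namespace ConvCurve

lemma cont (h : ConvCurve γ) : Continuous γ := by
  obtain ⟨L, hL⟩ := h.lip; exact hL.continuous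

lemma ae_diff (h : ConvCurve γ) : ∀ᵐ t : ℝ, DifferentiableAt ℝ γ t := by
  obtain ⟨L, hL⟩ := h.lip; exact hL.ae_differentiableAt

lemma exists_deriv_bound (h : ConvCurve γ) : ∃ C : ℝ, 0 ≤ C ∧ ∀ t, ‖deriv γ t‖ ≤ C := by
  obtain ⟨L, hL⟩ := h.lip
  exact ⟨L, L.2, fun t => norm_deriv_le_of_lipschitz hL⟩

lemma deriv_ii (h : ConvCurve γ) (a b : ℝ) : IntervalIntegrable (deriv γ) volume a b := by
  obtain ⟨C, _, hC⟩ := h.exists_deriv_bound
  exact ii_of_bdd (measurable_deriv γ).aestronglyMeasurable (Eventually.of_forall hC) a b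

/-- Shift of the derivative by a period. -/
lemma fun_shift (h : ConvCurve γ) : (fun x => γ (x + 2 * π)) = γ := by
  funext x; exact h.per x

lemma diff_shift (h : ConvCurve γ) {t : ℝ} (hd : DifferentiableAt ℝ γ t) :
    DifferentiableAt ℝ γ (t + 2 * π) := by
  have hd' : DifferentiableAt ℝ γ ((t + 2 * π) - 2 * π) := by simpa using hd
  have e : γ = fun x => γ (x - 2 * π) := by
    funext x
    have := h.per (x - 2 * π)
    rw [sub_add_cancel] at this
    exact this
  rw [e]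
  exact hd'.comp (t + 2 * π) (differentiableAt_id.sub_const _)

lemma deriv_shift (h : ConvCurve γ) (t : ℝ) : deriv γ (t + 2 * π) = deriv γ t := by
  have := deriv_comp_add_const γ (2 * π) t
  rw [h.fun_shift] at this
  exact this.symm

end ConvCurve

/-! ### Integrals of the Cauchy kernel on compact intervals -/

lemma ConvCurve.quot_ii (hγ : ConvCurve γ) {p : ℂ} {s r : ℝ}
    (hp : ∀ t ∈ uIcc s r, γ t ≠ p) :
    IntervalIntegrable (fun t => deriv γ t / (γ t - p)) volume s r := by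
  have h1 := hγ.deriv_ii s r
  have h2 : ContinuousOn (fun t => (γ t - p)⁻¹) (uIcc s r) := by
    apply ContinuousOn.inv₀
    · exact (hγ.cont.sub continuous_const).continuousOn
    · intro t ht; exact sub_ne_zero.mpr (hp t ht)
  simpa [div_eq_mul_inv] using h1.mul_continuousOn h2

lemma ConvCurve.dens_ii (hγ : ConvCurve γ) {p : ℂ} {s r : ℝ}
    (hp : ∀ t ∈ uIcc s r, γ t ≠ p) : IntervalIntegrable (dens γ p) volume s r := by
  have := hγ.quot_ii hp
  have h2 : IntervalIntegrable (fun t => (deriv γ t / (γ t - p)).im) volume s r :=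
    ⟨this.1.im, this.2.im⟩
  exact h2.div_const π

lemma ConvCurve.int_dens (hγ : ConvCurve γ) {p : ℂ} {s r : ℝ}
    (hp : ∀ t ∈ uIcc s r, γ t ≠ p) :
    ∫ t in s..r, dens γ p t = (∫ t in s..r, deriv γ t / (γ t - p)).im / π := by
  unfold dens
  rw [intervalIntegral.integral_div]
  congr 1
  have := (Complex.imCLM.intervalIntegral_comp_comm (hγ.quot_ii hp))
  simpa using this

lemma dens_nonneg_of_tang {p : ℂ} {t : ℝ} (h : 0 ≤ tang γ t p) : 0 ≤ dens γ p t := by
  rw [dens_eq]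
  exact div_nonneg h (mul_nonneg Real.pi_pos.le (normSq_nonneg _))

lemma ConvCurve.dens_nonneg (hγ : ConvCurve γ) {t : ℝ} (hd : DifferentiableAt ℝ γ t) (s : ℝ) :
    0 ≤ dens γ (γ s) t := dens_nonneg_of_tang (hγ.support t hd s)

/-! ### The angle function at a regular point -/

/-- Normalised position vector as seen from the regular point `γ t₀`. -/
noncomputable def wv (γ : ℝ → ℂ) (t₀ t : ℝ) : ℂ := conj (deriv γ t₀) * (γ t - γ t₀)

/-- Rotated position vector. -/
noncomputable def Wv (γ : ℝ → ℂ) (t₀ t : ℝ) : ℂ := -I * wv γ t₀ t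

/-- The angle of the position vector seen from the regular point `γ t₀`. -/
noncomputable def Theta (γ : ℝ → ℂ) (t₀ t : ℝ) : ℝ := arg (Wv γ t₀ t) + π / 2

section Theta

variable (hγ : ConvCurve γ) {t₀ : ℝ} (hd : DifferentiableAt ℝ γ t₀)
include hγ hd

lemma wv_im_nonneg (t : ℝ) : 0 ≤ (wv γ t₀ t).im := hγ.support t₀ hd t

lemma gamma_ne {t : ℝ} (ht : t ∈ Ioo t₀ (t₀ + 2 * π)) : γ t ≠ γ t₀ :=
  (hγ.simple t₀ t ht.1 ht.2).symm

lemma wv_ne {t : ℝ} (ht : t ∈ Ioo t₀ (t₀ + 2 * π)) : wv γ t₀ t ≠ 0 := by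
  unfold wv
  refine mul_ne_zero ?_ (sub_ne_zero.mpr (gamma_ne hγ hd ht))
  simpa using hγ.deriv_ne t₀ hd

omit hγ hd in
lemma Wv_re (t : ℝ) : (Wv γ t₀ t).re = (wv γ t₀ t).im := by simp [Wv]

omit hγ hd in
lemma Wv_im (t : ℝ) : (Wv γ t₀ t).im = -(wv γ t₀ t).re := by simp [Wv]

lemma Wv_slit {t : ℝ} (ht : t ∈ Ioo t₀ (t₀ + 2 * π)) : Wv γ t₀ t ∈ slitPlane := by
  rw [Complex.mem_slitPlane_iff, Wv_re, Wv_im]
  have h0 := wv_im_nonneg hγ hd t
  by_cases h : 0 < (wv γ t₀ t).im
  · exact Or.inl h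
  · right
    have him : (wv γ t₀ t).im = 0 := le_antisymm (not_lt.mp h) h0
    intro hre
    apply wv_ne hγ hd ht
    apply Complex.ext
    · simpa using neg_eq_zero.mp hre
    · simpa using him

lemma theta_nonneg (t : ℝ) : 0 ≤ Theta γ t₀ t := by
  have : |arg (Wv γ t₀ t)| ≤ π / 2 := by
    rw [Complex.abs_arg_le_pi_div_two_iff, Wv_re]; exact wv_im_nonneg hγ hd t
  have := (abs_le.mp this).1
  unfold Theta; linarith

lemma theta_le_pi (t : ℝ) : Theta γ t₀ t ≤ π := by
  have : |arg (Wv γ t₀ t)| ≤ π / 2 := by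
    rw [Complex.abs_arg_le_pi_div_two_iff, Wv_re]; exact wv_im_nonneg hγ hd t
  have := (abs_le.mp this).2
  unfold Theta; linarith

/-- Polar form of the position vector. -/
lemma wv_polar (t : ℝ) : wv γ t₀ t = ‖wv γ t₀ t‖ * exp (Theta γ t₀ t * I) := by
  have h1 : ‖Wv γ t₀ t‖ = ‖wv γ t₀ t‖ := by simp [Wv]
  have h2 := norm_mul_exp_arg_mul_I (Wv γ t₀ t)
  have h3 : exp (((Theta γ t₀ t : ℝ) : ℂ) * I) = exp ((arg (Wv γ t₀ t) : ℂ) * I) * I := by
    unfold Theta
    push_cast
    rw [add_mul, Complex.exp_add]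
    congr 1
    rw [Complex.exp_pi_div_two_mul_I]
  rw [h3, ← mul_assoc, ← h1, h2]
  unfold Wv
  linear_combination (wv γ t₀ t) * I_mul_I

lemma Wv_lip : ∃ C : NNReal, LipschitzWith C (Wv γ t₀) := by
  obtain ⟨L, hL⟩ := hγ.lip
  refine ⟨‖deriv γ t₀‖₊ * L, LipschitzWith.of_dist_le_mul ?_⟩
  intro s t
  have h1 : Wv γ t₀ s - Wv γ t₀ t = (-I * conj (deriv γ t₀)) * (γ s - γ t) := by
    unfold Wv wv; ring
  rw [Complex.dist_eq, h1, norm_mul, norm_mul, norm_neg, norm_I, one_mul, Complex.norm_conj]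
  have h2 := hL.dist_le_mul s t
  rw [Complex.dist_eq] at h2
  push_cast
  rw [mul_assoc]
  exact mul_le_mul_of_nonneg_left h2 (norm_nonneg _)

lemma Wv_hasDerivAt {t : ℝ} (hdt : DifferentiableAt ℝ γ t) :
    HasDerivAt (Wv γ t₀) (-I * (conj (deriv γ t₀) * deriv γ t)) t := by
  have h1 := (hdt.hasDerivAt.sub_const (γ t₀)).const_mul (conj (deriv γ t₀))
  exact h1.const_mul (-I)

/-- The logarithm formula for the integral of the Cauchy kernel at a regular point. -/
lemma int_kernel {s r : ℝ} (hs : t₀ < s) (hsr : s ≤ r) (hr : r < t₀ + 2 * π) :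
    ∫ t in s..r, deriv γ t / (γ t - γ t₀) = log (Wv γ t₀ r) - log (Wv γ t₀ s) := by
  obtain ⟨C, hC⟩ := Wv_lip hγ hd
  have hU : ∀ t ∈ Icc s r, Wv γ t₀ t ∈ slitPlane := fun t ht =>
    Wv_slit hγ hd ⟨by linarith [ht.1], by linarith [ht.2]⟩
  have hlog : DifferentiableOn ℂ log slitPlane := fun z hz =>
    (differentiableAt_log hz).differentiableWithinAt
  have key := ftc_comp isOpen_slitPlane hlog hC hsr hU
  rw [← key]
  apply intervalIntegral.integral_congr_ae
  filter_upwards [hγ.ae_diff] with t hdt ht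
  rw [uIoc_of_le hsr] at ht
  have htI : t ∈ Ioo t₀ (t₀ + 2 * π) := ⟨by linarith [ht.1], by linarith [ht.2]⟩
  have h1 : deriv log (Wv γ t₀ t) = (Wv γ t₀ t)⁻¹ :=
    (hasDerivAt_log (Wv_slit hγ hd htI)).deriv
  have h2 := (Wv_hasDerivAt hγ hd hdt).deriv
  rw [h1, h2]
  have hne : γ t - γ t₀ ≠ 0 := sub_ne_zero.mpr (gamma_ne hγ hd htI)
  have hg : conj (deriv γ t₀) ≠ 0 := by simpa using hγ.deriv_ne t₀ hd
  unfold Wv wv
  field_simp

/-- The increment of the angle is the visual mass. -/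
lemma theta_sub {s r : ℝ} (hs : t₀ < s) (hsr : s ≤ r) (hr : r < t₀ + 2 * π) :
    ∫ t in s..r, dens γ (γ t₀) t = (Theta γ t₀ r - Theta γ t₀ s) / π := by
  rw [hγ.int_dens, int_kernel hγ hd hs hsr hr]
  · unfold Theta
    simp only [Complex.sub_im, Complex.log_im]
    congr 1
    ring
  · intro t ht
    rw [uIcc_of_le hsr] at ht
    exact gamma_ne hγ hd ⟨by linarith [ht.1], by linarith [ht.2]⟩

lemma theta_mono {s r : ℝ} (hs : t₀ < s) (hsr : s ≤ r) (hr : r < t₀ + 2 * π) :
    Theta γ t₀ s ≤ Theta γ t₀ r := by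
  have h := theta_sub hγ hd hs hsr hr
  have h2 : 0 ≤ ∫ t in s..r, dens γ (γ t₀) t := by
    apply intervalIntegral.integral_nonneg_of_ae_restrict hsr
    filter_upwards [ae_restrict_of_ae hγ.ae_diff] with t ht
    exact hγ.dens_nonneg ht t₀
  rw [h] at h2
  have := (div_nonneg_iff.mp h2)
  rcases this with h3 | h3
  · linarith [h3.1]
  · linarith [h3.2, Real.pi_pos]

lemma theta_cont {t : ℝ} (ht : t ∈ Ioo t₀ (t₀ + 2 * π)) : ContinuousAt (Theta γ t₀) t := by
  unfold Theta
  apply ContinuousAt.add _ continuousAt_const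
  apply (continuousAt_arg (Wv_slit hγ hd ht)).comp
  obtain ⟨C, hC⟩ := Wv_lip hγ hd
  exact hC.continuous.continuousAt

/-- Behaviour of the angle at the start of the period. -/
lemma theta_tendsto_zero : Tendsto (Theta γ t₀) (𝓝[>] t₀) (𝓝 0) := by
  have hg := hd.hasDerivAt
  have h1 : Tendsto (slope γ t₀) (𝓝[>] t₀) (𝓝 (deriv γ t₀)) :=
    (hasDerivAt_iff_tendsto_slope.mp hg).mono_left (nhdsWithin_mono _ (fun x hx => ne_of_gt hx))
  set q : ℂ := -I * (conj (deriv γ t₀) * deriv γ t₀) with hq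
  have hqe : q = ((‖deriv γ t₀‖ ^ 2 : ℝ) : ℂ) * (-I) := by
    rw [hq, mul_comm (conj _), Complex.mul_conj, Complex.normSq_eq_norm_sq]
    ring
  have hpos : 0 < ‖deriv γ t₀‖ ^ 2 := by
    have := norm_pos_iff.mpr (hγ.deriv_ne t₀ hd)
    positivity
  have hargq : arg q = -(π / 2) := by
    rw [hqe, arg_real_mul _ hpos, arg_neg_I]
  have hqs : q ∈ slitPlane := by
    rw [Complex.mem_slitPlane_iff, hqe]
    right
    rw [Complex.im_ofReal_mul]
    simpa using hpos.ne'
  have h2 : Tendsto (fun t => -I * (conj (deriv γ t₀) * slope γ t₀ t)) (𝓝[>] t₀) (𝓝 q) :=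
    (h1.const_mul _).const_mul _
  have h3 : Tendsto (fun t => arg (-I * (conj (deriv γ t₀) * slope γ t₀ t))) (𝓝[>] t₀)
      (𝓝 (-(π / 2))) := by
    rw [← hargq]; exact (continuousAt_arg hqs).tendsto.comp h2
  have h4 : Tendsto (Theta γ t₀) (𝓝[>] t₀) (𝓝 (-(π / 2) + π / 2)) := by
    refine (h3.add_const (π / 2)).congr' ?_
    filter_upwards [self_mem_nhdsWithin] with t ht
    have ht' : 0 < t - t₀ := sub_pos.mpr ht
    unfold Theta
    congr 1
    have : Wv γ t₀ t = ((t - t₀ : ℝ) : ℂ) * (-I * (conj (deriv γ t₀) * slope γ t₀ t)) := by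
      unfold Wv wv
      rw [slope_def_module]
      simp only [Complex.real_smul, vsub_eq_sub]
      push_cast
      have : ((t : ℂ) - t₀) ≠ 0 := by
        have := ht'.ne'
        exact_mod_cast this
      field_simp
    rw [this, arg_real_mul _ ht']
  simpa using h4

/-- Behaviour of the angle at the end of the period. -/
lemma theta_tendsto_pi : Tendsto (Theta γ t₀) (𝓝[<] (t₀ + 2 * π)) (𝓝 π) := by
  set T := t₀ + 2 * π with hT
  have hdT : DifferentiableAt ℝ γ T := hγ.diff_shift hd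
  have hgT : HasDerivAt γ (deriv γ t₀) T := by
    have := hdT.hasDerivAt
    rwa [hT, hγ.deriv_shift] at this
  have hγT : γ T = γ t₀ := hγ.per t₀
  have h1 : Tendsto (slope γ T) (𝓝[<] T) (𝓝 (deriv γ t₀)) :=
    (hasDerivAt_iff_tendsto_slope.mp hgT).mono_left (nhdsWithin_mono _ (fun x hx => ne_of_lt hx))
  set q : ℂ := I * (conj (deriv γ t₀) * deriv γ t₀) with hq
  have hqe : q = ((‖deriv γ t₀‖ ^ 2 : ℝ) : ℂ) * I := by
    rw [hq, mul_comm (conj _), Complex.mul_conj, Complex.normSq_eq_norm_sq]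
    ring
  have hpos : 0 < ‖deriv γ t₀‖ ^ 2 := by
    have := norm_pos_iff.mpr (hγ.deriv_ne t₀ hd)
    positivity
  have hargq : arg q = π / 2 := by
    rw [hqe, arg_real_mul _ hpos, arg_I]
  have hqs : q ∈ slitPlane := by
    rw [Complex.mem_slitPlane_iff, hqe]
    right
    rw [Complex.im_ofReal_mul]
    simpa using hpos.ne'
  have h2 : Tendsto (fun t => I * (conj (deriv γ t₀) * slope γ T t)) (𝓝[<] T) (𝓝 q) :=
    (h1.const_mul _).const_mul _
  have h3 : Tendsto (fun t => arg (I * (conj (deriv γ t₀) * slope γ T t))) (𝓝[<] T)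
      (𝓝 (π / 2)) := by
    rw [← hargq]; exact (continuousAt_arg hqs).tendsto.comp h2
  have h4 : Tendsto (Theta γ t₀) (𝓝[<] T) (𝓝 (π / 2 + π / 2)) := by
    refine (h3.add_const (π / 2)).congr' ?_
    filter_upwards [self_mem_nhdsWithin] with t ht
    have ht' : 0 < T - t := sub_pos.mpr ht
    unfold Theta
    congr 1
    have : Wv γ t₀ t = ((T - t : ℝ) : ℂ) * (I * (conj (deriv γ t₀) * slope γ T t)) := by
      unfold Wv wv
      rw [slope_def_module]
      simp only [Complex.real_smul, vsub_eq_sub]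
      rw [hγT]
      push_cast
      have : ((T : ℂ) - t) ≠ 0 := by
        have := ht'.ne'
        exact_mod_cast this
      have h5 : ((t : ℂ) - T) ≠ 0 := by
        intro h6; apply this; linear_combination -h6
      have h7 : ((t : ℂ) - T)⁻¹ * ((T : ℂ) - t) = -1 := by
        field_simp
        ring
      calc -I * (conj (deriv γ t₀) * (γ t - γ t₀))
          = (-1) * I * (conj (deriv γ t₀) * (γ t - γ t₀)) := by ring
        _ = _ := by
          rw [← h7]; ring
    rw [this, arg_real_mul _ ht']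
  have h5 : π / 2 + π / 2 = π := by ring
  rwa [h5] at h4

/-- Total visual mass at a regular point. -/
theorem dens_integrableOn : IntegrableOn (dens γ (γ t₀)) (Ioc t₀ (t₀ + 2 * π)) := by
  set T := t₀ + 2 * π with hT
  have hpi := Real.pi_pos
  let a : ℕ → ℝ := fun n => t₀ + π / (n + 2)
  let b : ℕ → ℝ := fun n => T - π / (n + 2)
  have hdn : ∀ n : ℕ, 0 < π / ((n : ℝ) + 2) := fun n => by positivity
  have hdn2 : ∀ n : ℕ, π / ((n : ℝ) + 2) ≤ π / 2 := fun n => by
    apply div_le_div_of_nonneg_left hpi.le (by norm_num)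
    have : (0 : ℝ) ≤ n := Nat.cast_nonneg n
    linarith
  have hlim : Tendsto (fun n : ℕ => π / ((n : ℝ) + 2)) atTop (𝓝 0) := by
    have : Tendsto (fun n : ℕ => (n : ℝ) + 2) atTop atTop :=
      tendsto_atTop_add_const_right _ _ tendsto_natCast_atTop_atTop
    exact this.const_div_atTop π
  have ha : Tendsto a atTop (𝓝 t₀) := by
    have := hlim.const_add t₀
    simpa [a] using this
  have hb : Tendsto b atTop (𝓝 T) := by
    have := hlim.const_sub T
    simpa [b] using this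
  have hab : ∀ n, a n ≤ b n := fun n => by
    simp only [a, b, hT]; linarith [hdn2 n]
  have hne : ∀ n, ∀ t ∈ uIcc (a n) (b n), γ t ≠ γ t₀ := by
    intro n t ht
    rw [uIcc_of_le (hab n)] at ht
    refine gamma_ne hγ hd ⟨?_, ?_⟩
    · have := ht.1; simp only [a] at this; linarith [hdn n]
    · have := ht.2; simp only [b, hT] at this; linarith [hdn n]
  refine integrableOn_Ioc_of_intervalIntegral_norm_bounded (I := 1) (a := a) (b := b)
    (l := atTop) ?_ ha hb ?_
  · intro n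
    have := (hγ.dens_ii (hne n))
    rw [intervalIntegrable_iff_integrableOn_Ioc_of_le (hab n)] at this
    exact this
  · refine Eventually.of_forall fun n => ?_
    rw [← intervalIntegral.integral_of_le (hab n)]
    have e : ∫ t in a n..b n, ‖dens γ (γ t₀) t‖ = ∫ t in a n..b n, dens γ (γ t₀) t := by
      apply intervalIntegral.integral_congr_ae
      filter_upwards [hγ.ae_diff] with t ht _
      exact Real.norm_of_nonneg (hγ.dens_nonneg ht t₀)
    rw [e, theta_sub hγ hd (by simp only [a]; linarith [hdn n]) (hab n)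
      (by simp only [b, hT]; linarith [hdn n])]
    rw [div_le_one hpi]
    have h1 := theta_le_pi hγ hd (b n)
    have h2 := theta_nonneg hγ hd (a n)
    linarith

theorem mass_one : ∫ t in t₀..(t₀ + 2 * π), dens γ (γ t₀) t = 1 := by
  set T := t₀ + 2 * π with hT
  have hpi := Real.pi_pos
  have hTt : t₀ < T := by rw [hT]; linarith
  have hint : IntegrableOn (dens γ (γ t₀)) (Ioc t₀ T) := dens_integrableOn hγ hd
  let a : ℕ → ℝ := fun n => t₀ + π / (n + 2)
  let b : ℕ → ℝ := fun n => T - π / (n + 2)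
  have hdn : ∀ n : ℕ, 0 < π / ((n : ℝ) + 2) := fun n => by positivity
  have hdn2 : ∀ n : ℕ, π / ((n : ℝ) + 2) ≤ π / 2 := fun n => by
    apply div_le_div_of_nonneg_left hpi.le (by norm_num)
    have : (0 : ℝ) ≤ n := Nat.cast_nonneg n
    linarith
  have hlim : Tendsto (fun n : ℕ => π / ((n : ℝ) + 2)) atTop (𝓝 0) := by
    have : Tendsto (fun n : ℕ => (n : ℝ) + 2) atTop atTop :=
      tendsto_atTop_add_const_right _ _ tendsto_natCast_atTop_atTop
    exact this.const_div_atTop π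
  have ha : Tendsto a atTop (𝓝 t₀) := by
    have := hlim.const_add t₀
    simpa [a] using this
  have hb : Tendsto b atTop (𝓝 T) := by
    have := hlim.const_sub T
    simpa [b] using this
  have hab : ∀ n, a n ≤ b n := fun n => by
    simp only [a, b, hT]; linarith [hdn2 n]
  have ha' : ∀ n, t₀ < a n := fun n => by simp only [a]; linarith [hdn n]
  have hb' : ∀ n, b n < T := fun n => by simp only [b]; linarith [hdn n]
  -- Convergence of the integrals over the exhausting intervals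
  have hcover := aecover_Ioc_of_Ioc (μ := volume) (l := atTop) ha hb
  have h1 : Tendsto (fun n => ∫ t in Ioc (a n) (b n), dens γ (γ t₀) t ∂(volume.restrict (Ioc t₀ T)))
      atTop (𝓝 (∫ t, dens γ (γ t₀) t ∂(volume.restrict (Ioc t₀ T)))) :=
    hcover.integral_tendsto_of_countably_generated hint
  have h2 : Tendsto (fun n => (Theta γ t₀ (b n) - Theta γ t₀ (a n)) / π) atTop (𝓝 ((π - 0) / π)) := by
    apply Tendsto.div_const
    apply Tendsto.sub
    · refine (theta_tendsto_pi hγ hd).comp ?_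
      refine tendsto_nhdsWithin_iff.mpr ⟨hb, Eventually.of_forall fun n => hb' n⟩
    · refine (theta_tendsto_zero hγ hd).comp ?_
      refine tendsto_nhdsWithin_iff.mpr ⟨ha, Eventually.of_forall fun n => ha' n⟩
  have h3 : ∀ n, ∫ t in Ioc (a n) (b n), dens γ (γ t₀) t ∂(volume.restrict (Ioc t₀ T))
      = (Theta γ t₀ (b n) - Theta γ t₀ (a n)) / π := by
    intro n
    rw [← theta_sub hγ hd (ha' n) (hab n) (hb' n), intervalIntegral.integral_of_le (hab n),
      Measure.restrict_restrict measurableSet_Ioc]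
    congr 2
    ext x
    simp only [mem_inter_iff, mem_Ioc]
    constructor
    · rintro ⟨⟨h1, h2⟩, _⟩; exact ⟨h1, h2⟩
    · rintro ⟨h1, h2⟩
      exact ⟨⟨h1, h2⟩, lt_trans (ha' n) h1, le_trans h2 (hb' n).le⟩
  simp_rw [h3] at h1
  have h4 := tendsto_nhds_unique h1 h2
  rw [intervalIntegral.integral_of_le hTt.le, h4]
  field_simp
  simp

/-- The cross product of two position vectors seen from a regular point is given by
the sine of the visual mass between them. -/
theorem cross_eq {s r : ℝ} (hs : t₀ < s) (hsr : s ≤ r) (hr : r < t₀ + 2 * π) :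
    (conj (γ s - γ t₀) * (γ r - γ t₀)).im
      = ‖γ s - γ t₀‖ * ‖γ r - γ t₀‖ * Real.sin (π * ∫ t in s..r, dens γ (γ t₀) t) := by
  have hg0 : deriv γ t₀ ≠ 0 := hγ.deriv_ne t₀ hd
  have hn : 0 < ‖deriv γ t₀‖ := norm_pos_iff.mpr hg0
  have hpi := Real.pi_pos
  rw [theta_sub hγ hd hs hsr hr, mul_div_cancel₀ _ hpi.ne']
  have h1 := wv_polar hγ hd s
  have h2 := wv_polar hγ hd r
  set θs := Theta γ t₀ s
  set θr := Theta γ t₀ r
  have h3 : conj (wv γ t₀ s) * wv γ t₀ r
      = ((‖deriv γ t₀‖ ^ 2 : ℝ) : ℂ) * (conj (γ s - γ t₀) * (γ r - γ t₀)) := by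
    unfold wv
    have : conj (deriv γ t₀) * deriv γ t₀ = ((‖deriv γ t₀‖ ^ 2 : ℝ) : ℂ) := by
      rw [mul_comm, Complex.mul_conj, Complex.normSq_eq_norm_sq]
    rw [map_mul, Complex.conj_conj, ← this]
    ring
  have h4 : conj (wv γ t₀ s) * wv γ t₀ r
      = ((‖wv γ t₀ s‖ * ‖wv γ t₀ r‖ : ℝ) : ℂ) * exp (((θr - θs : ℝ) : ℂ) * I) := by
    conv_lhs => rw [h1, h2]
    rw [map_mul, Complex.conj_ofReal, ← Complex.exp_conj]
    have : conj (((θs : ℝ) : ℂ) * I) = -((θs : ℂ) * I) := by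
      simp [Complex.conj_ofReal]
    rw [this]
    have e : exp (((θr - θs : ℝ) : ℂ) * I) = exp (-((θs : ℂ) * I)) * exp ((θr : ℂ) * I) := by
      rw [← Complex.exp_add]
      congr 1
      push_cast
      ring
    rw [e]
    simp only [norm_mul, norm_real, norm_norm, Complex.ofReal_mul]
    ring_nf
  have hs1 : ‖wv γ t₀ s‖ = ‖deriv γ t₀‖ * ‖γ s - γ t₀‖ := by
    unfold wv; rw [norm_mul, Complex.norm_conj]
  have hr1 : ‖wv γ t₀ r‖ = ‖deriv γ t₀‖ * ‖γ r - γ t₀‖ := by
    unfold wv; rw [norm_mul, Complex.norm_conj]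
  have h5 : (((‖deriv γ t₀‖ ^ 2 : ℝ) : ℂ) * (conj (γ s - γ t₀) * (γ r - γ t₀))).im
      = ‖deriv γ t₀‖ ^ 2 * (conj (γ s - γ t₀) * (γ r - γ t₀)).im := by
    rw [Complex.im_ofReal_mul]
  have h6 : (((‖wv γ t₀ s‖ * ‖wv γ t₀ r‖ : ℝ) : ℂ) * exp (((θr - θs : ℝ) : ℂ) * I)).im
      = ‖wv γ t₀ s‖ * ‖wv γ t₀ r‖ * Real.sin (θr - θs) := by
    rw [Complex.im_ofReal_mul, Complex.exp_ofReal_mul_I_im]
  have h7 : ‖deriv γ t₀‖ ^ 2 * (conj (γ s - γ t₀) * (γ r - γ t₀)).im
      = ‖wv γ t₀ s‖ * ‖wv γ t₀ r‖ * Real.sin (θr - θs) := by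
    rw [← h5, ← h6, ← h3, h4]
  rw [hs1, hr1] at h7
  have h8 : ‖deriv γ t₀‖ ^ 2 ≠ 0 := by positivity
  apply mul_left_cancel₀ h8
  rw [h7]; ring

theorem mass_between_nonneg {s r : ℝ} (hsr : s ≤ r) :
    0 ≤ ∫ t in s..r, dens γ (γ t₀) t := by
  apply intervalIntegral.integral_nonneg_of_ae_restrict hsr
  filter_upwards [ae_restrict_of_ae hγ.ae_diff] with t ht
  exact hγ.dens_nonneg ht t₀

/-- Orientation of the curve. -/
theorem cross_nonneg {s r : ℝ} (hs : t₀ < s) (hsr : s ≤ r) (hr : r < t₀ + 2 * π) :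
    0 ≤ (conj (γ s - γ t₀) * (γ r - γ t₀)).im := by
  rw [cross_eq hγ hd hs hsr hr]
  apply mul_nonneg (by positivity)
  apply Real.sin_nonneg_of_nonneg_of_le_pi
  · exact mul_nonneg Real.pi_pos.le (mass_between_nonneg hγ hd hsr)
  · rw [theta_sub hγ hd hs hsr hr, mul_div_cancel₀ _ Real.pi_pos.ne']
    linarith [theta_le_pi hγ hd r, theta_nonneg hγ hd s]

/-- Small visual mass forces near collinearity. -/
theorem cross_le {s r : ℝ} (hs : t₀ < s) (hsr : s ≤ r) (hr : r < t₀ + 2 * π) :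
    (conj (γ s - γ t₀) * (γ r - γ t₀)).im
      ≤ ‖γ s - γ t₀‖ * ‖γ r - γ t₀‖ * (π * ∫ t in s..r, dens γ (γ t₀) t) := by
  rw [cross_eq hγ hd hs hsr hr]
  apply mul_le_mul_of_nonneg_left _ (by positivity)
  apply Real.sin_le
  exact mul_nonneg Real.pi_pos.le (mass_between_nonneg hγ hd hsr)

end Theta


/-! ### Global statements for one period -/

lemma ConvCurve.dens_periodic (hγ : ConvCurve γ) (p : ℂ) :
    Function.Periodic (dens γ p) (2 * π) := by
  intro t
  unfold dens
  rw [hγ.deriv_shift, hγ.per t]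

section Global

variable (hγ : ConvCurve γ) {t₀ : ℝ} (hd : DifferentiableAt ℝ γ t₀)
include hγ hd

theorem dens_ii_all (a b : ℝ) : IntervalIntegrable (dens γ (γ t₀)) volume a b := by
  have hint := dens_integrableOn hγ hd
  have hpi := Real.pi_pos
  have h1 : IntervalIntegrable (dens γ (γ t₀)) volume t₀ (t₀ + 2 * π) := by
    rw [intervalIntegrable_iff_integrableOn_Ioc_of_le (by linarith)]
    exact hint
  exact (hγ.dens_periodic (γ t₀)).intervalIntegrable (by positivity) h1 a b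

theorem mass_one' : ∫ t in (0 : ℝ)..(2 * π), dens γ (γ t₀) t = 1 := by
  have h := (hγ.dens_periodic (γ t₀)).intervalIntegral_add_eq 0 t₀
  rw [zero_add] at h
  rw [h, mass_one hγ hd]

/-- Weighted visual integrals: integrability. -/
theorem weighted_ii {c : ℝ → ℝ} (hc : Continuous c) (a b : ℝ) :
    IntervalIntegrable (fun r => c r * dens γ (γ t₀) r) volume a b :=
  (dens_ii_all hγ hd a b).continuousOn_mul hc.continuousOn

theorem weighted_ci {c : ℝ → ℂ} (hc : Continuous c) (a b : ℝ) :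
    IntervalIntegrable (fun r => c r * ((dens γ (γ t₀) r : ℝ) : ℂ)) volume a b := by
  have h1 : IntervalIntegrable (fun r => ((dens γ (γ t₀) r : ℝ) : ℂ)) volume a b := by
    have h := dens_ii_all hγ hd a b
    exact ⟨h.1.ofReal, h.2.ofReal⟩
  exact h1.continuousOn_mul hc.continuousOn

/-- Visual mass of a subinterval of a period is at most one. -/
theorem mass_le_one {a b : ℝ} (h0 : 0 ≤ a) (hab : a ≤ b) (hb : b ≤ 2 * π) :
    ∫ t in a..b, dens γ (γ t₀) t ≤ 1 := by
  rw [← mass_one' hγ hd]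
  apply intervalIntegral.integral_mono_interval h0 hab hb
  · filter_upwards [ae_restrict_of_ae hγ.ae_diff] with t ht
    exact hγ.dens_nonneg ht t₀
  · exact dens_ii_all hγ hd 0 (2 * π)

/-- Nonnegative weighted integrals over subintervals of a period. -/
theorem weighted_sub_le {c : ℝ → ℝ} (hc : Continuous c) (hc0 : ∀ r, 0 ≤ c r)
    {a b : ℝ} (h0 : 0 ≤ a) (hab : a ≤ b) (hb : b ≤ 2 * π) :
    ∫ r in a..b, c r * dens γ (γ t₀) r ≤ ∫ r in (0 : ℝ)..(2 * π), c r * dens γ (γ t₀) r := by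
  apply intervalIntegral.integral_mono_interval h0 hab hb
  · filter_upwards [ae_restrict_of_ae hγ.ae_diff] with t ht
    exact mul_nonneg (hc0 t) (hγ.dens_nonneg ht t₀)
  · exact weighted_ii hγ hd hc 0 (2 * π)

/-- The estimate for error integrals by visual means: a bound of the speed by the visual density
and a bound of the weighted square mean of the integrand give a bound on the integral. -/
theorem err_bound {c : ℝ → ℂ} (hc : Continuous c) {a b C Ebar lam : ℝ} (h0 : 0 ≤ a) (hab : a ≤ b)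
    (hb : b ≤ 2 * π) (hC : 0 ≤ C) (hlam : 0 < lam)
    (hbd : ∀ r ∈ Ioo a b, DifferentiableAt ℝ γ r → ‖deriv γ r‖ ≤ C * dens γ (γ t₀) r)
    (hE : ∫ r in (0 : ℝ)..(2 * π), ‖c r‖ ^ 2 * dens γ (γ t₀) r ≤ Ebar) :
    ‖∫ r in a..b, c r * deriv γ r‖ ≤ C * (lam / 2 + Ebar / (2 * lam)) := by
  have hc2 : Continuous fun r => ‖c r‖ ^ 2 := (hc.norm).pow 2
  have hm1 := mass_le_one hγ hd h0 hab hb
  have hm2 := weighted_sub_le hγ hd hc2 (fun r => by positivity) h0 hab hb
  have hii : IntervalIntegrable (fun r => ‖c r * deriv γ r‖) volume a b := by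
    have := ((hγ.deriv_ii a b).continuousOn_mul hc.continuousOn).norm
    exact this
  have hstep : ‖∫ r in a..b, c r * deriv γ r‖ ≤ ∫ r in a..b, ‖c r * deriv γ r‖ :=
    intervalIntegral.norm_integral_le_integral_norm hab
  refine hstep.trans ?_
  have hae : ∀ᵐ r : ℝ, r ∈ Icc a b →
      ‖c r * deriv γ r‖ ≤ C * ((lam / 2) * dens γ (γ t₀) r
        + (1 / (2 * lam)) * (‖c r‖ ^ 2 * dens γ (γ t₀) r)) := by
    have hfin : ∀ᵐ t : ℝ, t ≠ b := by
      simp [ae_iff, measure_singleton]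
    have hfin2 : ∀ᵐ t : ℝ, t ≠ a := by
      simp [ae_iff, measure_singleton]
    filter_upwards [hγ.ae_diff, hfin, hfin2] with r hr hrb hra hrI
    have hrO : r ∈ Ioo a b := ⟨lt_of_le_of_ne hrI.1 hra.symm, lt_of_le_of_ne hrI.2 hrb⟩
    have h1 := hbd r hrO hr
    have hdn := hγ.dens_nonneg hr t₀
    rw [norm_mul]
    have h2 : ‖c r‖ ≤ lam / 2 + ‖c r‖ ^ 2 / (2 * lam) := by
      have : 0 ≤ (‖c r‖ - lam) ^ 2 := sq_nonneg _
      have e : lam / 2 + ‖c r‖ ^ 2 / (2 * lam) - ‖c r‖ = (‖c r‖ - lam) ^ 2 / (2 * lam) := by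
        field_simp
        ring
      have : 0 ≤ (‖c r‖ - lam) ^ 2 / (2 * lam) := by positivity
      linarith
    calc ‖c r‖ * ‖deriv γ r‖ ≤ ‖c r‖ * (C * dens γ (γ t₀) r) :=
          mul_le_mul_of_nonneg_left h1 (norm_nonneg _)
      _ = C * (‖c r‖ * dens γ (γ t₀) r) := by ring
      _ ≤ C * ((lam / 2 + ‖c r‖ ^ 2 / (2 * lam)) * dens γ (γ t₀) r) := by
          apply mul_le_mul_of_nonneg_left _ hC
          exact mul_le_mul_of_nonneg_right h2 hdn
      _ = _ := by ring
  have hA : IntervalIntegrable (fun r => (lam / 2) * dens γ (γ t₀) r) volume a b :=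
    (dens_ii_all hγ hd a b).const_mul _
  have hB : IntervalIntegrable (fun r => (1 / (2 * lam)) * (‖c r‖ ^ 2 * dens γ (γ t₀) r))
      volume a b := (weighted_ii hγ hd hc2 a b).const_mul _
  have hRHS : IntervalIntegrable (fun r => C * ((lam / 2) * dens γ (γ t₀) r
        + (1 / (2 * lam)) * (‖c r‖ ^ 2 * dens γ (γ t₀) r))) volume a b :=
    (hA.add hB).const_mul _
  have hmono := intervalIntegral.integral_mono_ae_restrict hab hii hRHS
    ((ae_restrict_iff' measurableSet_Icc).mpr hae)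
  refine hmono.trans ?_
  rw [intervalIntegral.integral_const_mul, intervalIntegral.integral_add hA hB,
    intervalIntegral.integral_const_mul, intervalIntegral.integral_const_mul]
  apply mul_le_mul_of_nonneg_left _ hC
  have h3 : (lam / 2) * (∫ r in a..b, dens γ (γ t₀) r) ≤ lam / 2 * 1 :=
    mul_le_mul_of_nonneg_left hm1 (by positivity)
  have h4 : (1 / (2 * lam)) * (∫ r in a..b, ‖c r‖ ^ 2 * dens γ (γ t₀) r)
      ≤ (1 / (2 * lam)) * Ebar :=
    mul_le_mul_of_nonneg_left (hm2.trans hE) (by positivity)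
  have e : Ebar / (2 * lam) = (1 / (2 * lam)) * Ebar := by ring
  rw [e]
  linarith

end Global

end Vale.Agent.Lib.P123H99
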