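import Mathlib
import Vale.Agent.Lib.P123H99.Curve

/-! Curves normalised at a regular point: directions seen from the base point. -/

namespace Vale.Agent.Lib.P123H99

open MeasureTheory Set Filter Topology Complex
open scoped Real ComplexConjugate

set_option linter.unusedSectionVars false
set_option linter.unusedSimpArgs false
set_option linter.unusedVariables false

variable {γ : ℝ → ℂ}

/-- A closed convex curve through the origin at parameter zero, tangent to the real axis there. -/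
structure NormCurve (γ : ℝ → ℂ) : Prop where
  conv : ConvCurve γ
  zero : γ 0 = 0
  diff0 : DifferentiableAt ℝ γ 0
  re_pos : 0 < (deriv γ 0).re
  im_zero : (deriv γ 0).im = 0

lemma tang_coord (γ : ℝ → ℂ) (t : ℝ) (p : ℂ) :
    tang γ t p = (deriv γ t).re * (p.im - (γ t).im) - (deriv γ t).im * (p.re - (γ t).re) := by
  unfold tang
  simp only [Complex.mul_im, Complex.conj_re, Complex.conj_im, Complex.sub_re, Complex.sub_im]
  ring

lemma normSq_coord (a b : ℂ) : normSq (a - b) = (a.re - b.re) ^ 2 + (a.im - b.im) ^ 2 := by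
  rw [Complex.normSq_apply]; simp only [Complex.sub_re, Complex.sub_im]; ring

lemma cross_coord (a b : ℂ) : (conj a * b).im = a.re * b.im - a.im * b.re := by
  simp only [Complex.mul_im, Complex.conj_re, Complex.conj_im]; ring

namespace NormCurve

variable (hN : NormCurve γ)
include hN

lemma y_nonneg (t : ℝ) : 0 ≤ (γ t).im := by
  have h := hN.conv.support 0 hN.diff0 t
  rw [tang_coord, hN.zero, hN.im_zero] at h
  simp only [Complex.zero_im, sub_zero, zero_mul] at h
  exact nonneg_of_mul_nonneg_right h hN.re_pos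

lemma ne_zero {t : ℝ} (h0 : 0 < t) (h1 : t < 2 * π) : γ t ≠ 0 := by
  have := hN.conv.simple 0 t h0 (by simpa using h1)
  rw [hN.zero] at this
  exact this.symm

lemma cross0 {s r : ℝ} (hs : 0 < s) (hsr : s ≤ r) (hr : r < 2 * π) :
    0 ≤ (γ s).re * (γ r).im - (γ s).im * (γ r).re := by
  have h := cross_nonneg hN.conv hN.diff0 (t₀ := 0) (s := s) (r := r) hs hsr (by simpa using hr)
  rw [hN.zero, sub_zero, sub_zero, cross_coord] at h
  exact h

lemma Wv_re_eq (t : ℝ) : (Wv γ 0 t).re = (deriv γ 0).re * (γ t).im := by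
  rw [Wv_re]; unfold wv
  rw [hN.zero, sub_zero]
  simp [Complex.mul_im, hN.im_zero]

lemma Wv_im_eq (t : ℝ) : (Wv γ 0 t).im = -((deriv γ 0).re * (γ t).re) := by
  rw [Wv_im]; unfold wv
  rw [hN.zero, sub_zero]
  simp [Complex.mul_re, hN.im_zero]

/-- Direction from the angle. -/
lemma dir_of_theta {t v : ℝ} (h0 : 0 < t) (h1 : t < 2 * π)
    (h : Theta γ 0 t = π / 2 - Real.arctan v) : 0 < (γ t).im ∧ (γ t).re = v * (γ t).im := by
  have harg : arg (Wv γ 0 t) = -Real.arctan v := by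
    unfold Theta at h; linarith
  have hb1 := Real.neg_pi_div_two_lt_arctan v
  have hb2 := Real.arctan_lt_pi_div_two v
  have habs : |arg (Wv γ 0 t)| < π / 2 := by
    rw [harg, abs_lt]; constructor <;> linarith
  have htI : t ∈ Ioo (0 : ℝ) (0 + 2 * π) := ⟨h0, by simpa using h1⟩
  have hslit := Wv_slit hN.conv hN.diff0 htI
  have hne : Wv γ 0 t ≠ 0 := slitPlane_ne_zero hslit
  have hre : 0 < (Wv γ 0 t).re := by
    have := (Complex.abs_arg_lt_pi_div_two_iff).mp habs
    rcases this with h | h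
    · exact h
    · exact absurd h hne
  rw [hN.Wv_re_eq] at hre
  have hy : 0 < (γ t).im := (pos_iff_pos_of_mul_pos hre).mp hN.re_pos
  refine ⟨hy, ?_⟩
  have htan := Complex.tan_arg (Wv γ 0 t)
  rw [harg, Real.tan_neg, Real.tan_arctan, hN.Wv_re_eq, hN.Wv_im_eq] at htan
  have hg := hN.re_pos
  field_simp at htan
  linarith

/-- Every direction is attained. -/
lemma exists_dir (v : ℝ) : ∃ t, 0 < t ∧ t < 2 * π ∧ 0 < (γ t).im ∧ (γ t).re = v * (γ t).im ∧
    Theta γ 0 t = π / 2 - Real.arctan v := by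
  set θ := π / 2 - Real.arctan v with hθ
  have hpi := Real.pi_pos
  have hb1 := Real.neg_pi_div_two_lt_arctan v
  have hb2 := Real.arctan_lt_pi_div_two v
  have hθ0 : 0 < θ := by rw [hθ]; linarith
  have hθ1 : θ < π := by rw [hθ]; linarith
  have hconv := hN.conv
  have hd := hN.diff0
  have h2pi : (0 : ℝ) < 0 + 2 * π := by linarith
  -- start of the curve
  obtain ⟨a, ha0, ha2, haθ⟩ : ∃ a, 0 < a ∧ a < 2 * π ∧ Theta γ 0 a < θ := by
    have h1 := theta_tendsto_zero hconv hd
    have h2 : ∀ᶠ t in 𝓝[>] (0 : ℝ), Theta γ 0 t < θ := h1.eventually (gt_mem_nhds hθ0)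
    have h3 : ∀ᶠ t in 𝓝[>] (0 : ℝ), t < 2 * π :=
      mem_nhdsWithin_of_mem_nhds (gt_mem_nhds (by linarith))
    have h4 : ∀ᶠ t in 𝓝[>] (0 : ℝ), 0 < t := self_mem_nhdsWithin
    obtain ⟨a, h5, h6, h7⟩ := (h2.and (h3.and h4)).exists
    exact ⟨a, h7, h6, h5⟩
  obtain ⟨b, hb0, hb2', hbθ⟩ : ∃ b, 0 < b ∧ b < 2 * π ∧ θ < Theta γ 0 b := by
    have h1 := theta_tendsto_pi hconv hd
    rw [zero_add] at h1
    have h2 : ∀ᶠ t in 𝓝[<] (2 * π), θ < Theta γ 0 t := h1.eventually (lt_mem_nhds hθ1)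
    have h3 : ∀ᶠ t in 𝓝[<] (2 * π), 0 < t :=
      mem_nhdsWithin_of_mem_nhds (lt_mem_nhds (by linarith))
    have h4 : ∀ᶠ t in 𝓝[<] (2 * π), t < 2 * π := self_mem_nhdsWithin
    obtain ⟨b, h5, h6, h7⟩ := (h2.and (h3.and h4)).exists
    exact ⟨b, h6, h7, h5⟩
  have hab : a ≤ b := by
    by_contra hc
    have hc' : b ≤ a := (not_le.mp hc).le
    have := theta_mono hconv hd (t₀ := 0) (s := b) (r := a) hb0 hc' (by simpa using ha2)
    linarith
  have hcont : ContinuousOn (Theta γ 0) (Icc a b) := fun t ht =>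
    (theta_cont hconv hd (t₀ := 0) (t := t) ⟨by linarith [ht.1], by
      have := ht.2; rw [zero_add]; linarith⟩).continuousWithinAt
  obtain ⟨t, ht, hte⟩ := intermediate_value_Icc hab hcont ⟨haθ.le, hbθ.le⟩
  have ht0 : 0 < t := by linarith [ht.1]
  have ht2 : t < 2 * π := by linarith [ht.2]
  obtain ⟨h5, h6⟩ := hN.dir_of_theta ht0 ht2 hte
  exact ⟨t, ht0, ht2, h5, h6, hte⟩

lemma dir_lt {s r v₁ v₂ : ℝ} (hs : 0 < s) (hs2 : s < 2 * π) (hr : 0 < r) (hr2 : r < 2 * π)
    (h1 : 0 < (γ s).im) (h2 : (γ s).re = v₁ * (γ s).im)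
    (h3 : 0 < (γ r).im) (h4 : (γ r).re = v₂ * (γ r).im) (hv : v₂ < v₁) : s < r := by
  by_contra hc
  have hc' : r ≤ s := not_lt.mp hc
  have := hN.cross0 hr hc' hs2
  rw [h2, h4] at this
  have h5 : (v₁ - v₂) * ((γ s).im * (γ r).im) > 0 :=
    mul_pos (sub_pos.mpr hv) (mul_pos h1 h3)
  nlinarith

/-- Points between two directions. -/
lemma between {s t r v₁ v₂ : ℝ} (hs : 0 < s) (hst : s ≤ t) (htr : t ≤ r) (hr2 : r < 2 * π)
    (h1 : 0 < (γ s).im) (h2 : (γ s).re = v₂ * (γ s).im)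
    (h3 : 0 < (γ r).im) (h4 : (γ r).re = v₁ * (γ r).im) :
    0 < (γ t).im ∧ v₁ * (γ t).im ≤ (γ t).re ∧ (γ t).re ≤ v₂ * (γ t).im := by
  have hc1 := hN.cross0 hs hst (by linarith)
  have hc2 := hN.cross0 (by linarith : 0 < t) htr hr2
  rw [h2] at hc1
  rw [h4] at hc2
  have hy := hN.y_nonneg t
  have hA : (γ t).re ≤ v₂ * (γ t).im := by
    have : 0 ≤ (γ s).im * (v₂ * (γ t).im - (γ t).re) := by nlinarith
    exact sub_nonneg.mp (nonneg_of_mul_nonneg_right this h1)
  have hB : v₁ * (γ t).im ≤ (γ t).re := by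
    have : 0 ≤ (γ r).im * ((γ t).re - v₁ * (γ t).im) := by nlinarith
    exact sub_nonneg.mp (nonneg_of_mul_nonneg_right this h3)
  refine ⟨?_, hB, hA⟩
  rcases hy.lt_or_eq with h | h
  · exact h
  · exfalso
    apply hN.ne_zero (by linarith : 0 < t) (by linarith)
    rw [← h] at hA hB
    apply Complex.ext
    · simp only [Complex.zero_re]; linarith
    · simpa using h.symm

/-- The visual mass of a direction window. -/
lemma window_mass {s r v₁ v₂ : ℝ} (hs : 0 < s) (hsr : s ≤ r) (hr : r < 2 * π)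
    (h1 : Theta γ 0 s = π / 2 - Real.arctan v₂) (h2 : Theta γ 0 r = π / 2 - Real.arctan v₁) :
    ∫ t in s..r, dens γ (γ 0) t = (Real.arctan v₂ - Real.arctan v₁) / π := by
  rw [theta_sub hN.conv hN.diff0 (t₀ := 0) hs hsr (by simpa using hr), h1, h2]
  congr 1; ring

/-- Selection of a good point in a window by the mean value principle. -/
lemma exists_good {B : ℝ → ℝ} (hB : Continuous B) (hB0 : ∀ t, 0 ≤ B t) {b M s r : ℝ} (hb : 0 < b)
    (hint : ∫ t in (0 : ℝ)..(2 * π), B t * dens γ (γ 0) t ≤ b)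
    (hs : 0 < s) (hsr : s ≤ r) (hr : r < 2 * π) (hM : 0 < M)
    (hmass : M ≤ ∫ t in s..r, dens γ (γ 0) t) :
    ∃ t ∈ Icc s r, DifferentiableAt ℝ γ t ∧ B t ≤ 2 * b / M := by
  by_contra hc
  push Not at hc
  have hconv := hN.conv
  have hd := hN.diff0
  have h1 : ∫ t in s..r, B t * dens γ (γ 0) t ≤ b := by
    refine le_trans ?_ hint
    exact weighted_sub_le hconv hd hB hB0 hs.le hsr hr.le
  have hc0 : Continuous fun _ : ℝ => 2 * b / M := continuous_const
  have h2 : (2 * b / M) * (∫ t in s..r, dens γ (γ 0) t) ≤ ∫ t in s..r, B t * dens γ (γ 0) t := by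
    rw [← intervalIntegral.integral_const_mul]
    apply intervalIntegral.integral_mono_ae_restrict hsr
    · exact (dens_ii_all hconv hd s r).const_mul _
    · exact weighted_ii hconv hd hB s r
    · apply (ae_restrict_iff' measurableSet_Icc).mpr
      filter_upwards [hconv.ae_diff] with t hdt ht
      exact mul_le_mul_of_nonneg_right (hc t ht hdt).le (hconv.dens_nonneg hdt 0)
  have h3 : (2 * b / M) * M ≤ (2 * b / M) * (∫ t in s..r, dens γ (γ 0) t) :=
    mul_le_mul_of_nonneg_left hmass (by positivity)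
  have h4 : (2 * b / M) * M = 2 * b := by field_simp
  linarith

end NormCurve

/-- Lower bound for the difference of two values of the arctangent. -/
lemma arctan_diff_ge {a b : ℝ} (hb : 0 ≤ b) (hab : b < a) :
    (a - b) / (1 + a ^ 2) ≤ Real.arctan a - Real.arctan b := by
  obtain ⟨c, hc, hc2⟩ := exists_deriv_eq_slope Real.arctan hab
    Real.continuous_arctan.continuousOn (Real.differentiable_arctan.differentiableOn)
  rw [Real.deriv_arctan] at hc2
  have hab' : 0 < a - b := sub_pos.mpr hab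
  have h1 : 1 / (1 + a ^ 2) ≤ 1 / (1 + c ^ 2) := by
    apply one_div_le_one_div_of_le (by positivity)
    have := hc.1; have := hc.2
    nlinarith
  have hc3 : 1 / (1 + c ^ 2) = (Real.arctan a - Real.arctan b) / (a - b) := hc2
  have h2 : Real.arctan a - Real.arctan b = (1 / (1 + c ^ 2)) * (a - b) := by
    rw [hc3]; field_simp
  rw [h2, div_eq_mul_inv, mul_comm]
  have : (1 + a ^ 2)⁻¹ = 1 / (1 + a ^ 2) := by simp
  rw [this]
  exact mul_le_mul_of_nonneg_right h1 hab'.le

end Vale.Agent.Lib.P123H99
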