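import Mathlib
import Vale.Agent.Lib.P123H99.Normal

/-! Convex domains with boundary curve: primitives, chord bound, Cauchy formula. -/

namespace Vale.Agent.Lib.P123H99

open MeasureTheory Set Filter Topology Complex Metric
open scoped Real ComplexConjugate

set_option linter.unusedSectionVars false
set_option linter.unusedSimpArgs false
set_option linter.unusedVariables false
set_option linter.deprecated false

/-- Holomorphic functions have primitives on convex open sets. -/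
theorem exists_primitive {Ω : Set ℂ} (hO : IsOpen Ω) (hC : Convex ℝ Ω) {c : ℂ} (hc : c ∈ Ω)
    {φ : ℂ → ℂ} (hφ : DifferentiableOn ℂ φ Ω) :
    ∃ Φ : ℂ → ℂ, ∀ p ∈ Ω, HasDerivAt Φ (φ p) p := by
  have hseg : ∀ p ∈ Ω, ∀ s ∈ Icc (0 : ℝ) 1, c + (s : ℂ) * (p - c) ∈ Ω := by
    intro p hp s hs
    have := hC hc hp (by linarith [hs.2] : 0 ≤ 1 - s) hs.1 (by ring)
    convert this using 1
    simp only [Complex.real_smul]
    push_cast
    ring
  have hφ' : DifferentiableOn ℂ (deriv φ) Ω := hφ.deriv hO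
  refine ⟨fun p => ∫ s in (0 : ℝ)..1, (p - c) * φ (c + (s : ℂ) * (p - c)), ?_⟩
  intro p₀ hp₀
  obtain ⟨r, hr, hball⟩ := Metric.isOpen_iff.mp hO p₀ hp₀
  have hr2 : closedBall p₀ (r / 2) ⊆ Ω := fun x hx =>
    hball (lt_of_le_of_lt (Metric.mem_closedBall.mp hx) (by linarith))
  have hc1 : Continuous fun q : ℝ × ℂ => c + (q.1 : ℂ) * (q.2 - c) := by fun_prop
  have hK : IsCompact ((fun q : ℝ × ℂ => c + (q.1 : ℂ) * (q.2 - c)) ''
      (Icc (0 : ℝ) 1 ×ˢ closedBall p₀ (r / 2))) :=
    (isCompact_Icc.prod (isCompact_closedBall _ _)).image hc1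
  have hKΩ : ((fun q : ℝ × ℂ => c + (q.1 : ℂ) * (q.2 - c)) ''
      (Icc (0 : ℝ) 1 ×ˢ closedBall p₀ (r / 2))) ⊆ Ω := by
    rintro _ ⟨⟨s, q⟩, ⟨hs, hq⟩, rfl⟩
    exact hseg q (hr2 hq) s hs
  obtain ⟨B, hB⟩ := hK.exists_bound_of_continuousOn (hφ'.continuousOn.mono hKΩ)
  obtain ⟨B2, hB2⟩ := hK.exists_bound_of_continuousOn (hφ.continuousOn.mono hKΩ)
  have hB2' : 0 ≤ |B2| := abs_nonneg _
  set F : ℂ → ℝ → ℂ := fun p s => (p - c) * φ (c + (s : ℂ) * (p - c)) with hF
  set F' : ℂ → ℝ → ℂ := fun p s => φ (c + (s : ℂ) * (p - c))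
    + (p - c) * ((s : ℂ) * deriv φ (c + (s : ℂ) * (p - c))) with hF'
  have hmem : ∀ p ∈ closedBall p₀ (r / 2), ∀ s ∈ Icc (0 : ℝ) 1,
      c + (s : ℂ) * (p - c) ∈ (fun q : ℝ × ℂ => c + (q.1 : ℂ) * (q.2 - c)) ''
        (Icc (0 : ℝ) 1 ×ˢ closedBall p₀ (r / 2)) := fun p hp s hs => ⟨(s, p), ⟨hs, hp⟩, rfl⟩
  have hcs : ∀ p ∈ Ω, ContinuousOn (fun s : ℝ => φ (c + (s : ℂ) * (p - c))) (Icc 0 1) := by
    intro p hp
    apply hφ.continuousOn.comp (by fun_prop)
    intro s hs; exact hseg p hp s hs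
  have hcs' : ∀ p ∈ Ω, ContinuousOn (fun s : ℝ => deriv φ (c + (s : ℂ) * (p - c))) (Icc 0 1) := by
    intro p hp
    apply hφ'.continuousOn.comp (by fun_prop)
    intro s hs; exact hseg p hp s hs
  have hU : (1 : ℝ) ≠ 0 := one_ne_zero
  have hIoc : Set.uIoc (0 : ℝ) 1 = Ioc 0 1 := uIoc_of_le zero_le_one
  have hpb : ∀ᶠ x in 𝓝 p₀, x ∈ closedBall p₀ (r / 2) :=
    Metric.closedBall_mem_nhds _ (by positivity)
  have hd := intervalIntegral.hasDerivAt_integral_of_dominated_loc_of_deriv_le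
    (𝕜 := ℂ) (μ := volume) (a := 0) (b := 1) (F := F) (F' := F') (x₀ := p₀)
    (s := closedBall p₀ (r / 2)) (bound := fun _ => |B2| + (‖p₀ - c‖ + r) * |B|)
    (Metric.closedBall_mem_nhds _ (by positivity))
    (by
      filter_upwards [hpb] with x hx
      rw [hIoc]
      have h1 : ContinuousOn (F x) (Icc 0 1) := continuousOn_const.mul (hcs x (hr2 hx))
      exact (h1.mono Ioc_subset_Icc_self).aestronglyMeasurable measurableSet_Ioc)
    (by
      have h1 : ContinuousOn (F p₀) (Icc 0 1) := continuousOn_const.mul (hcs p₀ hp₀)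
      apply ContinuousOn.intervalIntegrable
      rwa [uIcc_of_le zero_le_one])
    (by
      rw [hIoc]
      have h1 : ContinuousOn (F' p₀) (Icc 0 1) := by
        apply (hcs p₀ hp₀).add
        apply continuousOn_const.mul
        apply ContinuousOn.mul (by fun_prop) (hcs' p₀ hp₀)
      exact (h1.mono Ioc_subset_Icc_self).aestronglyMeasurable measurableSet_Ioc)
    (by
      refine Eventually.of_forall fun s hs x hx => ?_
      rw [hIoc] at hs
      have hs' : s ∈ Icc (0 : ℝ) 1 := Ioc_subset_Icc_self hs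
      have h1 := hB2 _ (hmem x hx s hs')
      have h2 := hB _ (hmem x hx s hs')
      have h3 : ‖x - c‖ ≤ ‖p₀ - c‖ + r := by
        have h4 : ‖x - p₀‖ ≤ r / 2 := by
          rw [← dist_eq_norm]; exact Metric.mem_closedBall.mp hx
        calc ‖x - c‖ = ‖(x - p₀) + (p₀ - c)‖ := by ring_nf
          _ ≤ ‖x - p₀‖ + ‖p₀ - c‖ := norm_add_le _ _
          _ ≤ _ := by linarith
      have h5 : ‖(s : ℂ)‖ ≤ 1 := by
        rw [Complex.norm_real, Real.norm_eq_abs, abs_of_pos hs.1]; exact hs.2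
      simp only [hF']
      calc _ ≤ ‖φ (c + (s : ℂ) * (x - c))‖
            + ‖(x - c) * ((s : ℂ) * deriv φ (c + (s : ℂ) * (x - c)))‖ := norm_add_le _ _
        _ ≤ |B2| + (‖p₀ - c‖ + r) * |B| := by
            apply add_le_add (h1.trans (le_abs_self _))
            rw [norm_mul, norm_mul]
            apply mul_le_mul h3 _ (by positivity) (by positivity)
            calc _ ≤ 1 * ‖deriv φ (c + (s : ℂ) * (x - c))‖ :=
                  mul_le_mul_of_nonneg_right h5 (norm_nonneg _)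
              _ ≤ |B| := by rw [one_mul]; exact h2.trans (le_abs_self _))
    (intervalIntegrable_const)
    (by
      refine Eventually.of_forall fun s hs x hx => ?_
      rw [hIoc] at hs
      have hs' : s ∈ Icc (0 : ℝ) 1 := Ioc_subset_Icc_self hs
      have hxm := hseg x (hr2 hx) s hs'
      have hdφ : HasDerivAt φ (deriv φ (c + (s : ℂ) * (x - c))) (c + (s : ℂ) * (x - c)) :=
        ((hφ _ hxm).differentiableAt (hO.mem_nhds hxm)).hasDerivAt
      have hin : HasDerivAt (fun p : ℂ => c + (s : ℂ) * (p - c)) (s : ℂ) x := by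
        have := ((hasDerivAt_id x).sub_const c).const_mul (s : ℂ)
        simpa using this.const_add c
      have hcomp : HasDerivAt (fun p : ℂ => φ (c + (s : ℂ) * (p - c)))
          (deriv φ (c + (s : ℂ) * (x - c)) * (s : ℂ)) x := hdφ.comp x hin
      have h1 : HasDerivAt (fun p : ℂ => (p - c) * φ (c + (s : ℂ) * (p - c)))
          (1 * φ (c + (s : ℂ) * (x - c)) + (x - c) * (deriv φ (c + (s : ℂ) * (x - c)) * (s : ℂ))) x :=
        ((hasDerivAt_id' x).sub_const c).fun_mul hcomp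
      show HasDerivAt (fun p : ℂ => (p - c) * φ (c + (s : ℂ) * (p - c)))
        (φ (c + (s : ℂ) * (x - c)) + (x - c) * ((s : ℂ) * deriv φ (c + (s : ℂ) * (x - c)))) x
      exact h1.congr_deriv (by ring))
  have hval : ∫ s in (0 : ℝ)..1, F' p₀ s = φ p₀ := by
    have hder : ∀ s ∈ uIcc (0 : ℝ) 1, HasDerivAt (fun s : ℝ => (s : ℂ) * φ (c + (s : ℂ) * (p₀ - c)))
        (F' p₀ s) s := by
      intro s hs
      rw [uIcc_of_le zero_le_one] at hs
      have hxm := hseg p₀ hp₀ s hs
      have hdφ : HasDerivAt φ (deriv φ (c + (s : ℂ) * (p₀ - c))) (c + (s : ℂ) * (p₀ - c)) :=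
        ((hφ _ hxm).differentiableAt (hO.mem_nhds hxm)).hasDerivAt
      have hid : HasDerivAt (fun s : ℝ => (s : ℂ)) 1 s := (hasDerivAt_id s).ofReal_comp
      have hin : HasDerivAt (fun s : ℝ => c + (s : ℂ) * (p₀ - c)) (p₀ - c) s := by
        have := (hid.mul_const (p₀ - c)).const_add c
        simpa using this
      have hcomp : HasDerivAt (fun s : ℝ => φ (c + (s : ℂ) * (p₀ - c)))
          ((p₀ - c) • deriv φ (c + (s : ℂ) * (p₀ - c))) s := HasDerivAt.scomp s hdφ hin
      have h1 : HasDerivAt (fun s : ℝ => (s : ℂ) * φ (c + (s : ℂ) * (p₀ - c)))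
          (1 * φ (c + (s : ℂ) * (p₀ - c))
            + (s : ℂ) * ((p₀ - c) • deriv φ (c + (s : ℂ) * (p₀ - c)))) s := hid.fun_mul hcomp
      show HasDerivAt (fun s : ℝ => (s : ℂ) * φ (c + (s : ℂ) * (p₀ - c)))
        (φ (c + (s : ℂ) * (p₀ - c)) + (p₀ - c) * ((s : ℂ) * deriv φ (c + (s : ℂ) * (p₀ - c)))) s
      refine h1.congr_deriv ?_
      rw [smul_eq_mul]; ring
    have hint : IntervalIntegrable (F' p₀) volume 0 1 := hd.1
    rw [intervalIntegral.integral_eq_sub_of_hasDerivAt hder hint]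
    simp
  have := hd.2
  rwa [hval] at this


/-- A bounded convex domain with a parametrisation of its boundary. -/
structure Dom (Ω : Set ℂ) (γ : ℝ → ℂ) (c : ℂ) : Prop where
  isOpen : IsOpen Ω
  convex : Convex ℝ Ω
  bdd : Bornology.IsBounded Ω
  c_mem : c ∈ Ω
  curve : ConvCurve γ
  mem_fr : ∀ t, γ t ∈ frontier Ω
  surj : ∀ p ∈ frontier Ω, ∃ t, γ t = p
  support : ∀ t, DifferentiableAt ℝ γ t → ∀ p ∈ closure Ω, 0 ≤ tang γ t p
  winding : ∫ t in (0 : ℝ)..(2 * π), deriv γ t / (γ t - c) = 2 * π * I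

/-- The class of functions continuous on the closure and holomorphic inside. -/
def IsA (Ω : Set ℂ) (k : ℂ → ℂ) : Prop :=
  ContinuousOn k (closure Ω) ∧ DifferentiableOn ℂ k Ω

lemma IsA.add {Ω : Set ℂ} {f g : ℂ → ℂ} (hf : IsA Ω f) (hg : IsA Ω g) :
    IsA Ω fun z => f z + g z := ⟨hf.1.add hg.1, hf.2.add hg.2⟩

lemma IsA.sub {Ω : Set ℂ} {f g : ℂ → ℂ} (hf : IsA Ω f) (hg : IsA Ω g) :
    IsA Ω fun z => f z - g z := ⟨hf.1.sub hg.1, hf.2.sub hg.2⟩

lemma IsA.mul {Ω : Set ℂ} {f g : ℂ → ℂ} (hf : IsA Ω f) (hg : IsA Ω g) :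
    IsA Ω fun z => f z * g z := ⟨hf.1.mul hg.1, hf.2.mul hg.2⟩

lemma IsA.const {Ω : Set ℂ} (a : ℂ) : IsA Ω fun _ => a :=
  ⟨continuousOn_const, differentiableOn_const a⟩

lemma IsA.const_mul {Ω : Set ℂ} {f : ℂ → ℂ} (a : ℂ) (hf : IsA Ω f) : IsA Ω fun z => a * f z :=
  (IsA.const a).mul hf

namespace Dom

variable {Ω : Set ℂ} {γ : ℝ → ℂ} {c : ℂ} (hD : Dom Ω γ c)
include hD

lemma disjoint_fr {p : ℂ} (hp : p ∈ Ω) (t : ℝ) : γ t ≠ p := by
  intro h
  have h1 := hD.mem_fr t
  rw [h, frontier, hD.isOpen.interior_eq] at h1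
  exact h1.2 hp

lemma mem_closure (t : ℝ) : γ t ∈ closure Ω := frontier_subset_closure (hD.mem_fr t)

lemma compact_closure : IsCompact (closure Ω) :=
  hD.bdd.isCompact_closure

/-- Uniform distance from the boundary. -/
lemma dist_pos {p : ℂ} (hp : p ∈ Ω) : ∃ δ > 0, ∀ t, δ ≤ ‖γ t - p‖ := by
  obtain ⟨δ, hδ, hball⟩ := Metric.isOpen_iff.mp hD.isOpen p hp
  refine ⟨δ, hδ, fun t => ?_⟩
  by_contra h
  have : γ t ∈ ball p δ := by
    rw [mem_ball, dist_eq_norm]; exact not_le.mp h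
  exact hD.disjoint_fr (hball this) t rfl

lemma dilate_mem {r : ℝ} (hr0 : 0 ≤ r) (hr1 : r < 1) (t : ℝ) : c + (r : ℂ) * (γ t - c) ∈ Ω := by
  have h := hD.convex.combo_closure_interior_mem_interior (hD.mem_closure t)
    (by rw [hD.isOpen.interior_eq]; exact hD.c_mem) hr0 (by linarith : 0 < 1 - r) (by ring)
  rw [hD.isOpen.interior_eq] at h
  convert h using 1
  simp only [Complex.real_smul]
  push_cast
  ring

/-- The chord bound. -/
theorem chord {φ : ℂ → ℂ} (hφ : IsA Ω φ) {M : ℝ} (hM : ∀ p ∈ closure Ω, ‖φ p‖ ≤ M) {a b : ℝ}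
    (hab : a ≤ b) : ‖∫ t in a..b, φ (γ t) * deriv γ t‖ ≤ M * ‖γ b - γ a‖ := by
  obtain ⟨Φ, hΦ⟩ := exists_primitive hD.isOpen hD.convex hD.c_mem hφ.2
  have hconv := hD.curve
  obtain ⟨L, hL⟩ := hconv.lip
  obtain ⟨C, hC0, hC⟩ := hconv.exists_deriv_bound
  have hM0 : 0 ≤ M := (norm_nonneg _).trans (hM _ (hD.mem_closure 0))
  have hΦd : DifferentiableOn ℂ Φ Ω := fun p hp => (hΦ p hp).differentiableAt.differentiableWithinAt
  -- the dilated curves
  have hw : ∀ r : ℝ, 0 < r → r < 1 → ‖∫ t in a..b, φ (c + (r : ℂ) * (γ t - c)) * ((r : ℂ) * deriv γ t)‖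
      ≤ M * ‖γ b - γ a‖ := by
    intro r hr0 hr1
    set w : ℝ → ℂ := fun t => c + (r : ℂ) * (γ t - c) with hwdef
    have hwL : ∃ K : NNReal, LipschitzWith K w := by
      refine ⟨r.toNNReal * L, LipschitzWith.of_dist_le_mul ?_⟩
      intro s t
      have e : w s - w t = (r : ℂ) * (γ s - γ t) := by simp only [hwdef]; ring
      rw [dist_eq_norm, e, norm_mul, Complex.norm_real, Real.norm_eq_abs, abs_of_pos hr0]
      have := hL.dist_le_mul s t
      rw [dist_eq_norm] at this
      push_cast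
      rw [Real.coe_toNNReal r hr0.le, mul_assoc]
      exact mul_le_mul_of_nonneg_left this hr0.le
    obtain ⟨K, hK⟩ := hwL
    have hwΩ : ∀ t, w t ∈ Ω := fun t => hD.dilate_mem hr0.le hr1 t
    have key := ftc_comp hD.isOpen hΦd hK hab (fun t _ => hwΩ t)
    have e : ∫ t in a..b, φ (c + (r : ℂ) * (γ t - c)) * ((r : ℂ) * deriv γ t)
        = ∫ t in a..b, deriv Φ (w t) * deriv w t := by
      apply intervalIntegral.integral_congr_ae
      filter_upwards [hL.ae_differentiableAt] with t hd _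
      have h1 : deriv Φ (w t) = φ (w t) := (hΦ _ (hwΩ t)).deriv
      have h2 : HasDerivAt w ((r : ℂ) * deriv γ t) t :=
        ((hd.hasDerivAt.sub_const c).const_mul (r : ℂ)).const_add c
      rw [h1, h2.deriv]
    rw [e, key]
    have hlip : ‖Φ (w b) - Φ (w a)‖ ≤ M * ‖w b - w a‖ := by
      apply hD.convex.norm_image_sub_le_of_norm_hasDerivWithin_le
        (f := Φ) (f' := φ) (C := M) (x := w a) (y := w b)
      · intro x hx; exact (hΦ x hx).hasDerivWithinAt
      · intro x hx; exact hM x (subset_closure hx)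
      · exact hwΩ a
      · exact hwΩ b
    refine hlip.trans ?_
    apply mul_le_mul_of_nonneg_left _ hM0
    have e2 : w b - w a = (r : ℂ) * (γ b - γ a) := by simp only [hwdef]; ring
    rw [e2, norm_mul, Complex.norm_real, Real.norm_eq_abs, abs_of_pos hr0]
    have := norm_nonneg (γ b - γ a)
    nlinarith
  -- pass to the limit
  have hlim : Tendsto (fun r : ℝ => ∫ t in a..b, φ (c + (r : ℂ) * (γ t - c)) * ((r : ℂ) * deriv γ t))
      (𝓝[<] 1) (𝓝 (∫ t in a..b, φ (γ t) * deriv γ t)) := by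
    apply intervalIntegral.tendsto_integral_filter_of_dominated_convergence (fun _ => M * C)
    · have h1 : ∀ᶠ r : ℝ in 𝓝[<] 1, 0 < r :=
        mem_nhdsWithin_of_mem_nhds (lt_mem_nhds (by norm_num))
      have h2 : ∀ᶠ r : ℝ in 𝓝[<] 1, r < 1 := self_mem_nhdsWithin
      filter_upwards [h1, h2] with r hr0 hr1
      have hcont : Continuous fun t => φ (c + (r : ℂ) * (γ t - c)) := by
        apply hφ.1.comp_continuous
        · have := hconv.cont
          fun_prop
        · intro t; exact subset_closure (hD.dilate_mem hr0.le hr1 t)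
      have : AEStronglyMeasurable (fun t => (r : ℂ) * deriv γ t) volume :=
        ((measurable_deriv γ).const_mul _).aestronglyMeasurable
      exact (hcont.aestronglyMeasurable.mul this).restrict
    · have h1 : ∀ᶠ r : ℝ in 𝓝[<] 1, 0 < r :=
        mem_nhdsWithin_of_mem_nhds (lt_mem_nhds (by norm_num))
      have h2 : ∀ᶠ r : ℝ in 𝓝[<] 1, r < 1 := self_mem_nhdsWithin
      filter_upwards [h1, h2] with r hr0 hr1
      refine Eventually.of_forall fun t _ => ?_
      rw [norm_mul, norm_mul, Complex.norm_real, Real.norm_eq_abs, abs_of_pos hr0]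
      apply mul_le_mul (hM _ (subset_closure (hD.dilate_mem hr0.le hr1 t))) _ (by positivity) hM0
      have := hC t
      have h3 := norm_nonneg (deriv γ t)
      nlinarith
    · exact intervalIntegrable_const
    · refine Eventually.of_forall fun t _ => ?_
      have h1 : Tendsto (fun r : ℝ => c + (r : ℂ) * (γ t - c)) (𝓝[<] 1)
          (𝓝[closure Ω] (γ t)) := by
        apply tendsto_nhdsWithin_iff.mpr
        constructor
        · have h2 : Tendsto (fun r : ℝ => c + (r : ℂ) * (γ t - c)) (𝓝 1)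
              (𝓝 (c + ((1 : ℝ) : ℂ) * (γ t - c))) := by
            apply Continuous.tendsto
            fun_prop
          have e : c + ((1 : ℝ) : ℂ) * (γ t - c) = γ t := by push_cast; ring
          rw [e] at h2
          exact h2.mono_left nhdsWithin_le_nhds
        · have h1 : ∀ᶠ r : ℝ in 𝓝[<] 1, 0 < r :=
            mem_nhdsWithin_of_mem_nhds (lt_mem_nhds (by norm_num))
          have h2 : ∀ᶠ r : ℝ in 𝓝[<] 1, r < 1 := self_mem_nhdsWithin
          filter_upwards [h1, h2] with r hr0 hr1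
          exact subset_closure (hD.dilate_mem hr0.le hr1 t)
      have h2 : Tendsto (fun r : ℝ => φ (c + (r : ℂ) * (γ t - c))) (𝓝[<] 1) (𝓝 (φ (γ t))) :=
        (hφ.1 _ (hD.mem_closure t)).tendsto.comp h1
      have h3 : Tendsto (fun r : ℝ => (r : ℂ) * deriv γ t) (𝓝[<] 1) (𝓝 (((1 : ℝ) : ℂ) * deriv γ t)) := by
        have h4 : Tendsto (fun r : ℝ => (r : ℂ) * deriv γ t) (𝓝 1) (𝓝 (((1 : ℝ) : ℂ) * deriv γ t)) := by
          apply Continuous.tendsto
          fun_prop
        exact h4.mono_left nhdsWithin_le_nhds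
      have e : ((1 : ℝ) : ℂ) * deriv γ t = deriv γ t := by simp
      rw [e] at h3
      exact h2.mul h3
  have hev : ∀ᶠ r : ℝ in 𝓝[<] 1,
      ‖∫ t in a..b, φ (c + (r : ℂ) * (γ t - c)) * ((r : ℂ) * deriv γ t)‖ ≤ M * ‖γ b - γ a‖ := by
    have h1 : ∀ᶠ r : ℝ in 𝓝[<] 1, 0 < r :=
      mem_nhdsWithin_of_mem_nhds (lt_mem_nhds (by norm_num))
    have h2 : ∀ᶠ r : ℝ in 𝓝[<] 1, r < 1 := self_mem_nhdsWithin
    filter_upwards [h1, h2] with r hr0 hr1
    exact hw r hr0 hr1
  exact le_of_tendsto hlim.norm hev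

/-- Functions of the class are bounded on the closure. -/
lemma exists_bound {φ : ℂ → ℂ} (hφ : IsA Ω φ) : ∃ M, ∀ p ∈ closure Ω, ‖φ p‖ ≤ M :=
  hD.compact_closure.exists_bound_of_continuousOn hφ.1

/-- Vanishing of loop integrals. -/
theorem loop {φ : ℂ → ℂ} (hφ : IsA Ω φ) : ∫ t in (0 : ℝ)..(2 * π), φ (γ t) * deriv γ t = 0 := by
  obtain ⟨M, hM⟩ := hD.exists_bound hφ
  have hpi := Real.pi_pos
  have h := hD.chord hφ hM (a := 0) (b := 2 * π) (by positivity)
  have e : γ (2 * π) = γ 0 := by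
    have := hD.curve.per 0
    rwa [zero_add] at this
  rw [e, sub_self, norm_zero, mul_zero] at h
  exact norm_le_zero_iff.mp h

/-- Winding number at every point of the domain. -/
theorem winding_all {z : ℂ} (hz : z ∈ Ω) :
    ∫ t in (0 : ℝ)..(2 * π), deriv γ t / (γ t - z) = 2 * π * I := by
  have hconv := hD.curve
  obtain ⟨L, hL⟩ := hconv.lip
  have hpi := Real.pi_pos
  set U : Set ℂ := {w | w - c ≠ 0} ∩ (fun w => (w - z) / (w - c)) ⁻¹' slitPlane with hU
  have hUo : IsOpen U := by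
    have h1 : IsOpen {w : ℂ | w - c ≠ 0} := isOpen_ne_fun (by fun_prop) continuous_const
    have h2 : ContinuousOn (fun w : ℂ => (w - z) / (w - c)) {w : ℂ | w - c ≠ 0} := by
      apply ContinuousOn.div (by fun_prop) (by fun_prop)
      intro w hw; exact hw
    exact h2.isOpen_inter_preimage h1 isOpen_slitPlane
  have hmem : ∀ t, γ t ∈ U := by
    intro t
    have hc : γ t - c ≠ 0 := sub_ne_zero.mpr (hD.disjoint_fr hD.c_mem t)
    refine ⟨hc, ?_⟩
    show (γ t - z) / (γ t - c) ∈ slitPlane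
    rw [Complex.mem_slitPlane_iff]
    by_contra hcon
    push Not at hcon
    obtain ⟨h1, h2⟩ := hcon
    set q := (γ t - z) / (γ t - c) with hq
    have hqr : q = ((-q.re : ℝ) : ℂ) * (-1) := by
      apply Complex.ext <;> simp [h2]
    have h3 : γ t - z = q * (γ t - c) := by rw [hq]; field_simp
    set l := -q.re with hl
    have hl0 : 0 ≤ l := by rw [hl]; linarith
    have h4 : γ t = z + (l / (1 + l) : ℝ) • (c - z) := by
      have hne : ((1 + l : ℝ) : ℂ) ≠ 0 := by
        have : (1 + l) ≠ 0 := by linarith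
        exact_mod_cast this
      rw [hqr] at h3
      simp only [Complex.real_smul]
      push_cast at hne ⊢
      field_simp
      linear_combination h3
    have h5 : γ t ∈ Ω := by
      rw [h4]
      have := hD.convex hz hD.c_mem (a := 1 - l / (1 + l)) (b := l / (1 + l))
        (by rw [sub_nonneg, div_le_one (by linarith)]; linarith) (by positivity) (by ring)
      convert this using 1
      simp only [Complex.real_smul, smul_eq_mul]
      push_cast
      ring
    exact hD.disjoint_fr h5 t rfl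
  have hd : ∀ w ∈ U, HasDerivAt (fun w => log ((w - z) / (w - c))) (1 / (w - z) - 1 / (w - c)) w := by
    intro w hw
    have hwc : w - c ≠ 0 := hw.1
    have hs : (w - z) / (w - c) ∈ slitPlane := hw.2
    have hwz : w - z ≠ 0 := by
      intro h
      rw [h, zero_div] at hs
      exact slitPlane_ne_zero hs rfl
    have h1 : HasDerivAt (fun w : ℂ => (w - z) / (w - c))
        ((1 * (w - c) - (w - z) * 1) / (w - c) ^ 2) w :=
      ((hasDerivAt_id' w).sub_const z).div ((hasDerivAt_id' w).sub_const c) hwc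
    have h2 := h1.clog hs
    refine h2.congr_deriv ?_
    field_simp
  have hdo : DifferentiableOn ℂ (fun w => log ((w - z) / (w - c))) U := fun w hw =>
    (hd w hw).differentiableAt.differentiableWithinAt
  have key := ftc_comp hUo hdo hL (a := 0) (b := 2 * π) (by positivity) (fun t _ => hmem t)
  have e2 : γ (2 * π) = γ 0 := by
    have := hconv.per 0
    rwa [zero_add] at this
  rw [e2, sub_self] at key
  have hi1 := hconv.quot_ii (p := z) (s := 0) (r := 2 * π) (fun t _ => hD.disjoint_fr hz t)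
  have hi2 := hconv.quot_ii (p := c) (s := 0) (r := 2 * π) (fun t _ => hD.disjoint_fr hD.c_mem t)
  have e3 : ∫ t in (0 : ℝ)..(2 * π), deriv (fun w => log ((w - z) / (w - c))) (γ t) * deriv γ t
      = ∫ t in (0 : ℝ)..(2 * π), (deriv γ t / (γ t - z) - deriv γ t / (γ t - c)) := by
    apply intervalIntegral.integral_congr
    intro t _
    simp only
    rw [(hd _ (hmem t)).deriv]
    ring
  rw [e3, intervalIntegral.integral_sub hi1 hi2, hD.winding, sub_eq_zero] at key
  exact key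

/-- Cauchy formula for the class. -/
theorem cauchy {k : ℂ → ℂ} (hk : IsA Ω k) {z : ℂ} (hz : z ∈ Ω) :
    ∫ t in (0 : ℝ)..(2 * π), k (γ t) * (deriv γ t / (γ t - z)) = 2 * π * I * k z := by
  have hconv := hD.curve
  have hnz : closure Ω ∈ 𝓝 z := mem_of_superset (hD.isOpen.mem_nhds hz) subset_closure
  have hdz : DifferentiableAt ℂ k z := (hk.2 z hz).differentiableAt (hD.isOpen.mem_nhds hz)
  have hφ : IsA Ω (dslope k z) :=
    ⟨(continuousOn_dslope hnz).mpr ⟨hk.1, hdz⟩,
      (Complex.differentiableOn_dslope (hD.isOpen.mem_nhds hz)).mpr hk.2⟩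
  have hl := hD.loop hφ
  have hne : ∀ t, γ t ≠ z := fun t => hD.disjoint_fr hz t
  have e : ∀ t, dslope k z (γ t) * deriv γ t
      = k (γ t) * (deriv γ t / (γ t - z)) - k z * (deriv γ t / (γ t - z)) := by
    intro t
    rw [dslope_of_ne _ (hne t), slope_def_field]
    have := sub_ne_zero.mpr (hne t)
    field_simp
  simp_rw [e] at hl
  have hi := hconv.quot_ii (p := z) (s := 0) (r := 2 * π) (fun t _ => hne t)
  have hcγ : ContinuousOn (fun t => k (γ t)) (uIcc 0 (2 * π)) :=
    (hk.1.comp_continuous hconv.cont (fun t => hD.mem_closure t)).continuousOn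
  rw [intervalIntegral.integral_sub (hi.continuousOn_mul hcγ) (hi.const_mul _),
    intervalIntegral.integral_const_mul, hD.winding_all hz, sub_eq_zero] at hl
  rw [hl]; ring

end Dom

end Vale.Agent.Lib.P123H99
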