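import Mathlib
import Vale.Agent.Lib.P123H99.Cauchy

/-! The Cauchy transform of the conjugate and its boundary values. -/

namespace Vale.Agent.Lib.P123H99

open MeasureTheory Set Filter Topology Complex Metric
open scoped Real ComplexConjugate

set_option linter.unusedSectionVars false
set_option linter.unusedSimpArgs false
set_option linter.unusedVariables false
set_option linter.deprecated false

/-- The Cauchy transform of the conjugate boundary values. -/
noncomputable def alphaI (γ : ℝ → ℂ) (k : ℂ → ℂ) (z : ℂ) : ℂ :=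
  (2 * π * I)⁻¹ * ∫ t in (0 : ℝ)..(2 * π), conj (k (γ t)) * (deriv γ t / (γ t - z))

/-- The averaging operator of the visual measure at a boundary point. -/
noncomputable def Nn (γ : ℝ → ℂ) (h : ℝ → ℂ) (t₀ : ℝ) : ℂ :=
  ∫ t in (0 : ℝ)..(2 * π), h t * ((dens γ (γ t₀) t : ℝ) : ℂ)

namespace Dom

variable {Ω : Set ℂ} {γ : ℝ → ℂ} {c : ℂ} (hD : Dom Ω γ c)
include hD

lemma dens_nonneg_in {z : ℂ} (hz : z ∈ closure Ω) {t : ℝ} (hd : DifferentiableAt ℝ γ t) :
    0 ≤ dens γ z t := dens_nonneg_of_tang (hD.support t hd z hz)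

lemma dens_ii_in {z : ℂ} (hz : z ∈ Ω) (a b : ℝ) : IntervalIntegrable (dens γ z) volume a b :=
  hD.curve.dens_ii (fun t _ => hD.disjoint_fr hz t)

lemma quot_ii_in {z : ℂ} (hz : z ∈ Ω) (a b : ℝ) :
    IntervalIntegrable (fun t => deriv γ t / (γ t - z)) volume a b :=
  hD.curve.quot_ii (fun t _ => hD.disjoint_fr hz t)

lemma mass_two {z : ℂ} (hz : z ∈ Ω) : ∫ t in (0 : ℝ)..(2 * π), dens γ z t = 2 := by
  rw [hD.curve.int_dens (fun t _ => hD.disjoint_fr hz t), hD.winding_all hz]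
  have hpi := Real.pi_pos
  simp

lemma comp_cont {k : ℂ → ℂ} (hk : IsA Ω k) : Continuous fun t => k (γ t) :=
  hk.1.comp_continuous hD.curve.cont (fun t => hD.mem_closure t)

lemma conj_quot_ii {z : ℂ} (hz : z ∈ Ω) (a b : ℝ) :
    IntervalIntegrable (fun t => conj (deriv γ t / (γ t - z))) volume a b := by
  obtain ⟨δ, hδ, hdist⟩ := hD.dist_pos hz
  obtain ⟨C, hC0, hC⟩ := hD.curve.exists_deriv_bound
  have hm : Measurable fun t => conj (deriv γ t / (γ t - z)) := by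
    apply Complex.continuous_conj.measurable.comp
    exact (measurable_deriv γ).div ((hD.curve.cont.sub continuous_const).measurable)
  refine ii_of_bdd (C := C / δ) hm.aestronglyMeasurable (Eventually.of_forall fun t => ?_) a b
  rw [Complex.norm_conj, norm_div]
  exact div_le_div₀ hC0 (hC t) hδ (hdist t)

/-- The jump relation inside the domain. -/
theorem jump {k : ℂ → ℂ} (hk : IsA Ω k) {z : ℂ} (hz : z ∈ Ω) :
    k z + conj (alphaI γ k z)
      = ∫ t in (0 : ℝ)..(2 * π), k (γ t) * ((dens γ z t : ℝ) : ℂ) := by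
  have hpi := Real.pi_pos
  have hcau := hD.cauchy hk hz
  have hne : (2 * π * I : ℂ) ≠ 0 := by
    simp [hpi.ne']
  have h1 : k z = (2 * π * I)⁻¹ * ∫ t in (0 : ℝ)..(2 * π), k (γ t) * (deriv γ t / (γ t - z)) := by
    rw [hcau]; field_simp
  have hcγ := hD.comp_cont hk
  have h2 : conj (∫ t in (0 : ℝ)..(2 * π), conj (k (γ t)) * (deriv γ t / (γ t - z)))
      = ∫ t in (0 : ℝ)..(2 * π), k (γ t) * conj (deriv γ t / (γ t - z)) := by
    have : ∀ t, k (γ t) * conj (deriv γ t / (γ t - z))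
        = conj (conj (k (γ t)) * (deriv γ t / (γ t - z))) := by
      intro t; simp
    simp_rw [this]
    simp only [intervalIntegral]
    rw [integral_conj, integral_conj, map_sub]
  have h3 : conj ((2 * π * I : ℂ)⁻¹) = -(2 * π * I : ℂ)⁻¹ := by
    rw [map_inv₀]
    have h2c : conj (2 : ℂ) = 2 := by
      have := Complex.conj_ofReal 2
      simpa using this
    have : conj (2 * π * I : ℂ) = -(2 * π * I) := by
      rw [map_mul, map_mul, h2c, Complex.conj_ofReal, Complex.conj_I]; ring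
    rw [this, inv_neg]
  unfold alphaI
  rw [map_mul, h2, h3]
  have hi1 : IntervalIntegrable (fun t => k (γ t) * (deriv γ t / (γ t - z))) volume 0 (2 * π) :=
    (hD.quot_ii_in hz _ _).continuousOn_mul hcγ.continuousOn
  have hi2 : IntervalIntegrable (fun t => k (γ t) * conj (deriv γ t / (γ t - z))) volume 0 (2 * π) :=
    (hD.conj_quot_ii hz _ _).continuousOn_mul hcγ.continuousOn
  have h4 : ∫ t in (0 : ℝ)..(2 * π), k (γ t) * ((dens γ z t : ℝ) : ℂ)
      = (2 * π * I)⁻¹ * ((∫ t in (0 : ℝ)..(2 * π), k (γ t) * (deriv γ t / (γ t - z)))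
        - ∫ t in (0 : ℝ)..(2 * π), k (γ t) * conj (deriv γ t / (γ t - z))) := by
    rw [← intervalIntegral.integral_sub hi1 hi2, ← intervalIntegral.integral_const_mul]
    congr 1
    funext t
    have e : ((dens γ z t : ℝ) : ℂ) = (2 * π * I)⁻¹ * ((deriv γ t / (γ t - z))
        - conj (deriv γ t / (γ t - z))) := by
      rw [Complex.sub_conj]
      unfold dens
      push_cast
      field_simp
    rw [e]; ring
  rw [h4, h1]
  ring

/-- The value of the conjugate transform inside the domain. -/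
theorem conj_alpha {k : ℂ → ℂ} (hk : IsA Ω k) {z : ℂ} (hz : z ∈ Ω) {a : ℂ} :
    conj (alphaI γ k z)
      = (∫ t in (0 : ℝ)..(2 * π), (k (γ t) - a) * ((dens γ z t : ℝ) : ℂ)) + 2 * a - k z := by
  have h1 := hD.jump hk hz
  have hcγ := hD.comp_cont hk
  have hd : IntervalIntegrable (fun t => ((dens γ z t : ℝ) : ℂ)) volume 0 (2 * π) := by
    have h := hD.dens_ii_in hz 0 (2 * π)
    exact ⟨h.1.ofReal, h.2.ofReal⟩
  have hi1 : IntervalIntegrable (fun t => k (γ t) * ((dens γ z t : ℝ) : ℂ)) volume 0 (2 * π) :=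
    hd.continuousOn_mul hcγ.continuousOn
  have h2 : ∫ t in (0 : ℝ)..(2 * π), (k (γ t) - a) * ((dens γ z t : ℝ) : ℂ)
      = (∫ t in (0 : ℝ)..(2 * π), k (γ t) * ((dens γ z t : ℝ) : ℂ)) - 2 * a := by
    have e : ∀ t, (k (γ t) - a) * ((dens γ z t : ℝ) : ℂ)
        = k (γ t) * ((dens γ z t : ℝ) : ℂ) - a * ((dens γ z t : ℝ) : ℂ) := fun t => by ring
    simp_rw [e]
    rw [intervalIntegral.integral_sub hi1 (hd.const_mul a), intervalIntegral.integral_const_mul,
      intervalIntegral.integral_ofReal, hD.mass_two hz]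
    push_cast
    ring
  rw [h2, ← h1]
  ring

/-- Near and far estimate for the difference of two visual densities. -/
lemma near_far {k : ℂ → ℂ} {a : ℂ} {z₀ p q : ℂ} {η ρ M C : ℝ} {t : ℝ}
    (hd : DifferentiableAt ℝ γ t) (hp : 0 ≤ dens γ p t) (hq : 0 ≤ dens γ q t)
    (hη : 0 ≤ η) (hρ : 0 < ρ) (hC0 : 0 ≤ C) (hM0 : 0 ≤ M)
    (hC : ‖deriv γ t‖ ≤ C)
    (hkM : ‖k (γ t) - a‖ ≤ M)
    (hnear : ‖γ t - z₀‖ < ρ → ‖k (γ t) - a‖ ≤ η)
    (hfar : ρ ≤ ‖γ t - z₀‖ → ρ / 2 ≤ ‖γ t - p‖ ∧ ρ / 2 ≤ ‖γ t - q‖) :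
    ‖k (γ t) - a‖ * |dens γ p t - dens γ q t|
      ≤ η * (dens γ p t + dens γ q t) + M * (C * (4 / ρ ^ 2) * ‖p - q‖) := by
  have hpi := Real.pi_pos
  have hpi1 : 1 ≤ π := by linarith [Real.pi_gt_three]
  have hnn : 0 ≤ M * (C * (4 / ρ ^ 2) * ‖p - q‖) := by positivity
  by_cases hn : ‖γ t - z₀‖ < ρ
  · have h1 := hnear hn
    have h2 : |dens γ p t - dens γ q t| ≤ dens γ p t + dens γ q t := by
      rw [abs_le]; constructor <;> linarith
    have h3 : ‖k (γ t) - a‖ * |dens γ p t - dens γ q t| ≤ η * (dens γ p t + dens γ q t) :=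
      mul_le_mul h1 h2 (abs_nonneg _) hη
    linarith
  · obtain ⟨h1, h2⟩ := hfar (not_lt.mp hn)
    have hp0 : γ t - p ≠ 0 := by
      intro h; rw [h, norm_zero] at h1; linarith
    have hq0 : γ t - q ≠ 0 := by
      intro h; rw [h, norm_zero] at h2; linarith
    have e : dens γ p t - dens γ q t
        = (deriv γ t * ((p - q) / ((γ t - p) * (γ t - q)))).im / π := by
      unfold dens
      rw [← sub_div, ← Complex.sub_im]
      congr 2
      field_simp
      ring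
    have h3 : |dens γ p t - dens γ q t| ≤ C * (4 / ρ ^ 2) * ‖p - q‖ := by
      rw [e, abs_div, abs_of_pos hpi]
      have h4 := Complex.abs_im_le_norm (deriv γ t * ((p - q) / ((γ t - p) * (γ t - q))))
      have h5 : ‖deriv γ t * ((p - q) / ((γ t - p) * (γ t - q)))‖ ≤ C * (4 / ρ ^ 2) * ‖p - q‖ := by
        rw [norm_mul, norm_div, norm_mul]
        have h6 : ‖p - q‖ / (‖γ t - p‖ * ‖γ t - q‖) ≤ ‖p - q‖ / ((ρ / 2) * (ρ / 2)) :=
          div_le_div_of_nonneg_left (norm_nonneg _) (by positivity)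
            (mul_le_mul h1 h2 (by positivity) (norm_nonneg _))
        have h7 : ‖p - q‖ / ((ρ / 2) * (ρ / 2)) = (4 / ρ ^ 2) * ‖p - q‖ := by
          field_simp
          ring
        rw [h7] at h6
        calc _ ≤ C * ((4 / ρ ^ 2) * ‖p - q‖) := mul_le_mul hC h6 (by positivity) hC0
          _ = _ := by ring
      have h8 := h4.trans h5
      have h9 : |(deriv γ t * ((p - q) / ((γ t - p) * (γ t - q)))).im| / π
          ≤ |(deriv γ t * ((p - q) / ((γ t - p) * (γ t - q)))).im| :=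
        div_le_self (abs_nonneg _) hpi1
      linarith
    have h10 : ‖k (γ t) - a‖ * |dens γ p t - dens γ q t|
        ≤ M * (C * (4 / ρ ^ 2) * ‖p - q‖) := mul_le_mul hkM h3 (abs_nonneg _) hM0
    have h11 : 0 ≤ η * (dens γ p t + dens γ q t) := by positivity
    linarith

/-- Integrated form of the near and far estimate. -/
lemma near_far_int {k : ℂ → ℂ} (hk : IsA Ω k) {a : ℂ} {z₀ p q : ℂ} {η ρ M C mp mq : ℝ}
    (hp : p ∈ closure Ω) (hq : q ∈ closure Ω)
    (hpi : IntervalIntegrable (dens γ p) volume 0 (2 * π))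
    (hqi : IntervalIntegrable (dens γ q) volume 0 (2 * π))
    (hmp : ∫ t in (0 : ℝ)..(2 * π), dens γ p t = mp)
    (hmq : ∫ t in (0 : ℝ)..(2 * π), dens γ q t = mq)
    (hη : 0 ≤ η) (hρ : 0 < ρ) (hC0 : 0 ≤ C) (hM0 : 0 ≤ M)
    (hC : ∀ t, ‖deriv γ t‖ ≤ C)
    (hkM : ∀ t, ‖k (γ t) - a‖ ≤ M)
    (hnear : ∀ t, ‖γ t - z₀‖ < ρ → ‖k (γ t) - a‖ ≤ η)
    (hfar : ∀ t, ρ ≤ ‖γ t - z₀‖ → ρ / 2 ≤ ‖γ t - p‖ ∧ ρ / 2 ≤ ‖γ t - q‖) :
    ‖(∫ t in (0 : ℝ)..(2 * π), (k (γ t) - a) * ((dens γ p t : ℝ) : ℂ))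
        - ∫ t in (0 : ℝ)..(2 * π), (k (γ t) - a) * ((dens γ q t : ℝ) : ℂ)‖
      ≤ η * (mp + mq) + 2 * π * (M * (C * (4 / ρ ^ 2) * ‖p - q‖)) := by
  have hpi0 := Real.pi_pos
  have hcγ := hD.comp_cont hk
  have hc2 : Continuous fun t => k (γ t) - a := hcγ.sub continuous_const
  have hdp : IntervalIntegrable (fun t => ((dens γ p t : ℝ) : ℂ)) volume 0 (2 * π) :=
    ⟨hpi.1.ofReal, hpi.2.ofReal⟩
  have hdq : IntervalIntegrable (fun t => ((dens γ q t : ℝ) : ℂ)) volume 0 (2 * π) :=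
    ⟨hqi.1.ofReal, hqi.2.ofReal⟩
  have hi1 := hdp.continuousOn_mul hc2.continuousOn
  have hi2 := hdq.continuousOn_mul hc2.continuousOn
  rw [← intervalIntegral.integral_sub hi1 hi2]
  have hle : ‖∫ t in (0 : ℝ)..(2 * π), ((k (γ t) - a) * ((dens γ p t : ℝ) : ℂ)
      - (k (γ t) - a) * ((dens γ q t : ℝ) : ℂ))‖ ≤
      ∫ t in (0 : ℝ)..(2 * π), ‖(k (γ t) - a) * ((dens γ p t : ℝ) : ℂ)
      - (k (γ t) - a) * ((dens γ q t : ℝ) : ℂ)‖ :=
    intervalIntegral.norm_integral_le_integral_norm (by positivity)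
  refine hle.trans ?_
  have hii : IntervalIntegrable (fun t => ‖(k (γ t) - a) * ((dens γ p t : ℝ) : ℂ)
      - (k (γ t) - a) * ((dens γ q t : ℝ) : ℂ)‖) volume 0 (2 * π) := (hi1.sub hi2).norm
  have hsum : IntervalIntegrable (fun t => dens γ p t + dens γ q t) volume 0 (2 * π) := hpi.add hqi
  have hR : IntervalIntegrable (fun t => η * (dens γ p t + dens γ q t)
      + M * (C * (4 / ρ ^ 2) * ‖p - q‖)) volume 0 (2 * π) :=
    (hsum.const_mul η).add intervalIntegrable_const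
  have hmono := intervalIntegral.integral_mono_ae_restrict (a := 0) (b := 2 * π) (by positivity)
    hii hR (by
      apply ae_restrict_of_ae
      filter_upwards [hD.curve.ae_diff] with t hdt
      have e : (k (γ t) - a) * ((dens γ p t : ℝ) : ℂ) - (k (γ t) - a) * ((dens γ q t : ℝ) : ℂ)
          = (k (γ t) - a) * (((dens γ p t - dens γ q t : ℝ)) : ℂ) := by
        push_cast; ring
      rw [e, norm_mul, Complex.norm_real, Real.norm_eq_abs]
      exact hD.near_far hdt (hD.dens_nonneg_in hp hdt) (hD.dens_nonneg_in hq hdt) hη hρ hC0 hM0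
        (hC t) (hkM t) (hnear t) (hfar t))
  refine hmono.trans (le_of_eq ?_)
  rw [intervalIntegral.integral_add (hsum.const_mul η) intervalIntegrable_const,
    intervalIntegral.integral_const_mul, intervalIntegral.integral_add hpi hqi, hmp, hmq,
    intervalIntegral.integral_const]
  simp


/-- The transform is holomorphic in the domain. -/
theorem alpha_diff {k : ℂ → ℂ} (hk : IsA Ω k) : DifferentiableOn ℂ (alphaI γ k) Ω := by
  intro z₀ hz₀
  obtain ⟨δ, hδ, hdist⟩ := hD.dist_pos hz₀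
  obtain ⟨C, hC0, hC⟩ := hD.curve.exists_deriv_bound
  obtain ⟨M, hM⟩ := hD.exists_bound hk
  have hcγ := hD.comp_cont hk
  have hm : ∀ t, ‖k (γ t)‖ ≤ |M| := fun t => (hM _ (hD.mem_closure t)).trans (le_abs_self _)
  set w : ℝ → ℂ := fun t => conj (k (γ t)) * deriv γ t with hw
  have hwm : Measurable w := by
    apply Measurable.mul
    · exact (Complex.continuous_conj.comp hcγ).measurable
    · exact measurable_deriv γ
  have hwb : ∀ t, ‖w t‖ ≤ |M| * C := by
    intro t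
    simp only [hw]
    rw [norm_mul, Complex.norm_conj]
    exact mul_le_mul (hm t) (hC t) (norm_nonneg _) (abs_nonneg _)
  have hfar : ∀ z ∈ closedBall z₀ (δ / 2), ∀ t, δ / 2 ≤ ‖γ t - z‖ := by
    intro z hz t
    have h1 := hdist t
    have h2 : ‖z - z₀‖ ≤ δ / 2 := by rw [← dist_eq_norm]; exact mem_closedBall.mp hz
    have h3 : ‖γ t - z₀‖ ≤ ‖γ t - z‖ + ‖z - z₀‖ := by
      have : γ t - z₀ = (γ t - z) + (z - z₀) := by ring
      rw [this]; exact norm_add_le _ _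
    linarith
  have hpi := Real.pi_pos
  have hsnhds : closedBall z₀ (δ / 2) ∈ 𝓝 z₀ := closedBall_mem_nhds _ (by positivity)
  have hd := intervalIntegral.hasDerivAt_integral_of_dominated_loc_of_deriv_le
    (𝕜 := ℂ) (μ := volume) (a := 0) (b := 2 * π) (F := fun z t => w t * (γ t - z)⁻¹)
    (F' := fun z t => w t * ((γ t - z) ^ 2)⁻¹) (x₀ := z₀)
    (s := closedBall z₀ (δ / 2)) (bound := fun _ => |M| * C * ((δ / 2) ^ 2)⁻¹)
    hsnhds
    (by
      refine Eventually.of_forall fun z => ?_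
      exact (hwm.mul ((hD.curve.cont.sub continuous_const).measurable.inv)).aestronglyMeasurable)
    (by
      refine ii_of_bdd (C := |M| * C * (δ / 2)⁻¹)
        (hwm.mul ((hD.curve.cont.sub continuous_const).measurable.inv)).aestronglyMeasurable
        (Eventually.of_forall fun t => ?_) _ _
      show ‖w t * (γ t - z₀)⁻¹‖ ≤ _
      rw [norm_mul, norm_inv]
      apply mul_le_mul (hwb t) _ (by positivity) (by positivity)
      apply inv_anti₀ (by positivity)
      exact hfar z₀ (mem_closedBall_self (by positivity)) t)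
    (by
      exact (hwm.mul (((hD.curve.cont.sub continuous_const).measurable.pow_const 2).inv)).aestronglyMeasurable)
    (by
      refine Eventually.of_forall fun t _ z hz => ?_
      rw [norm_mul, norm_inv, norm_pow]
      apply mul_le_mul (hwb t) _ (by positivity) (by positivity)
      apply inv_anti₀ (by positivity)
      exact pow_le_pow_left₀ (by positivity) (hfar z hz t) 2)
    intervalIntegrable_const
    (by
      refine Eventually.of_forall fun t _ z hz => ?_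
      have hne : γ t - z ≠ 0 := by
        intro h
        have := hfar z hz t
        rw [h, norm_zero] at this
        linarith
      have h1 : HasDerivAt (fun z => γ t - z) (-1) z := by
        simpa using (hasDerivAt_id' z).const_sub (γ t)
      have h2 := (h1.inv hne).const_mul (w t)
      refine h2.congr_deriv ?_
      field_simp
      )
  have h3 := hd.2.const_mul (2 * π * I : ℂ)⁻¹
  have e : alphaI γ k = fun z => (2 * π * I : ℂ)⁻¹ * ∫ t in (0 : ℝ)..(2 * π), w t * (γ t - z)⁻¹ := by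
    funext z
    unfold alphaI
    congr 2
    funext t
    simp only [hw, div_eq_mul_inv]
    ring
  rw [e]
  exact h3.differentiableAt.differentiableWithinAt

/-- Preparation for the boundary behaviour. -/
lemma setup {k : ℂ → ℂ} (hk : IsA Ω k) {z₀ : ℂ} (hz₀ : z₀ ∈ closure Ω) {η : ℝ} (hη : 0 < η) :
    ∃ ρ > 0, ∃ M ≥ 0, (∀ t, ‖k (γ t) - k z₀‖ ≤ M) ∧
      (∀ q ∈ closure Ω, ‖q - z₀‖ < ρ → ‖k q - k z₀‖ ≤ η) := by
  obtain ⟨M, hM⟩ := hD.exists_bound hk
  have hc := hk.1 z₀ hz₀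
  rw [Metric.continuousWithinAt_iff] at hc
  obtain ⟨ρ, hρ, h⟩ := hc η hη
  refine ⟨ρ, hρ, 2 * |M|, by positivity, ?_, ?_⟩
  · intro t
    have h1 := (hM _ (hD.mem_closure t)).trans (le_abs_self _)
    have h2 := (hM _ hz₀).trans (le_abs_self _)
    calc _ ≤ ‖k (γ t)‖ + ‖k z₀‖ := norm_sub_le _ _
      _ ≤ _ := by linarith
  · intro q hq hq2
    have := h hq (by rwa [dist_eq_norm])
    rw [dist_eq_norm] at this
    exact this.le

/-- Convergence at regular boundary points. -/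
theorem alpha_tendsto {k : ℂ → ℂ} (hk : IsA Ω k) {t₀ : ℝ} (hd : DifferentiableAt ℝ γ t₀) :
    Tendsto (fun p => conj (alphaI γ k p)) (𝓝[Ω] (γ t₀))
      (𝓝 (Nn γ (fun t => k (γ t)) t₀)) := by
  have hconv := hD.curve
  have hz₀ := hD.mem_closure t₀
  obtain ⟨C, hC0, hC⟩ := hconv.exists_deriv_bound
  have hpi := Real.pi_pos
  rw [Metric.tendsto_nhdsWithin_nhds]
  intro ε hε
  set η := ε / 8 with hηdef
  have hη : 0 < η := by positivity
  obtain ⟨ρ, hρ, M, hM0, hM, hnear⟩ := hD.setup hk hz₀ hη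
  set K₀ := 2 * π * (M * (C * (4 / ρ ^ 2))) with hK₀
  have hK₀0 : 0 ≤ K₀ := by positivity
  refine ⟨min (ρ / 2) (ε / (4 * (K₀ + 1))), by positivity, ?_⟩
  intro p hp hdist
  rw [dist_eq_norm] at hdist
  have hd1 : ‖p - γ t₀‖ < ρ / 2 := lt_of_lt_of_le hdist (min_le_left _ _)
  have hd2 : ‖p - γ t₀‖ < ε / (4 * (K₀ + 1)) := lt_of_lt_of_le hdist (min_le_right _ _)
  set a := k (γ t₀) with ha
  -- the two representations
  have h1 := hD.conj_alpha hk hp (a := a)
  have hcγ := hD.comp_cont hk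
  have hdi := dens_ii_all hconv hd 0 (2 * π)
  have hdc : IntervalIntegrable (fun t => ((dens γ (γ t₀) t : ℝ) : ℂ)) volume 0 (2 * π) :=
    ⟨hdi.1.ofReal, hdi.2.ofReal⟩
  have h2 : Nn γ (fun t => k (γ t)) t₀
      = (∫ t in (0 : ℝ)..(2 * π), (k (γ t) - a) * ((dens γ (γ t₀) t : ℝ) : ℂ)) + a := by
    unfold Nn
    have e : ∀ t, (k (γ t) - a) * ((dens γ (γ t₀) t : ℝ) : ℂ)
        = k (γ t) * ((dens γ (γ t₀) t : ℝ) : ℂ) - a * ((dens γ (γ t₀) t : ℝ) : ℂ) := fun t => by ring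
    simp_rw [e]
    rw [intervalIntegral.integral_sub (hdc.continuousOn_mul hcγ.continuousOn) (hdc.const_mul a),
      intervalIntegral.integral_const_mul, intervalIntegral.integral_ofReal, mass_one' hconv hd]
    push_cast
    ring
  have hnf := hD.near_far_int hk (a := a) (z₀ := γ t₀) (p := p) (q := γ t₀) (η := η) (ρ := ρ) (M := M)
    (C := C) (mp := 2) (mq := 1) (subset_closure hp) hz₀ (hD.dens_ii_in hp _ _) hdi (hD.mass_two hp)
    (mass_one' hconv hd) hη.le hρ hC0 hM0 hC hM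
    (fun t ht => hnear _ (hD.mem_closure t) ht)
    (fun t ht => by
      constructor
      · have h3 : ‖γ t - γ t₀‖ ≤ ‖γ t - p‖ + ‖p - γ t₀‖ := by
          have : γ t - γ t₀ = (γ t - p) + (p - γ t₀) := by ring
          rw [this]; exact norm_add_le _ _
        linarith
      · linarith)
  rw [dist_eq_norm, h1, h2]
  have e3 : (∫ t in (0 : ℝ)..(2 * π), (k (γ t) - a) * ((dens γ p t : ℝ) : ℂ)) + 2 * a - k p
      - ((∫ t in (0 : ℝ)..(2 * π), (k (γ t) - a) * ((dens γ (γ t₀) t : ℝ) : ℂ)) + a)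
      = ((∫ t in (0 : ℝ)..(2 * π), (k (γ t) - a) * ((dens γ p t : ℝ) : ℂ))
        - ∫ t in (0 : ℝ)..(2 * π), (k (γ t) - a) * ((dens γ (γ t₀) t : ℝ) : ℂ)) - (k p - a) := by ring
  rw [e3]
  have h5 := hnear p (subset_closure hp) (by linarith)
  have h6 : 2 * π * (M * (C * (4 / ρ ^ 2) * ‖p - γ t₀‖)) = K₀ * ‖p - γ t₀‖ := by
    rw [hK₀]; ring
  rw [h6] at hnf
  have h7 : K₀ * ‖p - γ t₀‖ ≤ ε / 4 := by
    have h8 : ‖p - γ t₀‖ ≤ ε / (4 * (K₀ + 1)) := hd2.le
    calc K₀ * ‖p - γ t₀‖ ≤ (K₀ + 1) * (ε / (4 * (K₀ + 1))) :=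
          mul_le_mul (by linarith) h8 (norm_nonneg _) (by positivity)
      _ = ε / 4 := by field_simp
  have h9 := norm_sub_le ((∫ t in (0 : ℝ)..(2 * π), (k (γ t) - a) * ((dens γ p t : ℝ) : ℂ))
        - ∫ t in (0 : ℝ)..(2 * π), (k (γ t) - a) * ((dens γ (γ t₀) t : ℝ) : ℂ)) (k p - a)
  have h10 : η * ((2 : ℝ) + 1) = 3 * η := by ring
  rw [h10] at hnf
  rw [hηdef] at hnf h5
  linarith

/-- Existence of limits at all points of the closure. -/
theorem alpha_limit {k : ℂ → ℂ} (hk : IsA Ω k) {z₀ : ℂ} (hz₀ : z₀ ∈ closure Ω) :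
    ∃ y, Tendsto (alphaI γ k) (𝓝[Ω] z₀) (𝓝 y) := by
  have : (𝓝[Ω] z₀).NeBot := mem_closure_iff_nhdsWithin_neBot.mp hz₀
  obtain ⟨C, hC0, hC⟩ := hD.curve.exists_deriv_bound
  have hpi := Real.pi_pos
  apply cauchy_map_iff_exists_tendsto.mp
  rw [Metric.cauchy_iff]
  refine ⟨inferInstance, ?_⟩
  intro ε hε
  set η := ε / 12 with hηdef
  have hη : 0 < η := by positivity
  obtain ⟨ρ, hρ, M, hM0, hM, hnear⟩ := hD.setup hk hz₀ hη
  set K₀ := 2 * π * (M * (C * (4 / ρ ^ 2))) with hK₀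
  have hK₀0 : 0 ≤ K₀ := by positivity
  set r := min (ρ / 2) (ε / (8 * (K₀ + 1))) with hr
  have hr0 : 0 < r := by positivity
  have hmem : Ω ∩ ball z₀ r ∈ 𝓝[Ω] z₀ := by
    exact inter_mem_nhdsWithin _ (Metric.ball_mem_nhds z₀ hr0)
  refine ⟨alphaI γ k '' (Ω ∩ ball z₀ r), image_mem_map hmem, ?_⟩
  rintro _ ⟨p, ⟨hp, hpr⟩, rfl⟩ _ ⟨q, ⟨hq, hqr⟩, rfl⟩
  rw [mem_ball, dist_eq_norm] at hpr hqr
  have hp1 : ‖p - z₀‖ < ρ / 2 := lt_of_lt_of_le hpr (min_le_left _ _)
  have hq1 : ‖q - z₀‖ < ρ / 2 := lt_of_lt_of_le hqr (min_le_left _ _)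
  have hp2 : ‖p - z₀‖ < ε / (8 * (K₀ + 1)) := lt_of_lt_of_le hpr (min_le_right _ _)
  have hq2 : ‖q - z₀‖ < ε / (8 * (K₀ + 1)) := lt_of_lt_of_le hqr (min_le_right _ _)
  set a := k z₀ with ha
  have h1 := hD.conj_alpha hk hp (a := a)
  have h2 := hD.conj_alpha hk hq (a := a)
  have hfar2 : ∀ x, ‖x - z₀‖ < ρ / 2 → ∀ t, ρ ≤ ‖γ t - z₀‖ → ρ / 2 ≤ ‖γ t - x‖ := by
    intro x hx t ht
    have h3 : ‖γ t - z₀‖ ≤ ‖γ t - x‖ + ‖x - z₀‖ := by
      have : γ t - z₀ = (γ t - x) + (x - z₀) := by ring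
      rw [this]; exact norm_add_le _ _
    linarith
  have hnf := hD.near_far_int hk (a := a) (z₀ := z₀) (p := p) (q := q) (η := η) (ρ := ρ) (M := M)
    (C := C) (mp := 2) (mq := 2) (subset_closure hp) (subset_closure hq) (hD.dens_ii_in hp _ _)
    (hD.dens_ii_in hq _ _) (hD.mass_two hp) (hD.mass_two hq) hη.le hρ hC0 hM0 hC hM
    (fun t ht => hnear _ (hD.mem_closure t) ht)
    (fun t ht => ⟨hfar2 p hp1 t ht, hfar2 q hq1 t ht⟩)
  have e0 : dist (alphaI γ k p) (alphaI γ k q) = ‖conj (alphaI γ k p) - conj (alphaI γ k q)‖ := by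
    rw [dist_eq_norm, ← map_sub, Complex.norm_conj]
  rw [e0, h1, h2]
  have e3 : (∫ t in (0 : ℝ)..(2 * π), (k (γ t) - a) * ((dens γ p t : ℝ) : ℂ)) + 2 * a - k p
      - ((∫ t in (0 : ℝ)..(2 * π), (k (γ t) - a) * ((dens γ q t : ℝ) : ℂ)) + 2 * a - k q)
      = ((∫ t in (0 : ℝ)..(2 * π), (k (γ t) - a) * ((dens γ p t : ℝ) : ℂ))
        - ∫ t in (0 : ℝ)..(2 * π), (k (γ t) - a) * ((dens γ q t : ℝ) : ℂ)) - ((k p - a) - (k q - a)) := by
    ring
  rw [e3]
  have h5 := hnear p (subset_closure hp) (by linarith)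
  have h6 := hnear q (subset_closure hq) (by linarith)
  have h7 : 2 * π * (M * (C * (4 / ρ ^ 2) * ‖p - q‖)) = K₀ * ‖p - q‖ := by
    rw [hK₀]; ring
  rw [h7] at hnf
  have hpq : ‖p - q‖ ≤ ‖p - z₀‖ + ‖q - z₀‖ := by
    have : p - q = (p - z₀) - (q - z₀) := by ring
    rw [this]; exact norm_sub_le _ _
  have h8 : K₀ * ‖p - q‖ ≤ ε / 4 := by
    have h9 : ‖p - q‖ ≤ 2 * (ε / (8 * (K₀ + 1))) := by linarith
    calc K₀ * ‖p - q‖ ≤ (K₀ + 1) * (2 * (ε / (8 * (K₀ + 1)))) :=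
          mul_le_mul (by linarith) h9 (norm_nonneg _) (by positivity)
      _ = ε / 4 := by field_simp; ring
  have h10 := norm_sub_le ((∫ t in (0 : ℝ)..(2 * π), (k (γ t) - a) * ((dens γ p t : ℝ) : ℂ))
        - ∫ t in (0 : ℝ)..(2 * π), (k (γ t) - a) * ((dens γ q t : ℝ) : ℂ)) ((k p - a) - (k q - a))
  have h11 := norm_sub_le (k p - a) (k q - a)
  rw [hηdef] at hnf h5 h6
  have h12 : ε / 12 * ((2 : ℝ) + 2) = ε / 3 := by ring
  rw [h12] at hnf
  have : ε / 3 + ε / 4 + (ε / 12 + ε / 12) < ε := by linarith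
  linarith

end Dom

/-- The continuous extension of the transform to the closure. -/
noncomputable def alphaE (Ω : Set ℂ) (γ : ℝ → ℂ) (k : ℂ → ℂ) : ℂ → ℂ :=
  extendFrom Ω (alphaI γ k)

namespace Dom

variable {Ω : Set ℂ} {γ : ℝ → ℂ} {c : ℂ} (hD : Dom Ω γ c)
include hD

lemma alphaE_eq {k : ℂ → ℂ} (hk : IsA Ω k) {z : ℂ} (hz : z ∈ Ω) :
    alphaE Ω γ k z = alphaI γ k z :=
  extendFrom_extends (hD.alpha_diff hk).continuousOn z hz

theorem alphaE_isA {k : ℂ → ℂ} (hk : IsA Ω k) : IsA Ω (alphaE Ω γ k) := by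
  constructor
  · exact continuousOn_extendFrom subset_rfl (fun x hx => hD.alpha_limit hk hx)
  · apply (hD.alpha_diff hk).congr
    intro z hz
    exact hD.alphaE_eq hk hz

/-- Boundary values at regular points. -/
theorem alphaE_reg {k : ℂ → ℂ} (hk : IsA Ω k) {t₀ : ℝ} (hd : DifferentiableAt ℝ γ t₀) :
    alphaE Ω γ k (γ t₀) = conj (Nn γ (fun t => k (γ t)) t₀) := by
  have h1 := hD.alpha_tendsto hk hd
  have h2 : Tendsto (alphaI γ k) (𝓝[Ω] (γ t₀)) (𝓝 (conj (Nn γ (fun t => k (γ t)) t₀))) := by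
    have := (Complex.continuous_conj.tendsto _).comp h1
    simpa [Function.comp_def] using this
  exact extendFrom_eq (hD.mem_closure t₀) h2

/-- Boundedness of the averaging operator at a regular point. -/
lemma Nn_bound {h : ℝ → ℂ} (hh : Continuous h) {M : ℝ} (hM : ∀ t, ‖h t‖ ≤ M) {t₀ : ℝ}
    (hd : DifferentiableAt ℝ γ t₀) : ‖Nn γ h t₀‖ ≤ M := by
  have hconv := hD.curve
  have hpi := Real.pi_pos
  unfold Nn
  have hdi := dens_ii_all hconv hd 0 (2 * π)
  have hle := intervalIntegral.norm_integral_le_integral_norm (μ := volume) (a := 0) (b := 2 * π)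
    (f := fun t => h t * ((dens γ (γ t₀) t : ℝ) : ℂ)) (by positivity)
  refine hle.trans ?_
  have hdc : IntervalIntegrable (fun t => ((dens γ (γ t₀) t : ℝ) : ℂ)) volume 0 (2 * π) :=
    ⟨hdi.1.ofReal, hdi.2.ofReal⟩
  have hmono := intervalIntegral.integral_mono_ae_restrict (a := 0) (b := 2 * π) (by positivity)
    (f := fun t => ‖h t * ((dens γ (γ t₀) t : ℝ) : ℂ)‖) (g := fun t => M * dens γ (γ t₀) t)
    ((hdc.continuousOn_mul hh.continuousOn).norm) (hdi.const_mul M) (by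
      apply ae_restrict_of_ae
      filter_upwards [hconv.ae_diff] with t ht
      rw [norm_mul, Complex.norm_real, Real.norm_eq_abs, abs_of_nonneg (hconv.dens_nonneg ht t₀)]
      exact mul_le_mul_of_nonneg_right (hM t) (hconv.dens_nonneg ht t₀))
  refine hmono.trans (le_of_eq ?_)
  rw [intervalIntegral.integral_const_mul, mass_one' hconv hd, mul_one]

/-- Density of regular parameters. -/
lemma dense_reg : Dense {t : ℝ | DifferentiableAt ℝ γ t} := by
  have h := hD.curve.ae_diff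
  exact (Measure.dense_of_ae h)

/-- Values on the boundary from regular values by continuity: a closed condition that holds at regular
points holds on the whole closure for holomorphic functions, by the maximum principle. -/
theorem norm_le_of_reg {g : ℂ → ℂ} (hg : IsA Ω g) {M : ℝ}
    (hM : ∀ t, DifferentiableAt ℝ γ t → ‖g (γ t)‖ ≤ M) {z : ℂ} (hz : z ∈ closure Ω) : ‖g z‖ ≤ M := by
  have hfr : ∀ p ∈ frontier Ω, ‖g p‖ ≤ M := by
    intro p hp
    obtain ⟨t₀, rfl⟩ := hD.surj p hp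
    have hc : Continuous fun t => ‖g (γ t)‖ := (hD.comp_cont hg).norm
    have hclosed : IsClosed {t | ‖g (γ t)‖ ≤ M} := isClosed_le hc continuous_const
    have hsub : {t : ℝ | DifferentiableAt ℝ γ t} ⊆ {t | ‖g (γ t)‖ ≤ M} := fun t ht => hM t ht
    have h1 := hD.dense_reg.closure_eq
    have h2 : closure {t : ℝ | DifferentiableAt ℝ γ t} ⊆ {t | ‖g (γ t)‖ ≤ M} :=
      closure_minimal hsub hclosed
    rw [h1] at h2
    exact h2 (mem_univ t₀)
  have hdc : DiffContOnCl ℂ g Ω := ⟨hg.2, hg.1⟩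
  exact Complex.norm_le_of_forall_mem_frontier_norm_le hD.bdd hdc hfr hz

/-- The Neumann type bound for the transform. -/
theorem alphaE_bound {k : ℂ → ℂ} (hk : IsA Ω k) {M : ℝ} (hM : ∀ p ∈ closure Ω, ‖k p‖ ≤ M) {z : ℂ}
    (hz : z ∈ closure Ω) : ‖alphaE Ω γ k z‖ ≤ M := by
  apply hD.norm_le_of_reg (hD.alphaE_isA hk) _ hz
  intro t ht
  rw [hD.alphaE_reg hk ht, Complex.norm_conj]
  exact hD.Nn_bound (hD.comp_cont hk) (fun s => hM _ (hD.mem_closure s)) ht

end Dom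

end Vale.Agent.Lib.P123H99
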