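import Mathlib

/-! Elementary real inequalities used in the geometric lemma. -/

namespace Vale.Agent.Lib.P123H99

open scoped Real

lemma height_ge {yp ym yt vp vm v : ℝ} (hyp : 0 < yp) (hy : yp ≤ ym) (hv1 : vm < v) (hv2 : v < vp)
    (hc : 0 ≤ (v * yt - vp * yp) * (ym - yp) - (yt - yp) * (vm * ym - vp * yp)) : yp ≤ yt := by
  by_contra hlt
  have hlt' : yt < yp := not_le.mp hlt
  have hym : 0 < ym := lt_of_lt_of_le hyp hy
  have e : (v * yt - vp * yp) * (ym - yp) - (yt - yp) * (vm * ym - vp * yp)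
      = yt * (ym * (v - vm) + yp * (vp - v)) - yp * ym * (vp - vm) := by ring
  rw [e] at hc
  have hbr : 0 < ym * (v - vm) + yp * (vp - v) := by
    have h1 : 0 < ym * (v - vm) := mul_pos hym (sub_pos.mpr hv1)
    have h2 : 0 < yp * (vp - v) := mul_pos hyp (sub_pos.mpr hv2)
    linarith
  have h3 : yt * (ym * (v - vm) + yp * (vp - v)) < yp * (ym * (v - vm) + yp * (vp - v)) :=
    mul_lt_mul_of_pos_right hlt' hbr
  have h4 : yp * (vp - v) ≤ ym * (vp - v) :=
    mul_le_mul_of_nonneg_right hy (sub_pos.mpr hv2).le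
  have h5 : yp * (ym * (v - vm) + yp * (vp - v)) ≤ yp * (ym * (vp - vm)) := by
    apply mul_le_mul_of_nonneg_left _ hyp.le
    nlinarith
  nlinarith

/-- The tangent functional at a far point compared with the one at the base point. -/
lemma overlap_tang {gx gy y v yp ym vp vm : ℝ} (hy : 0 < y) (hyp : 0 < yp) (hyy : yp ≤ ym)
    (hv1 : -25 ≤ v) (hv2 : v ≤ 1) (hvp1 : 50 ≤ vp) (hvp2 : vp ≤ 100) (hvm1 : -100 ≤ vm)
    (hvm2 : vm ≤ -50)
    (h0 : 0 ≤ -gx * y + gy * (v * y))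
    (hm : 0 ≤ gx * (ym - y) - gy * (vm * ym - v * y)) :
    gx * (yp - y) - gy * (vp * yp - v * y) ≤ 6 * (-gx * y + gy * (v * y)) := by
  set k0 := -gx * y + gy * (v * y) with hk0
  set Lm := gx * (ym - y) - gy * (vm * ym - v * y) with hLm
  set Ls := gx * (yp - y) - gy * (vp * yp - v * y) with hLs
  have hym : 0 < ym := lt_of_lt_of_le hyp hyy
  have hvv : 0 < v - vm := by linarith
  have hvp : 0 < vp - v := by linarith
  have key : (v - vm) * ym * y * Ls = k0 * ((v - vm) * ym * y - (v - vm) * yp * ym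
      + (vp - v) * yp * y - (vp - v) * yp * ym) - (vp - v) * yp * y * Lm := by
    rw [hLs, hLm, hk0]; ring
  have h1 : 0 ≤ (vp - v) * yp * y * Lm := by positivity
  have h2 : k0 * ((v - vm) * ym * y - (v - vm) * yp * ym + (vp - v) * yp * y - (vp - v) * yp * ym)
      ≤ k0 * (6 * ((v - vm) * ym * y)) := by
    apply mul_le_mul_of_nonneg_left _ h0
    have a1 : 0 ≤ (v - vm) * yp * ym := by positivity
    have a2 : 0 ≤ (vp - v) * yp * ym := by positivity
    have a3 : (vp - v) ≤ 5 * (v - vm) := by linarith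
    have a4 : (vp - v) * yp * y ≤ (5 * (v - vm)) * ym * y := by
      have : (vp - v) * yp ≤ (5 * (v - vm)) * ym := by
        apply mul_le_mul a3 hyy hyp.le (by positivity)
      exact mul_le_mul_of_nonneg_right this hy.le
    nlinarith
  have h3 : (v - vm) * ym * y * Ls ≤ (v - vm) * ym * y * (6 * k0) := by
    rw [key]; nlinarith
  have hpos : 0 < (v - vm) * ym * y := by positivity
  exact le_of_mul_le_mul_left h3 hpos

/-- The distance from a far point compared with the distance from the base point. -/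
lemma overlap_dist {y v yp vp : ℝ} (hv1 : -25 ≤ v) (hv2 : v ≤ 1) (hvp1 : 50 ≤ vp)
    (hvp2 : vp ≤ 100) :
    (v * y) ^ 2 + y ^ 2 ≤ 700 * ((v * y - vp * yp) ^ 2 + (y - yp) ^ 2) := by
  set a := v * y - vp * yp with ha
  set b := y - yp with hb
  have h1 : y * (v - vp) = a - vp * b := by rw [ha, hb]; ring
  have h2 : (y * (v - vp)) ^ 2 ≤ (1 + vp ^ 2) * (a ^ 2 + b ^ 2) := by
    rw [h1]; nlinarith [sq_nonneg (vp * a + b)]
  have h3 : 0 < vp - v := by linarith
  have hv2b : v ^ 2 ≤ 625 := by nlinarith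
  have h4 : (1 + v ^ 2) * (1 + vp ^ 2) ≤ 700 * (vp - v) ^ 2 := by
    have h5 : 49 / 50 * vp ≤ vp - v := by linarith
    have h6 : (49 / 50 * vp) ^ 2 ≤ (vp - v) ^ 2 := by
      apply pow_le_pow_left₀ (by positivity) h5
    have h7 : (1 + v ^ 2) * (1 + vp ^ 2) ≤ 626 * (1 + vp ^ 2) := by
      apply mul_le_mul_of_nonneg_right (by linarith) (by positivity)
    have h8 : vp ^ 2 ≥ 2500 := by nlinarith
    nlinarith
  have h9 : ((v * y) ^ 2 + y ^ 2) * (vp - v) ^ 2 ≤ (1 + v ^ 2) * (1 + vp ^ 2) * (a ^ 2 + b ^ 2) := by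
    have e : ((v * y) ^ 2 + y ^ 2) * (vp - v) ^ 2 = (1 + v ^ 2) * (y * (v - vp)) ^ 2 := by ring
    rw [e, mul_assoc]
    exact mul_le_mul_of_nonneg_left h2 (by positivity)
  have h10 : ((v * y) ^ 2 + y ^ 2) * (vp - v) ^ 2 ≤ (700 * (a ^ 2 + b ^ 2)) * (vp - v) ^ 2 := by
    calc _ ≤ _ := h9
      _ ≤ (700 * (vp - v) ^ 2) * (a ^ 2 + b ^ 2) :=
          mul_le_mul_of_nonneg_right h4 (by positivity)
      _ = _ := by ring
  exact le_of_mul_le_mul_right h10 (by positivity)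

/-- Flatness: the bounds on the height of the top arc. -/
lemma flat_arith {s w d y x xp yp : ℝ} (hs0 : 0 ≤ s) (hs1 : s ≤ 1 / 25) (hw : 0 < w) (hd0 : 0 ≤ d)
    (hde : y + s * x = w + d) (hx1 : -y ≤ x) (hx2 : x ≤ y)
    (hdist : d ≤ (33 / 10 ^ 6) * (xp + yp + 2 * y)) (hxp : xp ≤ 100 * w) (hyp : yp ≤ w) :
    24 / 25 * w ≤ y ∧ y ≤ 21 / 20 * w ∧ d ≤ w / 250 := by
  have hy : 0 ≤ y := by linarith
  have h1 : s * x ≤ 1 / 25 * y := by
    calc s * x ≤ s * y := mul_le_mul_of_nonneg_left hx2 hs0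
      _ ≤ 1 / 25 * y := mul_le_mul_of_nonneg_right hs1 hy
  have h2 : -(1 / 25 * y) ≤ s * x := by
    have : s * (-y) ≤ s * x := mul_le_mul_of_nonneg_left hx1 hs0
    have h3 : s * y ≤ 1 / 25 * y := mul_le_mul_of_nonneg_right hs1 hy
    linarith
  refine ⟨?_, ?_, ?_⟩ <;> norm_num at * <;> nlinarith

/-- Top arc: direction of the tangent. -/
lemma top_arith {gx gy s w d y x Dp DA : ℝ} (hs0 : 0 ≤ s) (hs1 : s ≤ 1 / 25) (hw : 0 < w)
    (hd0 : 0 ≤ d) (hd1 : d ≤ w / 250) (hde : y + s * x = w + d)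
    (hDp : 89 / 10 * w ≤ Dp) (hDA : 39 / 10 * w ≤ DA)
    (h1 : 0 ≤ -gx * d - (gx * s + gy) * Dp) (h2 : 0 ≤ -gx * d + (gx * s + gy) * DA)
    (h3 : 0 ≤ -gx * y + gy * x) (hne : ¬ (gx = 0 ∧ gy = 0)) :
    gx < 0 ∧ |gy| ≤ (-gx) / 20 := by
  have hDpp : 0 < Dp := by nlinarith
  have hDAp : 0 < DA := by nlinarith
  set Λ := gx * s + gy with hΛ
  have hgx : gx < 0 := by
    by_contra hc
    have hge : 0 ≤ gx := not_lt.mp hc
    have hgd : 0 ≤ gx * d := mul_nonneg hge hd0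
    have hΛ1 : Λ * Dp ≤ 0 := by nlinarith
    have hΛ2 : 0 ≤ Λ * DA := by nlinarith
    have hΛ3 : Λ ≤ 0 := by
      by_contra h; have := mul_pos (not_le.mp h) hDpp; linarith
    have hΛ4 : 0 ≤ Λ := by
      by_contra h; have := mul_neg_of_neg_of_pos (not_le.mp h) hDAp; linarith
    have hΛ0 : Λ = 0 := le_antisymm hΛ3 hΛ4
    have hgy : gy = -gx * s := by rw [hΛ] at hΛ0; linarith
    rw [hgy] at h3
    have h4 : 0 ≤ -gx * (y + s * x) := by nlinarith
    rw [hde] at h4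
    have hpos : 0 < w + d := by linarith
    have h5 : gx ≤ 0 := by
      by_contra h; have := mul_pos (not_le.mp h) hpos; nlinarith
    have h6 : gx = 0 := le_antisymm h5 hge
    apply hne
    exact ⟨h6, by rw [hgy, h6]; ring⟩
  refine ⟨hgx, ?_⟩
  set G := -gx with hG
  have hGp : 0 < G := by rw [hG]; linarith
  have h1' : Λ * Dp ≤ G * d := by rw [hG]; linarith
  have h2' : -(G * d) ≤ Λ * DA := by rw [hG] ; linarith
  have hGd : G * d ≤ G * (w / 250) := mul_le_mul_of_nonneg_left hd1 hGp.le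
  have hΛu : Λ ≤ G / 2000 := by
    by_contra h
    have h4 : G / 2000 < Λ := not_le.mp h
    have h5 : Λ * (89 / 10 * w) ≤ Λ * Dp :=
      mul_le_mul_of_nonneg_left hDp (by linarith [div_pos hGp (by norm_num : (0:ℝ) < 2000)])
    have h6 : (G / 2000) * (89 / 10 * w) < Λ * (89 / 10 * w) :=
      mul_lt_mul_of_pos_right h4 (by positivity)
    nlinarith
  have hΛl : -(G / 900) ≤ Λ := by
    by_contra h
    have h4 : Λ < -(G / 900) := not_le.mp h
    have hΛneg : Λ < 0 := by linarith [div_pos hGp (by norm_num : (0:ℝ) < 900)]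
    have h5 : Λ * DA ≤ Λ * (39 / 10 * w) := mul_le_mul_of_nonpos_left hDA hΛneg.le
    have h6 : Λ * (39 / 10 * w) < (-(G / 900)) * (39 / 10 * w) :=
      mul_lt_mul_of_pos_right h4 (by positivity)
    nlinarith
  have hgy : gy = Λ + G * s := by rw [hΛ, hG]; ring
  have hGs : G * s ≤ G * (1 / 25) := mul_le_mul_of_nonneg_left hs1 hGp.le
  have hGs0 : 0 ≤ G * s := mul_nonneg hGp.le hs0
  rw [abs_le, hgy]
  constructor <;> linarith

/-- Lower arc: direction of the tangent and the size of the tangent functional. -/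
lemma low_arith {gx gy x y xp yp xq yq w : ℝ} (hw : 0 < w) (hx : 0 < x) (hy0 : 0 ≤ y)
    (hxv : 50 * y ≤ x) (hxu : x ≤ 21 / 20 * w) (hxp : 10 * w ≤ xp) (hyp : w / 5 ≤ yp)
    (hvp : 50 * yp ≤ xp) (hxq : xq ≤ 0) (hxq2 : -xq ≤ 21 / 20 * w) (hyq : 24 / 25 * w ≤ yq)
    (hyq2 : yq ≤ 21 / 20 * w)
    (h0 : 0 ≤ -gx * y + gy * x) (hp : 0 ≤ gx * (yp - y) - gy * (xp - x))
    (hq : 0 ≤ gx * (yq - y) - gy * (xq - x)) (hne : ¬ (gx = 0 ∧ gy = 0)) :
    0 < gx ∧ 0 ≤ gy ∧ gy ≤ 3 / 100 * gx ∧ 9 / 10 * w * gx ≤ gx * (yq - y) - gy * (xq - x) ∧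
      (x - xq) ^ 2 + (y - yq) ^ 2 ≤ 56 / 10 * w ^ 2 := by
  have hyle : y ≤ 21 / 1000 * w := by linarith
  have hypy : 0 < yp - y := by linarith
  have hxpx : 0 < xp - x := by linarith
  have hyqy : 9 / 10 * w ≤ yq - y := by linarith
  have hxqx : 0 < x - xq := by linarith
  have hgx : 0 < gx := by
    by_contra hc
    have hle : gx ≤ 0 := not_lt.mp hc
    have hgy : gy ≤ 0 := by
      by_contra h
      have h1 : 0 < gy * (xp - x) := mul_pos (not_le.mp h) hxpx
      have h2 : gx * (yp - y) ≤ 0 := mul_nonpos_of_nonpos_of_nonneg hle hypy.le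
      linarith
    have hq' : 0 ≤ gx * (yq - y) + gy * (x - xq) := by nlinarith
    have h3 : gx * (yq - y) ≤ 0 := mul_nonpos_of_nonpos_of_nonneg hle (by linarith)
    have h4 : gy * (x - xq) ≤ 0 := mul_nonpos_of_nonpos_of_nonneg hgy hxqx.le
    have h5 : gx * (yq - y) = 0 := by linarith
    have h6 : gy * (x - xq) = 0 := by linarith
    have h7 : gx = 0 := by
      rcases mul_eq_zero.mp h5 with h | h
      · exact h
      · exfalso; nlinarith
    have h8 : gy = 0 := by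
      rcases mul_eq_zero.mp h6 with h | h
      · exact h
      · exfalso; linarith
    exact hne ⟨h7, h8⟩
  have hgy : 0 ≤ gy := by
    have h1 : 0 ≤ gx * y := mul_nonneg hgx.le hy0
    have h2 : 0 ≤ gy * x := by linarith
    exact nonneg_of_mul_nonneg_left h2 hx
  have hypp : 0 < yp := by linarith [div_pos hw (by norm_num : (0:ℝ) < 5)]
  have hgyb : gy ≤ 3 / 100 * gx := by
    have h1 : gy * (xp - x) ≤ gx * (yp - y) := by linarith
    have h2 : gx * (yp - y) ≤ gx * yp := by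
      apply mul_le_mul_of_nonneg_left _ hgx.le; linarith
    have h3 : 44 * yp ≤ xp - x := by nlinarith
    have h4 : gy * (44 * yp) ≤ gy * (xp - x) := mul_le_mul_of_nonneg_left h3 hgy
    have h5 : (gy * 44) * yp ≤ gx * yp := by nlinarith
    have h6 : gy * 44 ≤ gx := le_of_mul_le_mul_right h5 hypp
    linarith
  refine ⟨hgx, hgy, hgyb, ?_, ?_⟩
  · have h1 : 9 / 10 * w * gx ≤ gx * (yq - y) := by nlinarith
    have h2 : 0 ≤ gy * (x - xq) := mul_nonneg hgy hxqx.le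
    nlinarith
  · have h1 : (x - xq) ≤ 21 / 10 * w := by linarith
    have h2 : (x - xq) ^ 2 ≤ (21 / 10 * w) ^ 2 := pow_le_pow_left₀ hxqx.le h1 2
    have h3 : (y - yq) ^ 2 ≤ (21 / 20 * w) ^ 2 := by
      rw [sq_le_sq, abs_of_pos (by positivity : 0 < 21 / 20 * w)]
      rw [abs_le]; constructor <;> linarith
    nlinarith

/-- Speed bounded by visual density. -/
lemma speed_bound {gn G A T c N Nbar C : ℝ} (hG : 0 ≤ G) (hA : gn ≤ A * G) (hA0 : 0 ≤ A)
    (hT : c * G ≤ T) (hc : 0 < c) (hN0 : 0 < N) (hN : N ≤ Nbar) (hC0 : 0 ≤ C)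
    (hC : A * π * Nbar ≤ C * c) : gn ≤ C * (T / (π * N)) := by
  have hpi := Real.pi_pos
  have hpn : 0 < π * N := by positivity
  have h1 : G ≤ T / c := by rw [le_div_iff₀ hc]; linarith
  have hNb : 0 < Nbar := lt_of_lt_of_le hN0 hN
  refine hA.trans ?_
  have h2 : A * G ≤ A * (T / c) := mul_le_mul_of_nonneg_left h1 hA0
  refine h2.trans ?_
  have hT0 : 0 ≤ T := le_trans (mul_nonneg hc.le hG) hT
  have h3 : A / c ≤ C / (π * N) := by
    rw [div_le_div_iff₀ hc hpn]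
    have : A * (π * N) ≤ A * (π * Nbar) :=
      mul_le_mul_of_nonneg_left (mul_le_mul_of_nonneg_left hN hpi.le) hA0
    nlinarith
  calc A * (T / c) = (A / c) * T := by ring
    _ ≤ (C / (π * N)) * T := mul_le_mul_of_nonneg_right h3 hT0
    _ = C * (T / (π * N)) := by ring

end Vale.Agent.Lib.P123H99
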