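import Mathlib
import Vale.Agent.Lib.P123H99.Normal
import Vale.Agent.Lib.P123H99.GeomArith

/-! The geometric core of the main lemma. -/

namespace Vale.Agent.Lib.P123H99

open MeasureTheory Set Filter Topology Complex
open scoped Real ComplexConjugate

set_option linter.unusedSectionVars false
set_option linter.unusedSimpArgs false
set_option linter.unusedVariables false
set_option linter.deprecated false

variable {γ : ℝ → ℂ}

/-- The weighted square distance to the value one, seen from a point of the curve. -/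
noncomputable def Ee (γ : ℝ → ℂ) (u : ℝ → ℂ) (t : ℝ) : ℝ :=
  ∫ r in (0 : ℝ)..(2 * π), ‖1 - u r‖ ^ 2 * dens γ (γ t) r

lemma para (u : ℂ) : 2 ≤ ‖1 - u‖ ^ 2 + ‖1 + u‖ ^ 2 := by
  rw [Complex.sq_norm, Complex.sq_norm, Complex.normSq_apply, Complex.normSq_apply]
  simp only [Complex.sub_re, Complex.sub_im, Complex.add_re, Complex.add_im, Complex.one_re,
    Complex.one_im]
  nlinarith [sq_nonneg u.re, sq_nonneg u.im]

lemma norm_le_re_im (z : ℂ) : ‖z‖ ≤ |z.re| + |z.im| := Complex.norm_le_abs_re_add_abs_im z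

/-- First crossing of a level. -/
lemma first_crossing {f : ℝ → ℝ} (hf : Continuous f) {a b c : ℝ} (hab : a ≤ b) (ha : f a < c)
    (hb : c ≤ f b) : ∃ t, a < t ∧ t ≤ b ∧ f t = c ∧ ∀ r, a ≤ r → r < t → f r < c := by
  set S := Icc a b ∩ {t | c ≤ f t} with hS
  have hcl : IsClosed {t | c ≤ f t} := isClosed_le continuous_const hf
  have hcomp : IsCompact S := isCompact_Icc.inter_right hcl
  have hne : S.Nonempty := ⟨b, ⟨⟨hab, le_rfl⟩, hb⟩⟩
  obtain ⟨t, ht, hleast⟩ := hcomp.exists_isLeast hne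
  have hta : a < t := by
    rcases ht.1.1.lt_or_eq with h | h
    · exact h
    · exfalso; rw [← h] at ht; have := ht.2; simp only [mem_setOf_eq] at this; linarith
  have hbelow : ∀ r, a ≤ r → r < t → f r < c := by
    intro r hr hrt
    by_contra hc
    have : r ∈ S := ⟨⟨hr, by linarith [ht.1.2]⟩, not_lt.mp hc⟩
    have := hleast this
    linarith
  refine ⟨t, hta, ht.1.2, ?_, hbelow⟩
  apply le_antisymm
  · -- by the intermediate value theorem
    by_contra hc
    have hlt : c < f t := not_le.mp hc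
    obtain ⟨r, hr, hre⟩ := intermediate_value_Icc hta.le hf.continuousOn ⟨ha.le, hlt.le⟩
    have h1 : r ∈ S := ⟨⟨hr.1, by linarith [hr.2, ht.1.2]⟩, by simp [hre]⟩
    have h2 := hleast h1
    have h3 : r = t := le_antisymm hr.2 h2
    rw [h3] at hre
    linarith
  · exact ht.2

/-- Last crossing of a level. -/
lemma last_crossing {f : ℝ → ℝ} (hf : Continuous f) {a b c : ℝ} (hab : a ≤ b) (ha : f a ≤ c)
    (hb : c < f b) : ∃ t, a ≤ t ∧ t < b ∧ f t = c ∧ ∀ r, t < r → r ≤ b → c < f r := by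
  -- reflect the first crossing
  have hf' : Continuous fun x => -f (-x) := by fun_prop
  obtain ⟨t, h1, h2, h3, h4⟩ := first_crossing hf' (a := -b) (b := -a) (c := -c)
    (by linarith) (by simp; linarith) (by simp; linarith)
  refine ⟨-t, by linarith, by linarith, by simp at h3; linarith, ?_⟩
  intro r hr hrb
  have := h4 (-r) (by linarith) (by linarith)
  simp at this
  linarith

/-- The line through the far point and the auxiliary point: elementary facts. -/
structure LineData (xp yp xA yA D s w : ℝ) : Prop where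
  hDdef : D = xp - xA
  hDpos : 0 < D
  hs0 : 0 ≤ s
  hs1 : s ≤ 1 / 25
  hsD : s * D = yA - yp
  hwdef : w = yp + s * xp
  hw0 : 0 < w
  hw1 : yp ≤ w
  hw2 : w ≤ 5 * yp
  hyAw : yA = w - s * xA
  hxp10 : 10 * w ≤ xp
  hxp100 : xp ≤ 100 * w
  hxA5 : 5 * w ≤ -xA

lemma lineData_of {xp yp xA yA vp : ℝ} (hpy : 0 < yp) (hpx : xp = vp * yp) (hvp1 : 50 ≤ vp)
    (hvp2 : vp ≤ 100) (hxA : xA = -25 * yA) (hyAp : yp ≤ yA) :
    LineData xp yp xA yA (xp - xA) ((yA - yp) / (xp - xA)) (yp + (yA - yp) / (xp - xA) * xp) := by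
  have hDe : xp - xA = vp * yp + 25 * yA := by rw [hpx, hxA]; ring
  have hvy : 0 < vp * yp := mul_pos (by linarith) hpy
  have hDpos : 0 < xp - xA := by rw [hDe]; linarith
  set D := xp - xA with hD
  set s := (yA - yp) / D with hsdef
  have hs0 : 0 ≤ s := div_nonneg (by linarith) hDpos.le
  have hsD : s * D = yA - yp := by rw [hsdef]; field_simp
  have hs1 : s ≤ 1 / 25 := by
    rw [hsdef, div_le_iff₀ hDpos, hDe]
    linarith
  have hxppos : 0 < xp := by rw [hpx]; exact hvy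
  have hw1 : yp ≤ yp + s * xp := by
    have := mul_nonneg hs0 hxppos.le; linarith
  have hw2 : yp + s * xp ≤ 5 * yp := by
    rw [hpx]
    have h1 : s * (vp * yp) ≤ 1 / 25 * (vp * yp) := mul_le_mul_of_nonneg_right hs1 hvy.le
    have h2 : vp * yp ≤ 100 * yp := mul_le_mul_of_nonneg_right hvp2 hpy.le
    linarith
  refine ⟨rfl, hDpos, hs0, hs1, hsD, rfl, by linarith, hw1, hw2, ?_, ?_, ?_, ?_⟩
  · have : s * xp - s * xA = s * D := by rw [hD]; ring
    linarith
  · rw [hpx] at hw2 ⊢; have := mul_le_mul_of_nonneg_right hvp1 hpy.le; linarith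
  · rw [hpx] at hw1 ⊢; have := mul_le_mul_of_nonneg_right hvp2 hpy.le; linarith
  · rw [hxA]; linarith

section X

variable (hN : NormCurve γ) {u : ℝ → ℂ}
include hN

/-- Pointwise overlap of visual densities on the arc of directions between `1` and `-25`. -/
lemma overlap_pointwise {tp tm r vp vm v : ℝ}
    (hrd : DifferentiableAt ℝ γ r)
    (hpy : 0 < (γ tp).im) (hpx : (γ tp).re = vp * (γ tp).im) (hvp1 : 50 ≤ vp) (hvp2 : vp ≤ 100)
    (hmy : 0 < (γ tm).im) (hmx : (γ tm).re = vm * (γ tm).im) (hvm1 : -100 ≤ vm) (hvm2 : vm ≤ -50)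
    (hyy : (γ tp).im ≤ (γ tm).im)
    (hy : 0 < (γ r).im) (hx : (γ r).re = v * (γ r).im) (hv1 : -25 ≤ v) (hv2 : v ≤ 1) :
    dens γ (γ tp) r ≤ 4200 * dens γ (γ 0) r := by
  have hconv := hN.conv
  have h0 := hconv.support r hrd 0
  have hm := hconv.support r hrd tm
  rw [tang_coord, hN.zero] at h0
  rw [tang_coord] at hm
  simp only [Complex.zero_im, Complex.zero_re, hx, hmx] at h0 hm
  have e0 : (deriv γ r).re * (0 - (γ r).im) - (deriv γ r).im * (0 - v * (γ r).im)
      = -(deriv γ r).re * (γ r).im + (deriv γ r).im * (v * (γ r).im) := by ring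
  rw [e0] at h0
  have key := overlap_tang hy hpy hyy hv1 hv2 hvp1 hvp2 hvm1 hvm2 h0 hm
  have hdist := overlap_dist (y := (γ r).im) (yp := (γ tp).im) hv1 hv2 hvp1 hvp2
  rw [dens_eq, dens_eq, tang_coord, tang_coord, hN.zero, normSq_coord, normSq_coord]
  simp only [Complex.zero_im, Complex.zero_re, hx, hpx, sub_zero]
  rw [e0]
  set k0 := -(deriv γ r).re * (γ r).im + (deriv γ r).im * (v * (γ r).im)
  set Ls := (deriv γ r).re * ((γ tp).im - (γ r).im) - (deriv γ r).im * (vp * (γ tp).im - v * (γ r).im)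
  set N0 := (v * (γ r).im) ^ 2 + (γ r).im ^ 2
  set N1 := (v * (γ r).im - vp * (γ tp).im) ^ 2 + ((γ r).im - (γ tp).im) ^ 2
  have hpi := Real.pi_pos
  have hN0 : 0 < N0 := by positivity
  have hN1 : 0 < N1 := by
    by_contra h
    have : N1 ≤ 0 := not_lt.mp h
    nlinarith
  rw [div_le_iff₀ (by positivity)]
  have h5 : 4200 * (k0 / (π * N0)) * (π * N1) = 4200 * k0 * N1 / N0 := by
    field_simp
  rw [h5, le_div_iff₀ hN0]
  have h6 : Ls * N0 ≤ (6 * k0) * (700 * N1) := by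
    by_cases hLs : 0 ≤ Ls
    · exact mul_le_mul key hdist hN0.le (by positivity)
    · have : Ls * N0 ≤ 0 := by
        exact mul_nonpos_of_nonpos_of_nonneg (not_le.mp hLs).le hN0.le
      have h7 : 0 ≤ (6 * k0) * (700 * N1) := by positivity
      linarith
  nlinarith

/-- Visual mass of the far arc from the far point. -/
lemma top_mass (hu : Continuous u)
    (hD : ∫ t in (0 : ℝ)..(2 * π), ‖1 + u t‖ ^ 2 * dens γ (γ 0) t ≤ 1 / 10 ^ 9)
    {tp tb1 tA : ℝ} (hb : 0 ≤ tb1) (hbA : tb1 ≤ tA) (hA : tA ≤ 2 * π)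
    (hdp : DifferentiableAt ℝ γ tp)
    (hEp : Ee γ u tp ≤ 3 / (2 * 10 ^ 5))
    (hover : ∀ r ∈ Icc tb1 tA, DifferentiableAt ℝ γ r →
      dens γ (γ tp) r ≤ 4200 * dens γ (γ 0) r) :
    ∫ r in tb1..tA, dens γ (γ tp) r ≤ 1 / 10 ^ 5 := by
  have hconv := hN.conv
  have hc1 : Continuous fun r => ‖1 - u r‖ ^ 2 := ((continuous_const.sub hu).norm).pow 2
  have hc2 : Continuous fun r => ‖1 + u r‖ ^ 2 := ((continuous_const.add hu).norm).pow 2
  have hA1 := weighted_sub_le hconv hdp hc1 (fun r => by positivity) hb hbA hA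
  have hA2 := weighted_sub_le hconv hN.diff0 hc2 (fun r => by positivity) hb hbA hA
  have hi1 := weighted_ii hconv hdp hc1 tb1 tA
  have hi2 := weighted_ii hconv hN.diff0 hc2 tb1 tA
  have hmono : ∫ r in tb1..tA, 2 * dens γ (γ tp) r ≤
      ∫ r in tb1..tA, (‖1 - u r‖ ^ 2 * dens γ (γ tp) r
        + 4200 * (‖1 + u r‖ ^ 2 * dens γ (γ 0) r)) := by
    apply intervalIntegral.integral_mono_ae_restrict hbA
    · exact (dens_ii_all hconv hdp tb1 tA).const_mul _
    · exact hi1.add (hi2.const_mul _)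
    · apply (ae_restrict_iff' measurableSet_Icc).mpr
      filter_upwards [hconv.ae_diff] with r hrd hr
      have h1 := hover r hr hrd
      have h2 := para (u r)
      have h3 := hconv.dens_nonneg hrd tp
      have h4 : (‖1 + u r‖ ^ 2) * dens γ (γ tp) r ≤ (‖1 + u r‖ ^ 2) * (4200 * dens γ (γ 0) r) :=
        mul_le_mul_of_nonneg_left h1 (by positivity)
      nlinarith
  rw [intervalIntegral.integral_const_mul, intervalIntegral.integral_add hi1 (hi2.const_mul _),
    intervalIntegral.integral_const_mul] at hmono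
  have hE' : ∫ r in (0 : ℝ)..(2 * π), ‖1 - u r‖ ^ 2 * dens γ (γ tp) r ≤ 3 / (2 * 10 ^ 5) := hEp
  have hD' := hD
  have h5 : ∫ r in tb1..tA, ‖1 - u r‖ ^ 2 * dens γ (γ tp) r ≤ 3 / (2 * 10 ^ 5) := hA1.trans hE'
  have h6 : ∫ r in tb1..tA, ‖1 + u r‖ ^ 2 * dens γ (γ (0 : ℝ)) r ≤ 1 / 10 ^ 9 := hA2.trans hD
  norm_num at h5 h6 ⊢
  linarith

/-- Flatness of the top arc. -/
lemma flat_point {tp tA t D s w : ℝ}
    (hL : LineData (γ tp).re (γ tp).im (γ tA).re (γ tA).im D s w)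
    (hdp : DifferentiableAt ℝ γ tp) (htp : tp < t) (htA : t ≤ tA) (hA : tA < tp + 2 * π)
    (hpy : 0 < (γ tp).im)
    (hty : 0 < (γ t).im)
    (hx1 : -(γ t).im ≤ (γ t).re) (hx2 : (γ t).re ≤ (γ t).im)
    (hmt : ∫ r in t..tA, dens γ (γ tp) r ≤ 1 / 10 ^ 5) :
    0 ≤ (γ t).im + s * (γ t).re - w ∧ 24 / 25 * w ≤ (γ t).im ∧ (γ t).im ≤ 21 / 20 * w ∧
      (γ t).im + s * (γ t).re - w ≤ w / 250 := by
  have hconv := hN.conv
  have hpi4 : π < 3.15 := Real.pi_lt_d2
  have hDpos := hL.hDpos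
  have hcross : (conj (γ t - γ tp) * (γ tA - γ tp)).im
      = D * ((γ t).im + s * (γ t).re - w) := by
    rw [cross_coord]
    simp only [Complex.sub_re, Complex.sub_im]
    have e1 : (γ tA).im - (γ tp).im = s * D := hL.hsD.symm
    have e2 : (γ tA).re - (γ tp).re = -D := by rw [hL.hDdef]; ring
    rw [e1, e2, hL.hwdef]
    ring
  have hc0 := cross_nonneg hconv hdp (t₀ := tp) (s := t) (r := tA) htp htA hA
  have hcle := cross_le hconv hdp (t₀ := tp) (s := t) (r := tA) htp htA hA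
  rw [hcross] at hc0 hcle
  have hd0 := nonneg_of_mul_nonneg_right hc0 hDpos
  have hmt0 : 0 ≤ ∫ r in t..tA, dens γ (γ tp) r := mass_between_nonneg hconv hdp htA
  have hxpp : 0 ≤ (γ tp).re := by have := hL.hxp10; have := hL.hw0; linarith
  have hn1 : ‖γ t - γ tp‖ ≤ (γ tp).re + (γ tp).im + 2 * (γ t).im := by
    refine (norm_le_re_im _).trans ?_
    simp only [Complex.sub_re, Complex.sub_im]
    have a1 : |(γ t).re - (γ tp).re| ≤ (γ tp).re + (γ t).im := by
      rw [abs_le]; constructor <;> linarith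
    have a2 : |(γ t).im - (γ tp).im| ≤ (γ t).im + (γ tp).im := by
      rw [abs_le]; constructor <;> linarith
    linarith
  have hn2 : ‖γ tA - γ tp‖ ≤ 26 / 25 * D := by
    refine (norm_le_re_im _).trans ?_
    simp only [Complex.sub_re, Complex.sub_im]
    have a1 : (γ tA).re - (γ tp).re = -D := by rw [hL.hDdef]; ring
    have a2 : (γ tA).im - (γ tp).im = s * D := hL.hsD.symm
    rw [a1, a2, abs_neg, abs_of_pos hDpos, abs_of_nonneg (mul_nonneg hL.hs0 hDpos.le)]
    nlinarith [hL.hs1, hDpos]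
  set Y := (γ tp).re + (γ tp).im + 2 * (γ t).im with hY
  have hyn : 0 ≤ Y := by rw [hY]; linarith
  have hmain : D * ((γ t).im + s * (γ t).re - w) ≤ D * ((33 / 10 ^ 6) * Y) := by
    have h1 : ‖γ t - γ tp‖ * ‖γ tA - γ tp‖ ≤ Y * (26 / 25 * D) :=
      mul_le_mul hn1 hn2 (norm_nonneg _) hyn
    have h2 : π * ∫ r in t..tA, dens γ (γ tp) r ≤ 315 / 100 * (1 / 10 ^ 5) := by
      apply mul_le_mul (by norm_num at hpi4 ⊢; linarith) hmt hmt0 (by norm_num)
    have h3 : ‖γ t - γ tp‖ * ‖γ tA - γ tp‖ * (π * ∫ r in t..tA, dens γ (γ tp) r)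
        ≤ Y * (26 / 25 * D) * (315 / 100 * (1 / 10 ^ 5)) :=
      mul_le_mul h1 h2 (mul_nonneg Real.pi_pos.le hmt0) (by positivity)
    have h4 : Y * (26 / 25 * D) * (315 / 100 * (1 / 10 ^ 5)) ≤ D * ((33 / 10 ^ 6) * Y) := by
      have : 0 ≤ D * Y := mul_nonneg hDpos.le hyn
      norm_num
      nlinarith
    linarith
  have hdist := le_of_mul_le_mul_left hmain hDpos
  have hde : (γ t).im + s * (γ t).re = w + ((γ t).im + s * (γ t).re - w) := by ring
  have hfl := flat_arith hL.hs0 hL.hs1 hL.hw0 hd0 hde hx1 hx2 hdist hL.hxp100 hL.hw1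
  exact ⟨hd0, hfl.1, hfl.2.1, hfl.2.2⟩

/-- Speed on the top arc bounded by the visual density from the base point. -/
lemma top_speed {tp tA r D s w : ℝ}
    (hL : LineData (γ tp).re (γ tp).im (γ tA).re (γ tA).im D s w)
    (hrd : DifferentiableAt ℝ γ r) (hy : 0 < (γ r).im)
    (hx1 : -(γ r).im ≤ (γ r).re) (hx2 : (γ r).re ≤ (γ r).im)
    (hd0 : 0 ≤ (γ r).im + s * (γ r).re - w) (hyl : 24 / 25 * w ≤ (γ r).im)
    (hyu : (γ r).im ≤ 21 / 20 * w) (hd1 : (γ r).im + s * (γ r).re - w ≤ w / 250) :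
    ‖deriv γ r‖ ≤ 8 * w * dens γ (γ 0) r := by
  have hconv := hN.conv
  have hw0 := hL.hw0
  have hpi := Real.pi_pos
  have hpi4 : π < 3.15 := Real.pi_lt_d2
  have ht1 := hconv.support r hrd tp
  have ht2 := hconv.support r hrd tA
  have ht3 := hconv.support r hrd 0
  rw [tang_coord] at ht1 ht2 ht3
  rw [hN.zero] at ht3
  simp only [Complex.zero_im, Complex.zero_re] at ht3
  set gx := (deriv γ r).re with hgx
  set gy := (deriv γ r).im with hgy
  set x := (γ r).re with hx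
  set y := (γ r).im with hyd
  set d := y + s * x - w with hd
  have e1 : gx * ((γ tp).im - y) - gy * ((γ tp).re - x)
      = -gx * d - (gx * s + gy) * ((γ tp).re - x) := by
    rw [hd, hL.hwdef]; ring
  have e2 : gx * ((γ tA).im - y) - gy * ((γ tA).re - x)
      = -gx * d + (gx * s + gy) * (x - (γ tA).re) := by
    rw [hd, hL.hyAw]; ring
  have e3 : gx * (0 - y) - gy * (0 - x) = -gx * y + gy * x := by ring
  rw [e1] at ht1
  rw [e2] at ht2
  rw [e3] at ht3
  have hne : ¬ (gx = 0 ∧ gy = 0) := by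
    rintro ⟨h1, h2⟩
    apply hconv.deriv_ne r hrd
    apply Complex.ext <;> simp [← hgx, ← hgy, h1, h2]
  have hde : y + s * x = w + d := by rw [hd]; ring
  have hDp : 89 / 10 * w ≤ (γ tp).re - x := by
    have := hL.hxp10; linarith
  have hDA : 39 / 10 * w ≤ x - (γ tA).re := by
    have := hL.hxA5; linarith
  obtain ⟨hg1, hg2⟩ := top_arith hL.hs0 hL.hs1 hw0 hd0 hd1 hde hDp hDA ht1 ht2 ht3 hne
  have hG : 0 ≤ -gx := by linarith
  have hnorm : ‖deriv γ r‖ ≤ 21 / 20 * -gx := by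
    refine (norm_le_re_im _).trans ?_
    rw [← hgx, ← hgy, abs_of_neg hg1]
    linarith
  have hT : 19 / 20 * y * -gx ≤ -gx * y + gy * x := by
    have : gy * x ≥ -(-gx / 20 * y) := by
      have h1 : |gy * x| ≤ -gx / 20 * y := by
        rw [abs_mul]
        apply mul_le_mul hg2 _ (abs_nonneg _) (by linarith)
        rw [abs_le]; constructor <;> linarith
      linarith [(abs_le.mp h1).1]
    linarith
  have hN0 : normSq (γ r - 0) = x ^ 2 + y ^ 2 := by
    rw [normSq_coord]; simp; rfl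
  have hNpos : 0 < x ^ 2 + y ^ 2 := by positivity
  have hNb : x ^ 2 + y ^ 2 ≤ 2 * y ^ 2 := by
    have : x ^ 2 ≤ y ^ 2 := by
      rw [sq_le_sq, abs_of_pos hy, abs_le]; exact ⟨hx1, hx2⟩
    linarith
  have hsp := speed_bound (gn := ‖deriv γ r‖) (G := -gx) (A := 21 / 20)
    (T := -gx * y + gy * x) (c := 19 / 20 * y) (N := x ^ 2 + y ^ 2) (Nbar := 2 * y ^ 2)
    (C := 8 * w) hG hnorm (by norm_num) hT (by positivity) hNpos hNb (by positivity) (by
      have h1 : 21 / 20 * π * (2 * y ^ 2) = y * (21 / 10 * π * y) := by ring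
      have h2 : 8 * w * (19 / 20 * y) = y * (38 / 5 * w) := by ring
      rw [h1, h2]
      apply mul_le_mul_of_nonneg_left _ hy.le
      have h3 : π * y ≤ 3.15 * (21 / 20 * w) := mul_le_mul hpi4.le hyu hy.le (by norm_num)
      norm_num at h3 ⊢
      nlinarith)
  rw [dens_eq, tang_coord, hN.zero, hN0]
  simp only [Complex.zero_im, Complex.zero_re]
  rw [← hgx, ← hgy, ← hx, ← hyd, e3]
  exact hsp

omit hN in
/-- Speed on a lower arc bounded by the visual density from a point on the top arc. -/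
lemma low_speed_real {gx gy x y xp yp xq yq w gn : ℝ} (hw : 0 < w) (hx : 0 < x) (hy0 : 0 ≤ y)
    (hxv : 50 * y ≤ x) (hxu : x ≤ 21 / 20 * w) (hxp : 10 * w ≤ xp) (hyp : w / 5 ≤ yp)
    (hvp : 50 * yp ≤ xp) (hxq : xq ≤ 0) (hxq2 : -xq ≤ 21 / 20 * w) (hyq : 24 / 25 * w ≤ yq)
    (hyq2 : yq ≤ 21 / 20 * w)
    (h0 : 0 ≤ -gx * y + gy * x) (hp : 0 ≤ gx * (yp - y) - gy * (xp - x))
    (hq : 0 ≤ gx * (yq - y) - gy * (xq - x)) (hne : ¬ (gx = 0 ∧ gy = 0))
    (hgn : gn ≤ |gx| + |gy|) :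
    gn ≤ 21 * w * ((gx * (yq - y) - gy * (xq - x)) / (π * ((x - xq) ^ 2 + (y - yq) ^ 2))) := by
  obtain ⟨h1, h2, h3, h4, h5⟩ := low_arith hw hx hy0 hxv hxu hxp hyp hvp hxq hxq2 hyq hyq2 h0 hp hq hne
  have hpi4 : π < 3.15 := Real.pi_lt_d2
  have hNpos : 0 < (x - xq) ^ 2 + (y - yq) ^ 2 := by
    have : 0 < x - xq := by linarith
    positivity
  refine speed_bound (G := gx) (A := 103 / 100) (c := 9 / 10 * w) (Nbar := 56 / 10 * w ^ 2)
    h1.le ?_ (by norm_num) h4 (by positivity) hNpos h5 (by positivity) ?_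
  · rw [abs_of_pos h1, abs_of_nonneg h2] at hgn
    linarith
  · have hw2 : 0 < w ^ 2 := by positivity
    have e1 : 103 / 100 * π * (56 / 10 * w ^ 2) = (103 / 100 * (56 / 10) * π) * w ^ 2 := by ring
    have e2 : 21 * w * (9 / 10 * w) = (189 / 10) * w ^ 2 := by ring
    rw [e1, e2]
    apply mul_le_mul_of_nonneg_right _ hw2.le
    norm_num at hpi4 ⊢
    linarith


/-- Speed on the lower right arc. -/
lemma low_speed_right {tp q r vp w : ℝ} (hw : 0 < w)
    (hrd : DifferentiableAt ℝ γ r) (hr0 : 0 < r) (hrp : r ≤ tp) (htp2 : tp < 2 * π)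
    (hpy : 0 < (γ tp).im) (hpx : (γ tp).re = vp * (γ tp).im) (hvp1 : 50 ≤ vp)
    (hxp : 10 * w ≤ (γ tp).re) (hyp : w / 5 ≤ (γ tp).im)
    (hxu : (γ r).re ≤ 21 / 20 * w)
    (hxq : (γ q).re ≤ 0) (hxq2 : -(γ q).re ≤ 21 / 20 * w) (hyq : 24 / 25 * w ≤ (γ q).im)
    (hyq2 : (γ q).im ≤ 21 / 20 * w) :
    ‖deriv γ r‖ ≤ 21 * w * dens γ (γ q) r := by
  have hconv := hN.conv
  have hy0 := hN.y_nonneg r
  have hc := hN.cross0 hr0 hrp htp2
  rw [hpx] at hc
  have hxv : vp * (γ r).im ≤ (γ r).re := by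
    have h1 : 0 ≤ (γ tp).im * ((γ r).re - vp * (γ r).im) := by nlinarith
    exact sub_nonneg.mp (nonneg_of_mul_nonneg_right h1 hpy)
  have hxv2 : 50 * (γ r).im ≤ (γ r).re := by
    have := mul_le_mul_of_nonneg_right hvp1 hy0; linarith
  have hx : 0 < (γ r).re := by
    rcases (by linarith : 0 ≤ (γ r).re).lt_or_eq with h | h
    · exact h
    · exfalso
      have h2 : (γ r).im = 0 := by linarith
      apply hN.ne_zero hr0 (by linarith)
      apply Complex.ext
      · simpa using h.symm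
      · simpa using h2
  have ht0 := hconv.support r hrd 0
  have htp := hconv.support r hrd tp
  have htq := hconv.support r hrd q
  rw [tang_coord, hN.zero] at ht0
  rw [tang_coord] at htp htq
  simp only [Complex.zero_im, Complex.zero_re] at ht0
  have e0 : (deriv γ r).re * (0 - (γ r).im) - (deriv γ r).im * (0 - (γ r).re)
      = -(deriv γ r).re * (γ r).im + (deriv γ r).im * (γ r).re := by ring
  rw [e0] at ht0
  have hvp : 50 * (γ tp).im ≤ (γ tp).re := by
    rw [hpx]; exact mul_le_mul_of_nonneg_right hvp1 hpy.le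
  have hne : ¬ ((deriv γ r).re = 0 ∧ (deriv γ r).im = 0) := by
    rintro ⟨h1, h2⟩
    apply hconv.deriv_ne r hrd
    apply Complex.ext <;> simp [h1, h2]
  have hs := low_speed_real (gn := ‖deriv γ r‖) hw hx hy0 hxv2 hxu hxp hyp hvp hxq hxq2 hyq hyq2
    ht0 htp htq hne (norm_le_re_im _)
  rw [dens_eq, tang_coord, normSq_coord]
  exact hs

/-- Speed on the lower left arc. -/
lemma low_speed_left {tm q r vm w : ℝ} (hw : 0 < w)
    (hrd : DifferentiableAt ℝ γ r) (htm0 : 0 < tm) (hmr : tm ≤ r) (hr2 : r < 2 * π)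
    (hmy : 0 < (γ tm).im) (hmx : (γ tm).re = vm * (γ tm).im) (hvm2 : vm ≤ -50)
    (hxm : 10 * w ≤ -(γ tm).re) (hym : w / 5 ≤ (γ tm).im)
    (hxu : -(γ r).re ≤ 21 / 20 * w)
    (hxq : 0 ≤ (γ q).re) (hxq2 : (γ q).re ≤ 21 / 20 * w) (hyq : 24 / 25 * w ≤ (γ q).im)
    (hyq2 : (γ q).im ≤ 21 / 20 * w) :
    ‖deriv γ r‖ ≤ 21 * w * dens γ (γ q) r := by
  have hconv := hN.conv
  have hr0 : 0 < r := by linarith
  have hy0 := hN.y_nonneg r
  have hc := hN.cross0 htm0 hmr hr2
  rw [hmx] at hc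
  have hxv : (γ r).re ≤ vm * (γ r).im := by
    have h1 : 0 ≤ (γ tm).im * (vm * (γ r).im - (γ r).re) := by nlinarith
    exact sub_nonneg.mp (nonneg_of_mul_nonneg_right h1 hmy)
  have hxv2 : 50 * (γ r).im ≤ -(γ r).re := by
    have := mul_le_mul_of_nonneg_right hvm2 hy0; linarith
  have hx : 0 < -(γ r).re := by
    rcases (by linarith : 0 ≤ -(γ r).re).lt_or_eq with h | h
    · exact h
    · exfalso
      have h2 : (γ r).im = 0 := by linarith
      apply hN.ne_zero hr0 (by linarith)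
      apply Complex.ext
      · simp only [Complex.zero_re]; linarith
      · simpa using h2
  have ht0 := hconv.support r hrd 0
  have htp := hconv.support r hrd tm
  have htq := hconv.support r hrd q
  rw [tang_coord, hN.zero] at ht0
  rw [tang_coord] at htp htq
  simp only [Complex.zero_im, Complex.zero_re] at ht0
  have e0 : (deriv γ r).re * (0 - (γ r).im) - (deriv γ r).im * (0 - (γ r).re)
      = -(deriv γ r).re * (γ r).im + (-(deriv γ r).im) * (-(γ r).re) := by ring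
  rw [e0] at ht0
  have e1 : (deriv γ r).re * ((γ tm).im - (γ r).im) - (deriv γ r).im * ((γ tm).re - (γ r).re)
      = (deriv γ r).re * ((γ tm).im - (γ r).im)
        - (-(deriv γ r).im) * (-(γ tm).re - -(γ r).re) := by ring
  have e2 : (deriv γ r).re * ((γ q).im - (γ r).im) - (deriv γ r).im * ((γ q).re - (γ r).re)
      = (deriv γ r).re * ((γ q).im - (γ r).im)
        - (-(deriv γ r).im) * (-(γ q).re - -(γ r).re) := by ring
  rw [e1] at htp
  rw [e2] at htq
  have hvp : 50 * (γ tm).im ≤ -(γ tm).re := by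
    rw [hmx]
    have := mul_le_mul_of_nonneg_right hvm2 hmy.le
    linarith
  have hne : ¬ ((deriv γ r).re = 0 ∧ -(deriv γ r).im = 0) := by
    rintro ⟨h1, h2⟩
    apply hconv.deriv_ne r hrd
    apply Complex.ext
    · simpa using h1
    · simpa using h2
  have hs := low_speed_real (gn := ‖deriv γ r‖) (xq := -(γ q).re) (yq := (γ q).im) hw hx hy0 hxv2 hxu
    hxm hym hvp (by linarith) (by linarith) hyq hyq2 ht0 htp htq hne
    (by rw [abs_neg]; exact norm_le_re_im _)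
  rw [dens_eq, tang_coord, normSq_coord]
  have e3 : (-(γ r).re - -(γ q).re) ^ 2 + ((γ r).im - (γ q).im) ^ 2
      = ((γ r).re - (γ q).re) ^ 2 + ((γ r).im - (γ q).im) ^ 2 := by ring
  rw [e3, ← e2] at hs
  exact hs

/-- The final contradiction from the chord inequality. -/
lemma chord_contra (hu : Continuous u) {ta1 tb1 tb2 ta2 E1 E2 E3 X1 X2 : ℝ}
    (hchord : ∀ s t, 0 ≤ s → s ≤ t → t ≤ 2 * π → ‖∫ r in s..t, u r * deriv γ r‖ ≤ ‖γ t - γ s‖)
    (h0 : 0 < ta1) (h1 : ta1 ≤ tb1) (h2 : tb1 ≤ tb2) (h3 : tb2 ≤ ta2) (h4 : ta2 < 2 * π)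
    (hE1 : ‖∫ r in (0 : ℝ)..ta1, (1 - u r) * deriv γ r‖ ≤ E1)
    (hE2 : ‖∫ r in ta2..(2 * π), (1 - u r) * deriv γ r‖ ≤ E2)
    (hE3 : ‖∫ r in tb1..tb2, (1 + u r) * deriv γ r‖ ≤ E3)
    (ha1 : (γ ta1).re = X1) (hb1 : (γ tb1).re = X1) (hb1y : (γ tb1).im = X1)
    (ha2 : (γ ta2).re = -X2) (hb2 : (γ tb2).re = -X2) (hb2y : (γ tb2).im = X2)
    (ha1y : 0 ≤ (γ ta1).im) (ha2y : 0 ≤ (γ ta2).im) (ha1y2 : (γ ta1).im ≤ 2 * X1)
    (ha2y2 : (γ ta2).im ≤ 2 * X2) :
    X1 + X2 ≤ E1 + E2 + E3 := by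
  have hconv := hN.conv
  have hd := hconv.deriv_ii
  have hu' : ∀ a b, IntervalIntegrable (fun r => u r * deriv γ r) volume a b := fun a b =>
    (hd a b).continuousOn_mul hu.continuousOn
  have hu1' : ∀ a b, IntervalIntegrable (fun r => (1 - u r) * deriv γ r) volume a b := fun a b =>
    (hd a b).continuousOn_mul (continuous_const.sub hu).continuousOn
  have hu2' : ∀ a b, IntervalIntegrable (fun r => (1 + u r) * deriv γ r) volume a b := fun a b =>
    (hd a b).continuousOn_mul (continuous_const.add hu).continuousOn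
  obtain ⟨L, hL⟩ := hconv.lip
  have hftc : ∀ a b, ∫ r in a..b, deriv γ r = γ b - γ a := fun a b =>
    ftc_lip (hL.lipschitzOnWith (s := uIcc a b))
  have hsplit : ∫ r in (0 : ℝ)..(2 * π), u r * deriv γ r =
      (∫ r in (0 : ℝ)..ta1, u r * deriv γ r) + (∫ r in ta1..tb1, u r * deriv γ r)
      + (∫ r in tb1..tb2, u r * deriv γ r) + (∫ r in tb2..ta2, u r * deriv γ r)
      + (∫ r in ta2..(2 * π), u r * deriv γ r) := by
    rw [intervalIntegral.integral_add_adjacent_intervals (hu' _ _) (hu' _ _),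
      intervalIntegral.integral_add_adjacent_intervals (hu' _ _) (hu' _ _),
      intervalIntegral.integral_add_adjacent_intervals (hu' _ _) (hu' _ _),
      intervalIntegral.integral_add_adjacent_intervals (hu' _ _) (hu' _ _)]
  have hA : ∫ r in (0 : ℝ)..ta1, u r * deriv γ r
      = (γ ta1 - γ 0) - ∫ r in (0 : ℝ)..ta1, (1 - u r) * deriv γ r := by
    rw [← hftc, ← intervalIntegral.integral_sub (hd _ _) (hu1' _ _)]
    congr 1; funext r; ring
  have hB : ∫ r in ta2..(2 * π), u r * deriv γ r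
      = (γ (2 * π) - γ ta2) - ∫ r in ta2..(2 * π), (1 - u r) * deriv γ r := by
    rw [← hftc, ← intervalIntegral.integral_sub (hd _ _) (hu1' _ _)]
    congr 1; funext r; ring
  have hC : ∫ r in tb1..tb2, u r * deriv γ r
      = (∫ r in tb1..tb2, (1 + u r) * deriv γ r) - (γ tb2 - γ tb1) := by
    rw [← hftc, ← intervalIntegral.integral_sub (hu2' _ _) (hd _ _)]
    congr 1; funext r; ring
  have h2pi : γ (2 * π) = 0 := by
    have := hconv.per 0
    rw [zero_add, hN.zero] at this; exact this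
  have hz : ‖∫ r in (0 : ℝ)..(2 * π), u r * deriv γ r‖ ≤ 0 := by
    have hpi := Real.pi_pos
    have := hchord 0 (2 * π) le_rfl (by positivity) le_rfl
    rwa [h2pi, hN.zero, sub_zero, norm_zero] at this
  have hz0 : ∫ r in (0 : ℝ)..(2 * π), u r * deriv γ r = 0 := norm_le_zero_iff.mp hz
  set I1 := ∫ r in ta1..tb1, u r * deriv γ r with hI1
  set I2 := ∫ r in tb2..ta2, u r * deriv γ r with hI2
  set e1 := ∫ r in (0 : ℝ)..ta1, (1 - u r) * deriv γ r
  set e2 := ∫ r in ta2..(2 * π), (1 - u r) * deriv γ r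
  set e3 := ∫ r in tb1..tb2, (1 + u r) * deriv γ r
  have hI1b : ‖I1‖ ≤ X1 := by
    have hX : 0 ≤ X1 := by linarith
    have h5 := hchord ta1 tb1 h0.le h1 (by linarith)
    refine h5.trans ?_
    have e : γ tb1 - γ ta1 = ((X1 - (γ ta1).im : ℝ) : ℂ) * I := by
      apply Complex.ext
      · simp [ha1, hb1]
      · simp [hb1y]
    rw [e, norm_mul, norm_I, mul_one, Complex.norm_real, Real.norm_eq_abs, abs_le]
    constructor <;> linarith
  have hI2b : ‖I2‖ ≤ X2 := by
    have hX : 0 ≤ X2 := by linarith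
    have h5 := hchord tb2 ta2 (by linarith) h3 h4.le
    refine h5.trans ?_
    have e : γ ta2 - γ tb2 = (((γ ta2).im - X2 : ℝ) : ℂ) * I := by
      apply Complex.ext
      · simp [ha2, hb2]
      · simp [hb2y]
    rw [e, norm_mul, norm_I, mul_one, Complex.norm_real, Real.norm_eq_abs, abs_le]
    constructor <;> linarith
  have hsum := hsplit
  rw [hz0, hA, hB, hC, hN.zero, h2pi] at hsum
  have hre := congrArg Complex.re hsum
  simp only [Complex.zero_re, Complex.add_re, Complex.sub_re, ha1, hb1, ha2, hb2] at hre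
  have b1 := (Complex.abs_re_le_norm e1)
  have b2 := (Complex.abs_re_le_norm e2)
  have b3 := (Complex.abs_re_le_norm e3)
  have b4 := (Complex.abs_re_le_norm I1)
  have b5 := (Complex.abs_re_le_norm I2)
  rw [abs_le] at b1 b2 b3 b4 b5
  linarith [b1.1, b1.2, b2.1, b2.2, b3.1, b3.2, b4.1, b4.2, b5.1, b5.2]


set_option maxHeartbeats 1000000 in
/-- The main geometric lemma under the normalisation of heights. -/
theorem lemmaX (hu : Continuous u)
    (hchord : ∀ s t, 0 ≤ s → s ≤ t → t ≤ 2 * π → ‖∫ r in s..t, u r * deriv γ r‖ ≤ ‖γ t - γ s‖)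
    (hD : ∫ t in (0 : ℝ)..(2 * π), ‖1 + u t‖ ^ 2 * dens γ (γ 0) t ≤ 1 / 10 ^ 9)
    {tp tm tb1 tb2 r1 r2 vp vm : ℝ}
    (h0p : 0 < tp) (hpb : tp < tb1) (hb12 : tb1 < tb2) (hbm : tb2 < tm) (hm2 : tm < 2 * π)
    (hr1 : r1 ∈ Icc tb1 tb2) (hr2 : r2 ∈ Icc tb1 tb2)
    (hb1y : 0 < (γ tb1).im) (hb1x : (γ tb1).re = (γ tb1).im)
    (hb2y : 0 < (γ tb2).im) (hb2x : (γ tb2).re = -(γ tb2).im)
    (hpy : 0 < (γ tp).im) (hpx : (γ tp).re = vp * (γ tp).im) (hvp1 : 50 ≤ vp) (hvp2 : vp ≤ 100)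
    (hmy : 0 < (γ tm).im) (hmx : (γ tm).re = vm * (γ tm).im) (hvm1 : -100 ≤ vm) (hvm2 : vm ≤ -50)
    (hr1x : 0 ≤ (γ r1).re) (hr2x : (γ r2).re ≤ 0)
    (hdp : DifferentiableAt ℝ γ tp) (hdr1 : DifferentiableAt ℝ γ r1)
    (hdr2 : DifferentiableAt ℝ γ r2)
    (hEp : Ee γ u tp ≤ 3 / (2 * 10 ^ 5)) (hEr1 : Ee γ u r1 ≤ 1 / 10 ^ 7)
    (hEr2 : Ee γ u r2 ≤ 1 / 10 ^ 7)
    (hyy : (γ tp).im ≤ (γ tm).im) : False := by
  have hconv := hN.conv
  have hpi := Real.pi_pos
  obtain ⟨tA, htA0, htA2, hyA, hxA, _⟩ := hN.exists_dir (-25)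
  have hb2A : tb2 < tA := by
    refine hN.dir_lt (v₁ := -1) (v₂ := -25) (by linarith) (by linarith) htA0 htA2 hb2y ?_ hyA hxA
      (by norm_num)
    rw [hb2x]; ring
  have hAm : tA < tm := hN.dir_lt (v₁ := -25) (v₂ := vm) htA0 htA2 (by linarith) hm2 hyA hxA hmy hmx
    (by linarith)
  have hyAp : (γ tp).im ≤ (γ tA).im := by
    have h := cross_nonneg hconv hdp (t₀ := tp) (s := tA) (r := tm) (by linarith) hAm.le
      (by linarith)
    rw [cross_coord] at h
    simp only [Complex.sub_re, Complex.sub_im] at h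
    rw [hxA, hpx, hmx] at h
    exact height_ge hpy hyy (by linarith : vm < -25) (by linarith : (-25 : ℝ) < vp) h
  obtain ⟨D, s, w, hL⟩ : ∃ D s w, LineData (γ tp).re (γ tp).im (γ tA).re (γ tA).im D s w :=
    ⟨_, _, _, lineData_of hpy hpx hvp1 hvp2 hxA hyAp⟩
  have hw0 := hL.hw0
  have hpw : w / 5 ≤ (γ tp).im := by linarith [hL.hw2]
  -- overlap and the mass of the far arc
  have hover : ∀ r ∈ Icc tb1 tA, DifferentiableAt ℝ γ r →
      dens γ (γ tp) r ≤ 4200 * dens γ (γ 0) r := by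
    intro r hr hrd
    have hb := hN.between (s := tb1) (t := r) (r := tA) (v₁ := -25) (v₂ := 1) (by linarith) hr.1 hr.2
      htA2 hb1y (by rw [hb1x]; ring) hyA hxA
    have hry := hb.1
    refine overlap_pointwise hN (v := (γ r).re / (γ r).im) hrd
      hpy hpx hvp1 hvp2 hmy hmx hvm1 hvm2 hyy hry ?_ ?_ ?_
    · field_simp
    · rw [le_div_iff₀ hry]; linarith [hb.2.1]
    · rw [div_le_iff₀ hry]; linarith [hb.2.2]
  have hM0 := top_mass hN hu hD (by linarith : 0 ≤ tb1) (by linarith : tb1 ≤ tA) (by linarith)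
    hdp hEp hover
  -- flatness
  have hflat : ∀ t ∈ Icc tb1 tb2, 0 < (γ t).im ∧ -(γ t).im ≤ (γ t).re ∧ (γ t).re ≤ (γ t).im ∧
      0 ≤ (γ t).im + s * (γ t).re - w ∧ 24 / 25 * w ≤ (γ t).im ∧ (γ t).im ≤ 21 / 20 * w ∧
      (γ t).im + s * (γ t).re - w ≤ w / 250 := by
    intro t ht
    have hb := hN.between (s := tb1) (t := t) (r := tb2) (v₁ := -1) (v₂ := 1) (by linarith) ht.1 ht.2
      (by linarith) hb1y (by rw [hb1x]; ring) hb2y (by rw [hb2x]; ring)
    have hmt : ∫ r in t..tA, dens γ (γ tp) r ≤ 1 / 10 ^ 5 := by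
      refine le_trans ?_ hM0
      apply intervalIntegral.integral_mono_interval ht.1 (by linarith [ht.2]) le_rfl
      · filter_upwards [ae_restrict_of_ae hconv.ae_diff] with r hr
        exact hconv.dens_nonneg hr tp
      · exact dens_ii_all hconv hdp tb1 tA
    have hfl := flat_point hN hL hdp (by linarith [ht.1]) (by linarith [ht.2] : t ≤ tA)
      (by linarith) hpy hb.1 (by linarith [hb.2.1]) (by linarith [hb.2.2]) hmt
    exact ⟨hb.1, by linarith [hb.2.1], by linarith [hb.2.2], hfl.1, hfl.2.1, hfl.2.2.1, hfl.2.2.2⟩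
  have hfb1 := hflat tb1 ⟨le_rfl, hb12.le⟩
  have hfb2 := hflat tb2 ⟨hb12.le, le_rfl⟩
  have hfr1 := hflat r1 hr1
  have hfr2 := hflat r2 hr2
  -- error on the top arc
  have hE3 := err_bound hconv hN.diff0 (c := fun r => 1 + u r) (continuous_const.add hu)
    (a := tb1) (b := tb2) (C := 8 * w) (Ebar := 1 / 10 ^ 9) (lam := 1 / 1000)
    (by linarith) hb12.le (by linarith) (by positivity) (by norm_num)
    (fun r hr hrd => by
      have hf := hflat r ⟨hr.1.le, hr.2.le⟩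
      exact top_speed hN hL hrd hf.1 hf.2.1 hf.2.2.1 hf.2.2.2.1 hf.2.2.2.2.1 hf.2.2.2.2.2.1
        hf.2.2.2.2.2.2) hD
  -- the first lower crossing
  have hxp10 := hL.hxp10
  have hcx : Continuous fun t => (γ t).re := Complex.continuous_re.comp hconv.cont
  obtain ⟨ta1, ht1, ht2, ht3, ht4⟩ := first_crossing hcx (a := 0) (b := tp) (c := (γ tb1).im)
    h0p.le (by simp [hN.zero]; exact hb1y) (by linarith [hfb1.2.2.2.2.2.1])
  have hE1 := err_bound hconv hdr2 (c := fun r => 1 - u r) (continuous_const.sub hu)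
    (a := 0) (b := ta1) (C := 21 * w) (Ebar := 1 / 10 ^ 7) (lam := 1 / 1000)
    le_rfl ht1.le (by linarith) (by positivity) (by norm_num)
    (fun r hr hrd => by
      have h5 : (γ r).re < (γ tb1).im := ht4 r hr.1.le hr.2
      exact low_speed_right hN hw0 hrd hr.1 (by linarith [hr.2]) (by linarith) hpy hpx hvp1 hxp10 hpw
        (by linarith [hfb1.2.2.2.2.2.1]) hr2x (by linarith [hfr2.2.1]) hfr2.2.2.2.2.1
        hfr2.2.2.2.2.2.1) hEr2
  -- the last lower crossing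
  have hym : w / 5 ≤ (γ tm).im := by linarith
  have hxm : 10 * w ≤ -(γ tm).re := by
    rw [hmx]
    have := mul_le_mul_of_nonneg_right hvm2 hmy.le
    linarith
  have h2pi0 : γ (2 * π) = 0 := by
    have := hconv.per 0
    rw [zero_add, hN.zero] at this; exact this
  obtain ⟨ta2, ht5, ht6, ht7, ht8⟩ := last_crossing hcx (a := tm) (b := 2 * π) (c := -(γ tb2).im)
    hm2.le (by show (γ tm).re ≤ _; linarith [hfb2.2.2.2.2.2.1]) (by simp [h2pi0]; exact hb2y)
  have hE2 := err_bound hconv hdr1 (c := fun r => 1 - u r) (continuous_const.sub hu)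
    (a := ta2) (b := 2 * π) (C := 21 * w) (Ebar := 1 / 10 ^ 7) (lam := 1 / 1000)
    (by linarith) ht6.le le_rfl (by positivity) (by norm_num)
    (fun r hr hrd => by
      have h5 : -(γ tb2).im < (γ r).re := ht8 r hr.1 hr.2.le
      exact low_speed_left hN hw0 hrd (by linarith) (by linarith [hr.1]) hr.2 hmy hmx hvm2 hxm hym
        (by linarith [hfb2.2.2.2.2.2.1]) hr1x (by linarith [hfr1.2.2.1]) hfr1.2.2.2.2.1
        hfr1.2.2.2.2.2.1) hEr1
  -- heights of the crossing points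
  have hY1 : (γ ta1).im ≤ 2 * (γ tb1).im := by
    have hc := hN.cross0 ht1 ht2 (by linarith)
    rw [hpx] at hc
    have hy0 := hN.y_nonneg ta1
    have ht3' : (γ ta1).re = (γ tb1).im := ht3
    have h1 : 0 ≤ (γ tp).im * ((γ ta1).re - vp * (γ ta1).im) := by nlinarith
    have h2 := sub_nonneg.mp (nonneg_of_mul_nonneg_right h1 hpy)
    have h3 := mul_le_mul_of_nonneg_right hvp1 hy0
    have h4 : (γ tb1).im > 0 := hb1y
    linarith
  have hY2 : (γ ta2).im ≤ 2 * (γ tb2).im := by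
    have hc := hN.cross0 (by linarith : 0 < tm) ht5 ht6
    rw [hmx] at hc
    have hy0 := hN.y_nonneg ta2
    have ht7' : (γ ta2).re = -(γ tb2).im := ht7
    have h1 : 0 ≤ (γ tm).im * (vm * (γ ta2).im - (γ ta2).re) := by nlinarith
    have h2 := sub_nonneg.mp (nonneg_of_mul_nonneg_right h1 hmy)
    have h3 := mul_le_mul_of_nonneg_right hvm2 hy0
    have h4 : (γ tb2).im > 0 := hb2y
    linarith
  have hfin := chord_contra hN hu (ta1 := ta1) (tb1 := tb1) (tb2 := tb2) (ta2 := ta2)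
    (X1 := (γ tb1).im) (X2 := (γ tb2).im) hchord ht1 (by linarith) hb12.le (by linarith) ht6
    hE1 hE2 hE3 ht3 hb1x rfl ht7 hb2x rfl (hN.y_nonneg _) (hN.y_nonneg _) hY1 hY2
  have h1 := hfb1.2.2.2.2.1
  have h2 := hfb2.2.2.2.2.1
  norm_num at hfin
  linarith

end X

end Vale.Agent.Lib.P123H99
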