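import Mathlib
import Vale.Agent.Lib.P123H99.LemmaX

/-! Reflection of curves and the full geometric main lemma. -/

namespace Vale.Agent.Lib.P123H99

open MeasureTheory Set Filter Topology Complex
open scoped Real ComplexConjugate

set_option linter.unusedSectionVars false
set_option linter.unusedSimpArgs false
set_option linter.unusedVariables false
set_option linter.deprecated false

variable {γ : ℝ → ℂ}

/-- Reflection of a curve. -/
noncomputable def hatc (γ : ℝ → ℂ) (t : ℝ) : ℂ := -conj (γ (2 * π - t))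

lemma hatc_hatc (γ : ℝ → ℂ) : hatc (hatc γ) = γ := by
  funext t; simp [hatc]

lemma hatc_hasDerivAt {t : ℝ} (h : DifferentiableAt ℝ γ (2 * π - t)) :
    HasDerivAt (hatc γ) (conj (deriv γ (2 * π - t))) t := by
  have h1 := HasDerivAt.comp_const_sub (f := γ) (2 * π) t h.hasDerivAt
  have h2 : HasDerivAt (fun x => conj (γ (2 * π - x))) (conj (-deriv γ (2 * π - t))) t :=
    h1.star
  have h3 := h2.neg
  have e : -conj (-deriv γ (2 * π - t)) = conj (deriv γ (2 * π - t)) := by simp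
  rw [e] at h3
  exact h3

lemma hatc_diff {t : ℝ} (h : DifferentiableAt ℝ γ (2 * π - t)) :
    DifferentiableAt ℝ (hatc γ) t := (hatc_hasDerivAt h).differentiableAt

lemma hatc_diff' {t : ℝ} (h : DifferentiableAt ℝ (hatc γ) t) :
    DifferentiableAt ℝ γ (2 * π - t) := by
  have h2 : DifferentiableAt ℝ (hatc γ) (2 * π - (2 * π - t)) := by simpa using h
  have := hatc_diff (γ := hatc γ) (t := 2 * π - t) h2
  rwa [hatc_hatc] at this

lemma hatc_deriv (γ : ℝ → ℂ) (t : ℝ) : deriv (hatc γ) t = conj (deriv γ (2 * π - t)) := by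
  by_cases h : DifferentiableAt ℝ γ (2 * π - t)
  · exact (hatc_hasDerivAt h).deriv
  · have h2 : ¬ DifferentiableAt ℝ (hatc γ) t := fun h3 => h (hatc_diff' h3)
    rw [deriv_zero_of_not_differentiableAt h, deriv_zero_of_not_differentiableAt h2, map_zero]

lemma hatc_tang (γ : ℝ → ℂ) (t : ℝ) (p : ℂ) :
    tang (hatc γ) t (-conj p) = tang γ (2 * π - t) p := by
  unfold tang
  rw [hatc_deriv]
  simp only [hatc, Complex.conj_conj]
  simp only [Complex.mul_im, Complex.conj_re, Complex.conj_im, Complex.sub_re, Complex.sub_im,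
    Complex.neg_re, Complex.neg_im]
  ring

lemma hatc_normSq (γ : ℝ → ℂ) (t : ℝ) (p : ℂ) :
    normSq (hatc γ t - (-conj p)) = normSq (γ (2 * π - t) - p) := by
  simp only [hatc, normSq_coord, Complex.neg_re, Complex.neg_im, Complex.conj_re, Complex.conj_im]
  ring

lemma hatc_dens (γ : ℝ → ℂ) (t : ℝ) (p : ℂ) :
    dens (hatc γ) (-conj p) t = dens γ p (2 * π - t) := by
  rw [dens_eq, dens_eq, hatc_tang, hatc_normSq]

lemma hatc_conv (hγ : ConvCurve γ) : ConvCurve (hatc γ) := by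
  constructor
  · obtain ⟨L, hL⟩ := hγ.lip
    refine ⟨L, LipschitzWith.of_dist_le_mul ?_⟩
    intro s t
    have h1 := hL.dist_le_mul (2 * π - s) (2 * π - t)
    have e1 : dist (hatc γ s) (hatc γ t) = dist (γ (2 * π - s)) (γ (2 * π - t)) := by
      unfold hatc
      rw [dist_neg_neg, Complex.dist_eq, Complex.dist_eq, ← map_sub, Complex.norm_conj]
    have e2 : dist (2 * π - s) (2 * π - t) = dist s t := by
      rw [Real.dist_eq, Real.dist_eq, abs_sub_comm]; congr 1; ring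
    rw [e1]; rw [e2] at h1; exact h1
  · intro t
    unfold hatc
    have h := hγ.per (-t)
    have e1 : 2 * π - (t + 2 * π) = -t := by ring
    have e2 : 2 * π - t = -t + 2 * π := by ring
    rw [e1, e2, h]
  · intro s t hst hts h
    have hh : conj (γ (2 * π - s)) = conj (γ (2 * π - t)) := by
      unfold hatc at h; exact neg_injective h
    have h2 : γ (2 * π - s) = γ (2 * π - t) := (starRingEnd ℂ).injective hh
    exact hγ.simple (2 * π - t) (2 * π - s) (by linarith) (by linarith) h2.symm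
  · intro t hd
    rw [hatc_deriv]
    have := hγ.deriv_ne _ (hatc_diff' hd)
    simpa using this
  · intro t hd s
    have h1 := hγ.support (2 * π - t) (hatc_diff' hd) (2 * π - s)
    rw [← hatc_tang] at h1
    have e : -conj (γ (2 * π - s)) = hatc γ s := rfl
    rwa [e] at h1

lemma hatc_norm (hN : NormCurve γ) : NormCurve (hatc γ) := by
  have hconv := hN.conv
  have h2pi : γ (2 * π) = 0 := by
    have := hconv.per 0
    rw [zero_add, hN.zero] at this; exact this
  have hd2 : DifferentiableAt ℝ γ (2 * π - 0) := by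
    have := hconv.diff_shift hN.diff0
    simpa using this
  have hder : deriv (hatc γ) 0 = conj (deriv γ 0) := by
    rw [hatc_deriv, sub_zero]
    have := hconv.deriv_shift 0
    rw [zero_add] at this
    rw [this]
  refine ⟨hatc_conv hconv, ?_, hatc_diff hd2, ?_, ?_⟩
  · simp [hatc, h2pi]
  · rw [hder]; simpa using hN.re_pos
  · rw [hder]; simp [hN.im_zero]

/-- Reflection of the weight. -/
noncomputable def hatu (u : ℝ → ℂ) (t : ℝ) : ℂ := conj (u (2 * π - t))

lemma hatu_cont {u : ℝ → ℂ} (hu : Continuous u) : Continuous (hatu u) := by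
  unfold hatu
  exact Complex.continuous_conj.comp (hu.comp (continuous_const.sub continuous_id))

lemma norm_one_sub_conj (z : ℂ) : ‖1 - conj z‖ = ‖1 - z‖ := by
  have : (1 : ℂ) - conj z = conj (1 - z) := by simp
  rw [this, Complex.norm_conj]

lemma norm_one_add_conj (z : ℂ) : ‖1 + conj z‖ = ‖1 + z‖ := by
  have : (1 : ℂ) + conj z = conj (1 + z) := by simp
  rw [this, Complex.norm_conj]

lemma hatc_at (γ : ℝ → ℂ) (a : ℝ) : hatc γ (2 * π - a) = -conj (γ a) := by
  unfold hatc; congr 3; ring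

lemma hatc_Ee (γ : ℝ → ℂ) (u : ℝ → ℂ) (a : ℝ) : Ee (hatc γ) (hatu u) (2 * π - a) = Ee γ u a := by
  unfold Ee
  rw [hatc_at]
  have h1 : ∀ r, ‖1 - hatu u r‖ ^ 2 * dens (hatc γ) (-conj (γ a)) r
      = (fun s => ‖1 - u s‖ ^ 2 * dens γ (γ a) s) (2 * π - r) := by
    intro r
    simp only [hatu]
    rw [norm_one_sub_conj, hatc_dens]
  simp_rw [h1]
  have h2 := intervalIntegral.integral_comp_sub_left (a := 0) (b := 2 * π)
    (fun s => ‖1 - u s‖ ^ 2 * dens γ (γ a) s) (2 * π)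
  rw [h2]
  simp

lemma hatc_chord {u : ℝ → ℂ}
    (hchord : ∀ s t, 0 ≤ s → s ≤ t → t ≤ 2 * π → ‖∫ r in s..t, u r * deriv γ r‖ ≤ ‖γ t - γ s‖) :
    ∀ s t, 0 ≤ s → s ≤ t → t ≤ 2 * π →
      ‖∫ r in s..t, hatu u r * deriv (hatc γ) r‖ ≤ ‖hatc γ t - hatc γ s‖ := by
  intro s t hs hst ht
  have h1 : ∀ r, hatu u r * deriv (hatc γ) r
      = conj ((fun x => u x * deriv γ x) (2 * π - r)) := by
    intro r
    rw [hatc_deriv]; simp [hatu]
  simp_rw [h1]
  have h2 : ∫ r in s..t, conj ((fun x => u x * deriv γ x) (2 * π - r))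
      = conj (∫ r in s..t, (fun x => u x * deriv γ x) (2 * π - r)) := by
    simp only [intervalIntegral]
    rw [integral_conj, integral_conj, map_sub]
  have h4 := intervalIntegral.integral_comp_sub_left (a := s) (b := t)
    (fun x => u x * deriv γ x) (2 * π)
  rw [h2, Complex.norm_conj, h4]
  have h3 := hchord (2 * π - t) (2 * π - s) (by linarith) (by linarith) (by linarith)
  refine h3.trans (le_of_eq ?_)
  have e : hatc γ t - hatc γ s = conj (γ (2 * π - s) - γ (2 * π - t)) := by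
    simp only [hatc, map_sub]; ring
  rw [e, Complex.norm_conj]

/-- The full geometric lemma. -/
theorem main_geom (hN : NormCurve γ) {u : ℝ → ℂ} (hu : Continuous u)
    (hchord : ∀ s t, 0 ≤ s → s ≤ t → t ≤ 2 * π → ‖∫ r in s..t, u r * deriv γ r‖ ≤ ‖γ t - γ s‖)
    (hD : ∫ t in (0 : ℝ)..(2 * π), ‖1 + u t‖ ^ 2 * dens γ (γ 0) t ≤ 1 / 10 ^ 9)
    {B : ℝ → ℝ} (hB : Continuous B) (hB0 : ∀ t, 0 ≤ B t)
    (hE : ∀ t, DifferentiableAt ℝ γ t → Ee γ u t ≤ B t)
    (hb : ∫ t in (0 : ℝ)..(2 * π), B t * dens γ (γ 0) t ≤ 1 / 10 ^ 8) : False := by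
  have hconv := hN.conv
  have hpi := Real.pi_pos
  have hpi3 := Real.pi_gt_three
  have hpi4 : π < 3.15 := Real.pi_lt_d2
  obtain ⟨t1, a1, a2, a3, a4, a5⟩ := hN.exists_dir 100
  obtain ⟨t2, b1, b2, b3, b4, b5⟩ := hN.exists_dir 50
  obtain ⟨tb1, c1, c2, c3, c4, c5⟩ := hN.exists_dir 1
  obtain ⟨t0, d1, d2, d3, d4, d5⟩ := hN.exists_dir 0
  obtain ⟨tb2, e1, e2, e3, e4, e5⟩ := hN.exists_dir (-1)
  obtain ⟨t3, f1, f2, f3, f4, f5⟩ := hN.exists_dir (-50)
  obtain ⟨t4, g1, g2, g3, g4, g5⟩ := hN.exists_dir (-100)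
  have o1 : t1 < t2 := hN.dir_lt a1 a2 b1 b2 a3 a4 b3 b4 (by norm_num)
  have o2 : t2 < tb1 := hN.dir_lt b1 b2 c1 c2 b3 b4 c3 c4 (by norm_num)
  have o3 : tb1 < t0 := hN.dir_lt c1 c2 d1 d2 c3 c4 d3 d4 (by norm_num)
  have o4 : t0 < tb2 := hN.dir_lt d1 d2 e1 e2 d3 d4 e3 e4 (by norm_num)
  have o5 : tb2 < t3 := hN.dir_lt e1 e2 f1 f2 e3 e4 f3 f4 (by norm_num)
  have o6 : t3 < t4 := hN.dir_lt f1 f2 g1 g2 f3 f4 g3 g4 (by norm_num)
  have hb8 : (0 : ℝ) < 1 / 10 ^ 8 := by norm_num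
  -- window masses
  have hW : (3 : ℝ) / 2000 ≤ (Real.arctan 100 - Real.arctan 50) / π := by
    have h1 := arctan_diff_ge (a := 100) (b := 50) (by norm_num) (by norm_num)
    rw [le_div_iff₀ hpi]
    norm_num at h1 ⊢
    nlinarith
  have hm1 : (3 : ℝ) / 2000 ≤ ∫ t in t1..t2, dens γ (γ 0) t := by
    rw [hN.window_mass a1 o1.le b2 a5 b5]; exact hW
  have hm2 : (3 : ℝ) / 2000 ≤ ∫ t in t3..t4, dens γ (γ 0) t := by
    rw [hN.window_mass f1 o6.le g2 f5 g5, Real.arctan_neg, Real.arctan_neg]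
    convert hW using 2; ring
  have hm3 : (1 : ℝ) / 4 ≤ ∫ t in tb1..t0, dens γ (γ 0) t := by
    rw [hN.window_mass c1 o3.le d2 c5 d5, Real.arctan_one, Real.arctan_zero]
    apply le_of_eq; field_simp; ring
  have hm4 : (1 : ℝ) / 4 ≤ ∫ t in t0..tb2, dens γ (γ 0) t := by
    rw [hN.window_mass d1 o4.le e2 d5 e5, Real.arctan_neg, Real.arctan_one, Real.arctan_zero]
    apply le_of_eq; field_simp; ring
  -- good points
  obtain ⟨tp, p1, p2, p3⟩ := hN.exists_good hB hB0 hb8 hb a1 o1.le b2 (by norm_num) hm1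
  obtain ⟨tm, q1, q2, q3⟩ := hN.exists_good hB hB0 hb8 hb f1 o6.le g2 (by norm_num) hm2
  obtain ⟨r1, s1, s2, s3⟩ := hN.exists_good hB hB0 hb8 hb c1 o3.le d2 (by norm_num) hm3
  obtain ⟨r2, u1, u2, u3⟩ := hN.exists_good hB hB0 hb8 hb d1 o4.le e2 (by norm_num) hm4
  have hEp : Ee γ u tp ≤ 3 / (2 * 10 ^ 5) := (hE tp p2).trans (p3.trans (by norm_num))
  have hEm : Ee γ u tm ≤ 3 / (2 * 10 ^ 5) := (hE tm q2).trans (q3.trans (by norm_num))
  have hEr1 : Ee γ u r1 ≤ 1 / 10 ^ 7 := (hE r1 s2).trans (s3.trans (by norm_num))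
  have hEr2 : Ee γ u r2 ≤ 1 / 10 ^ 7 := (hE r2 u2).trans (u3.trans (by norm_num))
  -- directions of the good points
  have dp := hN.between a1 p1.1 p1.2 b2 a3 a4 b3 b4
  have dm := hN.between f1 q1.1 q1.2 g2 f3 f4 g3 g4
  have dr1 := hN.between c1 s1.1 s1.2 d2 c3 c4 d3 d4
  have dr2 := hN.between d1 u1.1 u1.2 e2 d3 d4 e3 e4
  have hr1mem : r1 ∈ Icc tb1 tb2 := ⟨s1.1, by linarith [s1.2]⟩
  have hr2mem : r2 ∈ Icc tb1 tb2 := ⟨by linarith [u1.1], u1.2⟩
  set vp := (γ tp).re / (γ tp).im with hvp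
  set vm := (γ tm).re / (γ tm).im with hvm
  have hpx : (γ tp).re = vp * (γ tp).im := by rw [hvp]; field_simp [dp.1.ne']
  have hmx : (γ tm).re = vm * (γ tm).im := by rw [hvm]; field_simp [dm.1.ne']
  have hvp1 : 50 ≤ vp := by rw [hvp, le_div_iff₀ dp.1]; exact dp.2.1
  have hvp2 : vp ≤ 100 := by rw [hvp, div_le_iff₀ dp.1]; exact dp.2.2
  have hvm1 : -100 ≤ vm := by rw [hvm, le_div_iff₀ dm.1]; exact dm.2.1
  have hvm2 : vm ≤ -50 := by rw [hvm, div_le_iff₀ dm.1]; exact dm.2.2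
  have hr1x : 0 ≤ (γ r1).re := by have := dr1.2.1; simpa using this
  have hr2x : (γ r2).re ≤ 0 := by have := dr2.2.2; simpa using this
  have hb1x : (γ tb1).re = (γ tb1).im := by rw [c4]; ring
  have hb2x : (γ tb2).re = -(γ tb2).im := by rw [e4]; ring
  have h0p : 0 < tp := by linarith [p1.1]
  have hpb : tp < tb1 := by linarith [p1.2]
  have hb12 : tb1 < tb2 := by linarith
  have hbm : tb2 < tm := by linarith [q1.1]
  have hm2' : tm < 2 * π := by linarith [q1.2]
  by_cases hyy : (γ tp).im ≤ (γ tm).im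
  · exact lemmaX hN hu hchord hD h0p hpb hb12 hbm hm2' hr1mem hr2mem c3 hb1x e3 hb2x dp.1 hpx hvp1
      hvp2 dm.1 hmx hvm1 hvm2 hr1x hr2x p2 s2 u2 hEp hEr1 hEr2 hyy
  · -- the reflected configuration
    have hN' := hatc_norm hN
    have hyy' : (γ tm).im ≤ (γ tp).im := (not_le.mp hyy).le
    have hre : ∀ a, (hatc γ (2 * π - a)).re = -(γ a).re := by
      intro a; rw [hatc_at]; simp
    have him : ∀ a, (hatc γ (2 * π - a)).im = (γ a).im := by
      intro a; rw [hatc_at]; simp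
    have hD' : ∫ t in (0 : ℝ)..(2 * π), ‖1 + hatu u t‖ ^ 2 * dens (hatc γ) (hatc γ 0) t
        ≤ 1 / 10 ^ 9 := by
      have h2pi : γ (2 * π) = γ 0 := by
        have := hconv.per 0
        rwa [zero_add] at this
      have h1 : ∀ r, ‖1 + hatu u r‖ ^ 2 * dens (hatc γ) (hatc γ 0) r
          = (fun s => ‖1 + u s‖ ^ 2 * dens γ (γ 0) s) (2 * π - r) := by
        intro r
        have e : hatc γ 0 = -conj (γ 0) := by
          unfold hatc; rw [sub_zero, h2pi]
        simp only [hatu]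
        rw [norm_one_add_conj, e, hatc_dens]
      simp_rw [h1]
      have h3 := intervalIntegral.integral_comp_sub_left (a := 0) (b := 2 * π)
        (fun s => ‖1 + u s‖ ^ 2 * dens γ (γ 0) s) (2 * π)
      rw [h3]
      simpa using hD
    have hdiff : ∀ {a}, DifferentiableAt ℝ γ a → DifferentiableAt ℝ (hatc γ) (2 * π - a) := by
      intro a ha
      apply hatc_diff
      simpa using ha
    refine lemmaX hN' (hatu_cont hu) (hatc_chord hchord) hD' (tp := 2 * π - tm) (tm := 2 * π - tp)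
      (tb1 := 2 * π - tb2) (tb2 := 2 * π - tb1) (r1 := 2 * π - r2) (r2 := 2 * π - r1)
      (vp := -vm) (vm := -vp) (by linarith) (by linarith) (by linarith) (by linarith) (by linarith)
      ⟨by linarith [hr2mem.2], by linarith [hr2mem.1]⟩ ⟨by linarith [hr1mem.2], by linarith [hr1mem.1]⟩
      ?_ ?_ ?_ ?_ ?_ ?_ (by linarith) (by linarith) ?_ ?_ (by linarith) (by linarith) ?_ ?_
      (hdiff q2) (hdiff u2) (hdiff s2) ?_ ?_ ?_ ?_
    · rw [him]; exact e3
    · rw [hre, him, hb2x]; ring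
    · rw [him]; exact c3
    · rw [hre, him, hb1x]
    · rw [him]; exact dm.1
    · rw [hre, him, hmx]; ring
    · rw [him]; exact dp.1
    · rw [hre, him, hpx]; ring
    · rw [hre]; linarith
    · rw [hre]; linarith
    · rw [hatc_Ee]; exact hEm
    · rw [hatc_Ee]; exact hEr2
    · rw [hatc_Ee]; exact hEr1
    · rw [him, him]; exact hyy'

end Vale.Agent.Lib.P123H99
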