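import Mathlib
import Vale.Agent.Lib.P123H99.MainLemma
import Vale.Agent.Lib.P123H99.Alpha

/-! Application of the geometric lemma to functions of the class. -/

namespace Vale.Agent.Lib.P123H99

open MeasureTheory Set Filter Topology Complex Metric
open scoped Real ComplexConjugate

set_option linter.unusedSectionVars false
set_option linter.unusedSimpArgs false
set_option linter.unusedVariables false
set_option linter.deprecated false

variable {γ : ℝ → ℂ}

/-- The curve normalised at a parameter. -/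
noncomputable def normc (γ : ℝ → ℂ) (t₀ t : ℝ) : ℂ := conj (deriv γ t₀) * (γ (t + t₀) - γ t₀)

lemma normc_hasDeriv (t₀ : ℝ) {t : ℝ} (h : DifferentiableAt ℝ γ (t + t₀)) :
    HasDerivAt (normc γ t₀) (conj (deriv γ t₀) * deriv γ (t + t₀)) t := by
  have h1 : HasDerivAt (fun x => γ (x + t₀)) (deriv γ (t + t₀)) t :=
    HasDerivAt.comp_add_const t t₀ h.hasDerivAt
  exact (h1.sub_const (γ t₀)).const_mul _

lemma normc_diff_inv {t₀ t : ℝ} (hne : deriv γ t₀ ≠ 0) (h : DifferentiableAt ℝ (normc γ t₀) t) :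
    DifferentiableAt ℝ γ (t + t₀) := by
  have hg : conj (deriv γ t₀) ≠ 0 := by simpa using hne
  have h2 : DifferentiableAt ℝ (normc γ t₀) ((t + t₀) - t₀) := by simpa using h
  have h3 : DifferentiableAt ℝ (fun r => normc γ t₀ (r - t₀)) (t + t₀) :=
    differentiableAt_comp_sub_const.mpr h2
  have h4 : DifferentiableAt ℝ (fun r => γ t₀ + (conj (deriv γ t₀))⁻¹ * normc γ t₀ (r - t₀)) (t + t₀) :=
    (h3.const_mul _).const_add _
  refine h4.congr_of_eventuallyEq (Eventually.of_forall fun r => ?_)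
  simp only [normc, sub_add_cancel]
  field_simp
  ring

lemma normc_deriv {t₀ : ℝ} (hne : deriv γ t₀ ≠ 0) (t : ℝ) :
    deriv (normc γ t₀) t = conj (deriv γ t₀) * deriv γ (t + t₀) := by
  by_cases h : DifferentiableAt ℝ γ (t + t₀)
  · exact (normc_hasDeriv t₀ h).deriv
  · have h2 : ¬ DifferentiableAt ℝ (normc γ t₀) t := fun h3 => h (normc_diff_inv hne h3)
    rw [deriv_zero_of_not_differentiableAt h, deriv_zero_of_not_differentiableAt h2, mul_zero]

lemma normc_tang {t₀ : ℝ} (hne : deriv γ t₀ ≠ 0) (t s : ℝ) :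
    tang (normc γ t₀) t (normc γ t₀ s) = normSq (deriv γ t₀) * tang γ (t + t₀) (γ (s + t₀)) := by
  unfold tang
  rw [normc_deriv hne]
  unfold normc
  have e : conj (conj (deriv γ t₀) * deriv γ (t + t₀)) *
      (conj (deriv γ t₀) * (γ (s + t₀) - γ t₀) - conj (deriv γ t₀) * (γ (t + t₀) - γ t₀))
      = ((normSq (deriv γ t₀) : ℝ) : ℂ) * (conj (deriv γ (t + t₀)) * (γ (s + t₀) - γ (t + t₀))) := by
    rw [map_mul, Complex.conj_conj, ← Complex.mul_conj]
    ring
  rw [e, Complex.im_ofReal_mul]

lemma normc_dens {t₀ : ℝ} (hne : deriv γ t₀ ≠ 0) (t s : ℝ) :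
    dens (normc γ t₀) (normc γ t₀ s) t = dens γ (γ (s + t₀)) (t + t₀) := by
  unfold dens
  rw [normc_deriv hne]
  unfold normc
  have hg : conj (deriv γ t₀) ≠ 0 := by simpa using hne
  have e : conj (deriv γ t₀) * (γ (t + t₀) - γ t₀) - conj (deriv γ t₀) * (γ (s + t₀) - γ t₀)
      = conj (deriv γ t₀) * (γ (t + t₀) - γ (s + t₀)) := by ring
  rw [e, mul_div_mul_left _ _ hg]

/-- The normalised curve. -/
theorem normc_norm (hγ : ConvCurve γ) {t₀ : ℝ} (hd : DifferentiableAt ℝ γ t₀) :
    NormCurve (normc γ t₀) := by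
  have hne := hγ.deriv_ne t₀ hd
  have hg : conj (deriv γ t₀) ≠ 0 := by simpa using hne
  have hconv : ConvCurve (normc γ t₀) := by
    constructor
    · obtain ⟨L, hL⟩ := hγ.lip
      refine ⟨‖deriv γ t₀‖₊ * L, LipschitzWith.of_dist_le_mul ?_⟩
      intro s t
      have e : normc γ t₀ s - normc γ t₀ t = conj (deriv γ t₀) * (γ (s + t₀) - γ (t + t₀)) := by
        unfold normc; ring
      rw [dist_eq_norm, e, norm_mul, Complex.norm_conj]
      have h1 := hL.dist_le_mul (s + t₀) (t + t₀)
      rw [dist_eq_norm] at h1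
      have e2 : dist (s + t₀) (t + t₀) = dist s t := by simp
      rw [e2] at h1
      push_cast
      rw [mul_assoc]
      exact mul_le_mul_of_nonneg_left h1 (norm_nonneg _)
    · intro t
      unfold normc
      have : t + 2 * π + t₀ = (t + t₀) + 2 * π := by ring
      rw [this, hγ.per]
    · intro s t hst hts h
      unfold normc at h
      have h2 := mul_left_cancel₀ hg h
      have h3 : γ (s + t₀) = γ (t + t₀) := by linear_combination h2
      exact hγ.simple _ _ (by linarith) (by linarith) h3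
    · intro t hdt
      rw [normc_deriv hne]
      exact mul_ne_zero hg (hγ.deriv_ne _ (normc_diff_inv hne hdt))
    · intro t hdt s
      rw [normc_tang hne]
      exact mul_nonneg (normSq_nonneg _) (hγ.support _ (normc_diff_inv hne hdt) _)
  have hd0 : DifferentiableAt ℝ γ (0 + t₀) := by simpa using hd
  have hder : deriv (normc γ t₀) 0 = conj (deriv γ t₀) * deriv γ t₀ := by
    rw [normc_deriv hne, zero_add]
  have hval : conj (deriv γ t₀) * deriv γ t₀ = ((normSq (deriv γ t₀) : ℝ) : ℂ) := by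
    rw [mul_comm, Complex.mul_conj]
  refine ⟨hconv, ?_, (normc_hasDeriv t₀ hd0).differentiableAt, ?_, ?_⟩
  · simp [normc]
  · rw [hder, hval, Complex.ofReal_re]
    exact normSq_pos.mpr hne
  · rw [hder, hval, Complex.ofReal_im]

/-- Shift invariance of period integrals. -/
lemma period_shift {F : ℝ → ℝ} (hF : Function.Periodic F (2 * π)) (t₀ : ℝ) :
    ∫ t in (0 : ℝ)..(2 * π), F (t + t₀) = ∫ t in (0 : ℝ)..(2 * π), F t := by
  rw [intervalIntegral.integral_comp_add_right (fun x => F x) t₀]
  have h := hF.intervalIntegral_add_eq (0 + t₀) 0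
  simp only [zero_add] at h ⊢
  rw [add_comm (2 * π) t₀]
  exact h

namespace Dom

variable {Ω : Set ℂ} {c : ℂ} (hD : Dom Ω γ c)
include hD

/-- The geometric lemma for a function of the class, in its original coordinates. -/
theorem geom_applied {f : ℂ → ℂ} (hf : IsA Ω f) (hf1 : ∀ p ∈ closure Ω, ‖f p‖ ≤ 1) {a : ℂ}
    (ha : ‖a‖ = 1) {t₀ : ℝ} (hd : DifferentiableAt ℝ γ t₀)
    (hD1 : ∫ s in (0 : ℝ)..(2 * π), ‖1 + conj a * f (γ s)‖ ^ 2 * dens γ (γ t₀) s ≤ 1 / 10 ^ 9)
    {B : ℝ → ℝ} (hB : Continuous B) (hBper : Function.Periodic B (2 * π)) (hB0 : ∀ t, 0 ≤ B t)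
    (hE : ∀ t, DifferentiableAt ℝ γ t →
      ∫ r in (0 : ℝ)..(2 * π), ‖1 - conj a * f (γ r)‖ ^ 2 * dens γ (γ t) r ≤ B t)
    (hb : ∫ t in (0 : ℝ)..(2 * π), B t * dens γ (γ t₀) t ≤ 1 / 10 ^ 8) : False := by
  have hconv := hD.curve
  have hne := hconv.deriv_ne t₀ hd
  have hN := normc_norm hconv hd
  have hg : conj (deriv γ t₀) ≠ 0 := by simpa using hne
  set u : ℝ → ℂ := fun t => conj a * f (γ (t + t₀)) with hu
  have hcf := hD.comp_cont hf
  have hucont : Continuous u := by
    have h1 : Continuous fun t => f (γ (t + t₀)) := hcf.comp (continuous_id.add continuous_const)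
    exact continuous_const.mul h1
  have hd00 : normc γ t₀ 0 = 0 := by simp [normc]
  have hper : ∀ x, γ (x + 2 * π) = γ x := hconv.per
  -- periodicity of the integrands
  have hP1 : Function.Periodic (fun s => ‖1 + conj a * f (γ s)‖ ^ 2 * dens γ (γ t₀) s) (2 * π) := by
    intro s
    simp only
    rw [hper, hconv.dens_periodic (γ t₀) s]
  have hP2 : ∀ q : ℂ, Function.Periodic (fun s => ‖1 - conj a * f (γ s)‖ ^ 2 * dens γ q s) (2 * π) := by
    intro q s
    simp only
    rw [hper, hconv.dens_periodic q s]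
  have hP3 : Function.Periodic (fun s => B s * dens γ (γ t₀) s) (2 * π) := by
    intro s
    simp only
    rw [hBper, hconv.dens_periodic (γ t₀) s]
  refine main_geom hN (u := u) hucont ?_ ?_ (B := fun t => B (t + t₀)) (hB.comp (continuous_id.add continuous_const))
    (fun t => hB0 _) ?_ ?_
  · -- the chord bound
    intro s t _ hst _
    have e : ∀ r, u r * deriv (normc γ t₀) r
        = (conj a * conj (deriv γ t₀)) * (f (γ (r + t₀)) * deriv γ (r + t₀)) := by
      intro r
      rw [normc_deriv hne]; simp only [hu]; ring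
    simp_rw [e]
    rw [intervalIntegral.integral_const_mul,
      intervalIntegral.integral_comp_add_right (fun x => f (γ x) * deriv γ x) t₀, norm_mul, norm_mul,
      Complex.norm_conj, Complex.norm_conj, ha, one_mul]
    have h1 := hD.chord hf hf1 (a := s + t₀) (b := t + t₀) (by linarith)
    rw [one_mul] at h1
    have e2 : normc γ t₀ t - normc γ t₀ s = conj (deriv γ t₀) * (γ (t + t₀) - γ (s + t₀)) := by
      unfold normc; ring
    rw [e2, norm_mul, Complex.norm_conj]
    exact mul_le_mul_of_nonneg_left h1 (norm_nonneg _)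
  · -- the first bound
    have e : ∀ t, ‖1 + u t‖ ^ 2 * dens (normc γ t₀) (normc γ t₀ 0) t
        = (fun s => ‖1 + conj a * f (γ s)‖ ^ 2 * dens γ (γ t₀) s) (t + t₀) := by
      intro t
      simp only [hu]
      rw [normc_dens hne, zero_add]
    simp_rw [e]
    rw [period_shift hP1 t₀]
    exact hD1
  · -- the second bound
    intro t hdt
    have hdt' := normc_diff_inv hne hdt
    unfold Ee
    have e : ∀ r, ‖1 - u r‖ ^ 2 * dens (normc γ t₀) (normc γ t₀ t) r
        = (fun s => ‖1 - conj a * f (γ s)‖ ^ 2 * dens γ (γ (t + t₀)) s) (r + t₀) := by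
      intro r
      simp only [hu]
      rw [normc_dens hne]
    simp_rw [e]
    rw [period_shift (hP2 _) t₀]
    exact hE _ hdt'
  · have e : ∀ t, B (t + t₀) * dens (normc γ t₀) (normc γ t₀ 0) t
        = (fun s => B s * dens γ (γ t₀) s) (t + t₀) := by
      intro t
      simp only
      rw [normc_dens hne, zero_add]
    simp_rw [e]
    rw [period_shift hP3 t₀]
    exact hb

end Dom

end Vale.Agent.Lib.P123H99
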