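import Mathlib
import Vale.Agent.Lib.P123H99.Cauchy

/-! The boundary curve of a bounded open convex set in the plane. -/

namespace Vale.Agent.Lib.P123H99

open MeasureTheory Set Filter Topology Complex Metric
open scoped Real ComplexConjugate NNReal

set_option linter.unusedSectionVars false
set_option linter.unusedSimpArgs false
set_option linter.unusedVariables false
set_option linter.deprecated false

/-- The set centred at a point. -/
def cent (Ω : Set ℂ) (c : ℂ) : Set ℂ := {z | c + z ∈ Ω}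

/-- The points of the unit circle. -/
noncomputable def eu (t : ℝ) : ℂ := Complex.exp (t * I)

/-- The radial function. -/
noncomputable def rad (Ω : Set ℂ) (c : ℂ) (t : ℝ) : ℝ := (gauge (cent Ω c) (eu t))⁻¹

/-- The boundary curve. -/
noncomputable def bcurve (Ω : Set ℂ) (c : ℂ) (t : ℝ) : ℂ := c + (rad Ω c t : ℂ) * eu t

lemma norm_eu (t : ℝ) : ‖eu t‖ = 1 := by
  unfold eu; exact Complex.norm_exp_ofReal_mul_I t

lemma eu_ne (t : ℝ) : eu t ≠ 0 := by
  intro h
  have := norm_eu t
  rw [h, norm_zero] at this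
  exact zero_ne_one this

lemma eu_per (t : ℝ) : eu (t + 2 * π) = eu t := by
  unfold eu
  push_cast
  rw [add_mul, Complex.exp_add]
  have : Complex.exp (2 * π * I) = 1 := Complex.exp_two_pi_mul_I
  rw [this, mul_one]

lemma eu_hasDeriv (t : ℝ) : HasDerivAt eu (I * eu t) t := by
  have h1 : HasDerivAt (fun s : ℝ => (s : ℂ) * I) I t := by
    simpa using (Complex.ofRealCLM.hasDerivAt (x := t)).mul_const I
  have h2 := h1.cexp
  unfold eu
  convert h2 using 1
  ring

lemma eu_lip : LipschitzWith 1 eu := by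
  have hd : Differentiable ℝ eu := fun t => (eu_hasDeriv t).differentiableAt
  apply lipschitzWith_of_nnnorm_deriv_le hd
  intro t
  rw [(eu_hasDeriv t).deriv, nnnorm_mul, Complex.nnnorm_I, one_mul]
  have : ‖eu t‖₊ = 1 := by
    apply NNReal.eq
    simpa using norm_eu t
  rw [this]

lemma conj_eu_mul (s t : ℝ) : conj (eu t) * eu s = eu (s - t) := by
  unfold eu
  rw [← Complex.exp_conj, ← Complex.exp_add]
  congr 1
  rw [map_mul, Complex.conj_ofReal, Complex.conj_I]
  push_cast
  ring

lemma conj_eu_self (t : ℝ) : conj (eu t) * eu t = 1 := by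
  rw [conj_eu_mul, sub_self]
  simp [eu]

lemma im_eu (s : ℝ) : (eu s).im = Real.sin s := by
  unfold eu
  rw [Complex.exp_ofReal_mul_I_im]

namespace GaugeSetup

variable {Ω : Set ℂ} {c : ℂ}

/-- The hypotheses on the set. -/
structure Hyp (Ω : Set ℂ) (c : ℂ) : Prop where
  isOpen : IsOpen Ω
  convex : Convex ℝ Ω
  bdd : Bornology.IsBounded Ω
  mem : c ∈ Ω

variable (H : Hyp Ω c)
include H

lemma cent_isOpen : IsOpen (cent Ω c) :=
  H.isOpen.preimage (continuous_const.add continuous_id)

lemma cent_convex : Convex ℝ (cent Ω c) := by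
  intro x hx y hy a b ha hb hab
  have h := H.convex hx hy ha hb hab
  change c + (a • x + b • y) ∈ Ω
  convert h using 1
  have : c = (a + b) • c := by rw [hab, one_smul]
  calc c + (a • x + b • y) = (a + b) • c + (a • x + b • y) := by rw [← this]
    _ = a • (c + x) + b • (c + y) := by
      rw [add_smul, smul_add, smul_add]; abel

lemma cent_zero : (0 : ℂ) ∈ cent Ω c := by
  change c + 0 ∈ Ω
  rw [add_zero]; exact H.mem

lemma cent_nhds : cent Ω c ∈ 𝓝 (0 : ℂ) := (cent_isOpen H).mem_nhds (cent_zero H)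

lemma cent_bdd : Bornology.IsBounded (cent Ω c) := by
  obtain ⟨r, hr⟩ := H.bdd.subset_closedBall c
  refine (Metric.isBounded_closedBall (x := (0 : ℂ)) (r := r)).subset ?_
  intro z hz
  have := hr hz
  rw [Metric.mem_closedBall, dist_eq_norm] at this ⊢
  simpa using this

lemma cent_absorbent : Absorbent ℝ (cent Ω c) := absorbent_nhds_zero (cent_nhds H)

lemma cent_vonN : Bornology.IsVonNBounded ℝ (cent Ω c) :=
  NormedSpace.isVonNBounded_iff ℝ |>.mpr (cent_bdd H)

lemma gauge_pos_of_ne {z : ℂ} (hz : z ≠ 0) : 0 < gauge (cent Ω c) z :=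
  (gauge_pos (cent_absorbent H) (cent_vonN H)).mpr hz

lemma gauge_eu_pos (t : ℝ) : 0 < gauge (cent Ω c) (eu t) := gauge_pos_of_ne H (eu_ne t)

lemma gauge_lower : ∃ m : ℝ, 0 < m ∧ ∀ t, m ≤ gauge (cent Ω c) (eu t) := by
  obtain ⟨r, hr⟩ := (cent_bdd H).subset_closedBall (0 : ℂ)
  have hr0 : 0 < max r 1 := lt_max_of_lt_right one_pos
  have hsub : cent Ω c ⊆ closedBall 0 (max r 1) :=
    hr.trans (closedBall_subset_closedBall (le_max_left _ _))
  refine ⟨1 / max r 1, by positivity, fun t => ?_⟩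
  have := le_gauge_of_subset_closedBall (cent_absorbent H) hr0.le hsub (x := eu t)
  rwa [norm_eu] at this

lemma gauge_upper : ∃ M : ℝ, 0 < M ∧ ∀ t, gauge (cent Ω c) (eu t) ≤ M := by
  obtain ⟨r, hr, hball⟩ := Metric.mem_nhds_iff.mp (cent_nhds H)
  refine ⟨1 / r, by positivity, fun t => ?_⟩
  have := mul_gauge_le_norm (x := eu t) hball
  rw [norm_eu] at this
  rw [le_div_iff₀ hr]
  linarith

lemma rad_pos (t : ℝ) : 0 < rad Ω c t := inv_pos.mpr (gauge_eu_pos H t)

lemma rad_per (t : ℝ) : rad Ω c (t + 2 * π) = rad Ω c t := by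
  unfold rad; rw [eu_per]

lemma gauge_comp_lip : ∃ L : ℝ≥0, LipschitzWith L fun t => gauge (cent Ω c) (eu t) := by
  obtain ⟨C, hC⟩ := (cent_convex H).lipschitz_gauge (cent_nhds H)
  refine ⟨C * 1, hC.comp eu_lip⟩

lemma rad_lip : ∃ L : ℝ≥0, LipschitzWith L (rad Ω c) := by
  obtain ⟨L, hL⟩ := gauge_comp_lip H
  obtain ⟨m, hm, hlow⟩ := gauge_lower H
  refine ⟨L * Real.toNNReal (1 / m ^ 2), LipschitzWith.of_dist_le_mul fun s t => ?_⟩
  unfold rad
  rw [Real.dist_eq]
  have h1 := gauge_eu_pos H s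
  have h2 := gauge_eu_pos H t
  rw [inv_sub_inv h1.ne' h2.ne', abs_div, abs_of_pos (mul_pos h1 h2)]
  have h3 := hL.dist_le_mul s t
  rw [Real.dist_eq] at h3
  have h4 : m ^ 2 ≤ gauge (cent Ω c) (eu s) * gauge (cent Ω c) (eu t) := by
    have := hlow s
    have := hlow t
    nlinarith
  push_cast
  rw [Real.coe_toNNReal _ (by positivity)]
  have h5 : |gauge (cent Ω c) (eu t) - gauge (cent Ω c) (eu s)| ≤ L * dist s t := by
    rw [abs_sub_comm]; exact h3
  calc _ ≤ (L * dist s t) / (gauge (cent Ω c) (eu s) * gauge (cent Ω c) (eu t)) := by gcongr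
    _ ≤ (L * dist s t) / m ^ 2 := by gcongr
    _ = _ := by ring

lemma rad_upper : ∃ M : ℝ, 0 < M ∧ ∀ t, rad Ω c t ≤ M := by
  obtain ⟨m, hm, hlow⟩ := gauge_lower H
  refine ⟨m⁻¹, by positivity, fun t => ?_⟩
  exact inv_anti₀ hm (hlow t)

lemma rad_lower : ∃ m : ℝ, 0 < m ∧ ∀ t, m ≤ rad Ω c t := by
  obtain ⟨M, hM, hup⟩ := gauge_upper H
  refine ⟨M⁻¹, by positivity, fun t => ?_⟩
  exact inv_anti₀ (gauge_eu_pos H t) (hup t)

lemma bcurve_sub (t : ℝ) : bcurve Ω c t - c = (rad Ω c t : ℂ) * eu t := by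
  unfold bcurve; ring

lemma norm_bcurve_sub (t : ℝ) : ‖bcurve Ω c t - c‖ = rad Ω c t := by
  rw [bcurve_sub H, norm_mul, norm_eu, mul_one, Complex.norm_real,
    Real.norm_of_nonneg (rad_pos H t).le]

lemma bcurve_lip : ∃ L : ℝ≥0, LipschitzWith L (bcurve Ω c) := by
  obtain ⟨L, hL⟩ := rad_lip H
  obtain ⟨M, hM, hup⟩ := rad_upper H
  refine ⟨L + Real.toNNReal M, LipschitzWith.of_dist_le_mul fun s t => ?_⟩
  unfold bcurve
  rw [dist_eq_norm]
  have e : c + (rad Ω c s : ℂ) * eu s - (c + (rad Ω c t : ℂ) * eu t)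
      = ((rad Ω c s - rad Ω c t : ℝ) : ℂ) * eu s + (rad Ω c t : ℂ) * (eu s - eu t) := by
    push_cast; ring
  rw [e]
  refine (norm_add_le _ _).trans ?_
  rw [norm_mul, norm_mul, norm_eu, mul_one, Complex.norm_real, Complex.norm_real,
    Real.norm_of_nonneg (rad_pos H t).le]
  have h1 := hL.dist_le_mul s t
  rw [Real.dist_eq] at h1
  have h2 : ‖eu s - eu t‖ ≤ dist s t := by
    have := eu_lip.dist_le_mul s t
    rw [dist_eq_norm] at this
    simpa using this
  push_cast
  rw [Real.coe_toNNReal _ hM.le, add_mul]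
  have h3 : rad Ω c t * ‖eu s - eu t‖ ≤ M * dist s t :=
    mul_le_mul (hup t) h2 (norm_nonneg _) hM.le
  have h4 : ‖rad Ω c s - rad Ω c t‖ ≤ L * dist s t := by
    rw [Real.norm_eq_abs]; exact h1
  linarith

lemma bcurve_per : Function.Periodic (bcurve Ω c) (2 * π) := by
  intro t
  unfold bcurve
  rw [rad_per H, eu_per]

lemma bcurve_simple (s t : ℝ) (h1 : s < t) (h2 : t < s + 2 * π) : bcurve Ω c s ≠ bcurve Ω c t := by
  intro h
  have e1 := norm_bcurve_sub H s
  have e2 := norm_bcurve_sub H t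
  rw [h, e2] at e1
  have e3 : (rad Ω c s : ℂ) * eu s = (rad Ω c t : ℂ) * eu t := by
    have := congrArg (fun z => z - c) h
    simpa [bcurve_sub H] using this
  rw [← e1] at e3
  have hr : ((rad Ω c t : ℝ) : ℂ) ≠ 0 := by exact_mod_cast (rad_pos H t).ne'
  have e4 : eu s = eu t := mul_left_cancel₀ hr e3
  unfold eu at e4
  obtain ⟨n, hn⟩ := Complex.exp_eq_exp_iff_exists_int.mp e4
  have e5 : (s : ℂ) = (t : ℂ) + n * (2 * π) := by
    have hI : (I : ℂ) ≠ 0 := Complex.I_ne_zero
    apply mul_right_cancel₀ hI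
    rw [hn]; ring
  have e6 : s = t + n * (2 * π) := by exact_mod_cast e5
  have hpi := Real.pi_pos
  have h3 : (n : ℝ) * (2 * π) < 0 := by linarith
  have h4 : -(2 * π) < (n : ℝ) * (2 * π) := by linarith
  have h5 : (n : ℝ) < 0 := by
    by_contra hc
    push Not at hc
    have : 0 ≤ (n : ℝ) * (2 * π) := by positivity
    linarith
  have h6 : (-1 : ℝ) < n := by
    by_contra hc
    push Not at hc
    have : (n : ℝ) * (2 * π) ≤ (-1) * (2 * π) := mul_le_mul_of_nonneg_right hc (by positivity)
    linarith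
  have h7 : n < 0 := by exact_mod_cast h5
  have h8 : -1 < n := by exact_mod_cast h6
  omega

omit H in
/-- The derivative condition for a product with a factor vanishing at the point. -/
lemma hasDeriv_mul_vanish {a b : ℝ → ℝ} {t b' : ℝ} (ha : ContinuousAt a t) (hb : HasDerivAt b b' t)
    (hb0 : b t = 0) : HasDerivAt (fun s => a s * b s) (a t * b') t := by
  rw [hasDerivAt_iff_tendsto_slope] at hb ⊢
  have h1 : Tendsto (fun s => a s * slope b t s) (𝓝[≠] t) (𝓝 (a t * b')) :=
    (ha.tendsto.mono_left nhdsWithin_le_nhds).mul hb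
  refine h1.congr' ?_
  filter_upwards with s
  simp only [slope_def_field, hb0, mul_zero, sub_zero]
  ring

/-- The normal component of the derivative. -/
lemma im_deriv {t : ℝ} (hd : DifferentiableAt ℝ (bcurve Ω c) t) :
    (conj (eu t) * deriv (bcurve Ω c) t).im = rad Ω c t := by
  obtain ⟨L, hL⟩ := rad_lip H
  have h1 : HasDerivAt (fun s => (conj (eu t) * (bcurve Ω c s - c)).im)
      ((conj (eu t) * deriv (bcurve Ω c) t).im) t := by
    have h2 : HasDerivAt (fun s => conj (eu t) * (bcurve Ω c s - c))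
        (conj (eu t) * deriv (bcurve Ω c) t) t :=
      (hd.hasDerivAt.sub_const c).const_mul _
    exact Complex.imCLM.hasFDerivAt.comp_hasDerivAt t h2
  have e : (fun s => (conj (eu t) * (bcurve Ω c s - c)).im)
      = fun s => rad Ω c s * Real.sin (s - t) := by
    funext s
    rw [bcurve_sub H]
    have : conj (eu t) * ((rad Ω c s : ℂ) * eu s) = (rad Ω c s : ℂ) * eu (s - t) := by
      rw [← conj_eu_mul]; ring
    rw [this, Complex.im_ofReal_mul, im_eu]
  rw [e] at h1
  have h3 : HasDerivAt (fun s => Real.sin (s - t)) 1 t := by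
    have := (Real.hasDerivAt_sin (t - t)).comp_sub_const t t
    simpa using this
  have h4 := hasDeriv_mul_vanish hL.continuous.continuousAt h3 (by simp)
  have := h1.unique h4
  rw [this, mul_one]

lemma bcurve_deriv_ne {t : ℝ} (hd : DifferentiableAt ℝ (bcurve Ω c) t) :
    deriv (bcurve Ω c) t ≠ 0 := by
  intro h
  have := im_deriv H hd
  rw [h, mul_zero, Complex.zero_im] at this
  exact (rad_pos H t).ne this

/-- Membership in the frontier through the gauge. -/
lemma mem_frontier_iff {p : ℂ} : p ∈ frontier Ω ↔ gauge (cent Ω c) (p - c) = 1 := by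
  rw [gauge_eq_one_iff_mem_frontier (cent_convex H) (cent_nhds H)]
  have hh : cent Ω c = (Homeomorph.addLeft c) ⁻¹' Ω := rfl
  rw [hh, ← Homeomorph.preimage_frontier]
  simp

lemma bcurve_mem_fr (t : ℝ) : bcurve Ω c t ∈ frontier Ω := by
  rw [mem_frontier_iff H, bcurve_sub H]
  have h1 : ((rad Ω c t : ℂ) * eu t) = (rad Ω c t) • eu t := by
    rw [Complex.real_smul]
  rw [h1, gauge_smul_of_nonneg (rad_pos H t).le, smul_eq_mul]
  unfold rad
  exact inv_mul_cancel₀ (gauge_eu_pos H t).ne'

lemma bcurve_surj {p : ℂ} (hp : p ∈ frontier Ω) : ∃ t, bcurve Ω c t = p := by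
  have hg := (mem_frontier_iff H).mp hp
  have hne : p - c ≠ 0 := by
    intro h
    rw [h, gauge_zero] at hg
    exact zero_ne_one hg
  set r := ‖p - c‖ with hr
  have hr0 : 0 < r := norm_pos_iff.mpr hne
  refine ⟨Complex.arg (p - c), ?_⟩
  have e1 : p - c = (r : ℂ) * eu (Complex.arg (p - c)) := by
    unfold eu
    exact (Complex.norm_mul_exp_arg_mul_I (p - c)).symm
  have e2 : gauge (cent Ω c) (p - c) = r * gauge (cent Ω c) (eu (Complex.arg (p - c))) := by
    conv_lhs => rw [e1]
    have h1 : ((r : ℂ) * eu (Complex.arg (p - c))) = r • eu (Complex.arg (p - c)) := by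
      rw [Complex.real_smul]
    rw [h1, gauge_smul_of_nonneg hr0.le, smul_eq_mul]
  have e3 : rad Ω c (Complex.arg (p - c)) = r := by
    unfold rad
    rw [hg] at e2
    have h2 := gauge_eu_pos H (Complex.arg (p - c))
    field_simp
    linarith
  unfold bcurve
  rw [e3, ← e1]
  ring

/-- The centre is on the inner side of all tangents. -/
lemma tang_centre_pos {t : ℝ} (hd : DifferentiableAt ℝ (bcurve Ω c) t) :
    0 < tang (bcurve Ω c) t c := by
  have h := im_deriv H hd
  unfold tang
  have e : conj (deriv (bcurve Ω c) t) * (c - bcurve Ω c t)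
      = -((rad Ω c t : ℂ) * conj (conj (eu t) * deriv (bcurve Ω c) t)) := by
    have : c - bcurve Ω c t = -(bcurve Ω c t - c) := by ring
    rw [this, bcurve_sub H, map_mul, Complex.conj_conj]
    ring
  rw [e, Complex.neg_im, Complex.im_ofReal_mul, Complex.conj_im, h]
  have := rad_pos H t
  nlinarith

lemma bcurve_mem_closure (t : ℝ) : bcurve Ω c t ∈ closure Ω :=
  frontier_subset_closure (bcurve_mem_fr H t)

/-- The support property of the tangents. -/
theorem bcurve_support {t : ℝ} (hd : DifferentiableAt ℝ (bcurve Ω c) t) {p : ℂ}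
    (hp : p ∈ closure Ω) : 0 ≤ tang (bcurve Ω c) t p := by
  by_contra hneg
  push Not at hneg
  set γ := bcurve Ω c with hγ
  set v := deriv γ t with hv
  set τ := γ t with hτ
  have hvne : v ≠ 0 := bcurve_deriv_ne H hd
  have htc := tang_centre_pos H hd
  set A := tang γ t c with hA
  set B := tang γ t p with hB
  -- the crossing point on the segment from the centre to the point
  set l : ℝ := A / (A - B) with hl
  have hAB : 0 < A - B := by linarith
  have hl0 : 0 < l := div_pos htc hAB
  have hl1 : l < 1 := by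
    rw [hl, div_lt_one hAB]; linarith
  set q : ℂ := c + (l : ℂ) * (p - c) with hq
  have hqmem : q ∈ Ω := by
    have h1 : (1 - l) • c + l • p ∈ interior Ω := by
      apply H.convex.combo_interior_closure_mem_interior
        (by rw [H.isOpen.interior_eq]; exact H.mem) hp (by linarith) hl0.le (by ring)
    rw [H.isOpen.interior_eq] at h1
    convert h1 using 1
    rw [hq, Complex.real_smul, Complex.real_smul]
    push_cast
    ring
  have hqt : (conj v * (q - τ)).im = 0 := by
    have e : conj v * (q - τ) = (1 - (l : ℂ)) * (conj v * (c - τ)) + (l : ℂ) * (conj v * (p - τ)) := by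
      rw [hq]; ring
    have e2 : (1 - (l : ℂ)) = ((1 - l : ℝ) : ℂ) := by push_cast; rfl
    rw [e, e2, Complex.add_im, Complex.im_ofReal_mul, Complex.im_ofReal_mul]
    change (1 - l) * A + l * B = 0
    rw [hl]
    field_simp
    ring
  -- the crossing point is on the tangent line
  have hv2 : (0 : ℝ) < Complex.normSq v := Complex.normSq_pos.mpr hvne
  set α : ℝ := (conj v * (q - τ)).re / Complex.normSq v with hα
  have hqline : q = τ + (α : ℂ) * v := by
    have h1 : conj v * (q - τ) = (((conj v * (q - τ)).re : ℝ) : ℂ) := by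
      apply Complex.ext
      · simp
      · simp [hqt]
    have h2 : v * conj v = ((Complex.normSq v : ℝ) : ℂ) := Complex.mul_conj v
    have hvc : ((Complex.normSq v : ℝ) : ℂ) ≠ 0 := by exact_mod_cast hv2.ne'
    have h3 : ((Complex.normSq v : ℝ) : ℂ) * (q - τ) = (((conj v * (q - τ)).re : ℝ) : ℂ) * v := by
      rw [← h1, ← h2]; ring
    have h4 : q - τ = (α : ℂ) * v := by
      apply mul_left_cancel₀ hvc
      rw [h3, hα]
      push_cast
      field_simp
    rw [← h4]; ring
  -- the neighbourhood of the crossing point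
  obtain ⟨δ, hδ, hball⟩ := Metric.isOpen_iff.mp H.isOpen q hqmem
  have hder := hd.hasDerivAt
  -- first order expansion
  set ε : ℝ := δ / (2 * (|α| + 1)) with hε
  have hε0 : 0 < ε := by positivity
  rw [hasDerivAt_iff_isLittleO_nhds_zero] at hder
  have hlit := hder.def hε0
  rw [Metric.eventually_nhds_iff] at hlit
  obtain ⟨η, hη, hlit⟩ := hlit
  -- choose the step
  set s : ℝ := min (1 / 2) (η / (2 * (|α| + 1))) with hs
  have hs0 : 0 < s := lt_min (by norm_num) (by positivity)
  have hsη : |(-(s * α))| < η := by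
    rw [abs_neg, abs_mul, abs_of_pos hs0]
    have h1 : s ≤ η / (2 * (|α| + 1)) := min_le_right _ _
    have h2 : s * |α| ≤ η / (2 * (|α| + 1)) * |α| :=
      mul_le_mul_of_nonneg_right h1 (abs_nonneg _)
    have h3 : η / (2 * (|α| + 1)) * |α| < η := by
      rw [div_mul_eq_mul_div, div_lt_iff₀ (by positivity)]
      nlinarith [abs_nonneg α]
    linarith
  have hexp := hlit (y := -(s * α)) (by simpa [Real.dist_eq] using hsη)
  -- the remainder
  set τ' := γ (t + -(s * α)) with hτ'
  have hexp2 : ‖τ' - τ + (s : ℂ) * (α : ℂ) * v‖ ≤ ε * (s * |α|) := by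
    have e : τ' - τ - ((-(s * α)) • v) = τ' - τ + (s : ℂ) * (α : ℂ) * v := by
      rw [Complex.real_smul]; push_cast; ring
    have h1 : ‖τ' - τ - ((-(s * α)) • v)‖ ≤ ε * ‖-(s * α)‖ := hexp
    rw [e, Real.norm_eq_abs, abs_neg, abs_mul, abs_of_pos hs0] at h1
    exact h1
  -- the vector in the ball
  set w : ℂ := (τ - τ' - (s : ℂ) * (α : ℂ) * v) / (s : ℂ) with hw
  have hsc : (s : ℂ) ≠ 0 := by exact_mod_cast hs0.ne'
  have hwn : ‖w‖ ≤ ε * |α| := by
    rw [hw, norm_div, Complex.norm_real, Real.norm_of_nonneg hs0.le, div_le_iff₀ hs0]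
    have e : τ - τ' - (s : ℂ) * (α : ℂ) * v = -(τ' - τ + (s : ℂ) * (α : ℂ) * v) := by ring
    rw [e, norm_neg]
    calc _ ≤ ε * (s * |α|) := hexp2
      _ = _ := by ring
  have hwδ : ‖w‖ < δ := by
    refine hwn.trans_lt ?_
    rw [hε, div_mul_eq_mul_div, div_lt_iff₀ (by positivity)]
    nlinarith [abs_nonneg α]
  have hqw : q + w ∈ Ω := hball (by
    rw [Metric.mem_ball, dist_eq_norm]
    simpa using hwδ)
  -- the combination
  have hτ'mem : τ' ∈ closure Ω := bcurve_mem_closure H _
  have hcomb : (1 / (1 + s)) • τ' + (s / (1 + s)) • (q + w) ∈ interior Ω := by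
    apply H.convex.combo_closure_interior_mem_interior hτ'mem
      (by rw [H.isOpen.interior_eq]; exact hqw) (by positivity) (by positivity)
    field_simp
  rw [H.isOpen.interior_eq] at hcomb
  have e : (1 / (1 + s)) • τ' + (s / (1 + s)) • (q + w) = τ := by
    rw [Complex.real_smul, Complex.real_smul, hqline, hw]
    have h1 : ((1 + s : ℝ) : ℂ) ≠ 0 := by
      have : (0 : ℝ) < 1 + s := by linarith
      exact_mod_cast this.ne'
    push_cast at h1 ⊢
    field_simp
    ring
  rw [e] at hcomb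
  have hfr : τ ∈ frontier Ω := bcurve_mem_fr H t
  rw [H.isOpen.frontier_eq] at hfr
  exact hfr.2 hcomb

omit H in
lemma log_diff_le {a b m : ℝ} (hm : 0 < m) (ha : m ≤ a) (hb : m ≤ b) :
    |Real.log a - Real.log b| ≤ |a - b| / m := by
  have ha0 : 0 < a := by linarith
  have hb0 : 0 < b := by linarith
  have key : ∀ {x y : ℝ}, m ≤ x → m ≤ y → Real.log x - Real.log y ≤ |x - y| / m := by
    intro x y hx hy
    have hx0 : 0 < x := by linarith
    have hy0 : 0 < y := by linarith
    rw [← Real.log_div hx0.ne' hy0.ne']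
    have h1 := Real.log_le_sub_one_of_pos (div_pos hx0 hy0)
    have h2 : x / y - 1 = (x - y) / y := by field_simp
    rw [h2] at h1
    refine h1.trans ?_
    by_cases hxy : 0 ≤ x - y
    · calc (x - y) / y ≤ (x - y) / m := by gcongr
        _ ≤ |x - y| / m := by gcongr; exact le_abs_self _
    · push Not at hxy
      have : (x - y) / y ≤ 0 := div_nonpos_of_nonpos_of_nonneg hxy.le hy0.le
      exact this.trans (by positivity)
  rw [abs_le]
  constructor
  · have := key hb ha
    rw [abs_sub_comm] at this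
    linarith
  · exact key ha hb

/-- The logarithm of the curve. -/
noncomputable def logc (Ω : Set ℂ) (c : ℂ) (t : ℝ) : ℂ := ((Real.log (rad Ω c t) : ℝ) : ℂ) + t * I

lemma exp_logc (t : ℝ) : Complex.exp (logc Ω c t) = bcurve Ω c t - c := by
  unfold logc
  rw [Complex.exp_add, bcurve_sub H, ← Complex.ofReal_exp, Real.exp_log (rad_pos H t)]
  rfl

lemma logc_lip : ∃ L : ℝ≥0, LipschitzWith L (logc Ω c) := by
  obtain ⟨L, hL⟩ := rad_lip H
  obtain ⟨m, hm, hlow⟩ := rad_lower H
  refine ⟨L * Real.toNNReal (1 / m) + 1, LipschitzWith.of_dist_le_mul fun s t => ?_⟩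
  unfold logc
  rw [dist_eq_norm]
  have e : ((Real.log (rad Ω c s) : ℝ) : ℂ) + s * I - (((Real.log (rad Ω c t) : ℝ) : ℂ) + t * I)
      = ((Real.log (rad Ω c s) - Real.log (rad Ω c t) : ℝ) : ℂ) + ((s - t : ℝ) : ℂ) * I := by
    push_cast; ring
  rw [e]
  refine (norm_add_le _ _).trans ?_
  rw [norm_mul, Complex.norm_I, mul_one, Complex.norm_real, Complex.norm_real, Real.norm_eq_abs,
    Real.norm_eq_abs]
  have h1 := log_diff_le hm (hlow s) (hlow t)
  have h2 := hL.dist_le_mul s t
  rw [Real.dist_eq] at h2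
  have h3 : |s - t| = dist s t := (Real.dist_eq s t).symm
  rw [h3]
  push_cast
  rw [Real.coe_toNNReal _ (by positivity)]
  have h4 : |rad Ω c s - rad Ω c t| / m ≤ (L * dist s t) / m := by gcongr
  have h5 : (L * dist s t) / m = L * (1 / m) * dist s t := by ring
  linarith

/-- The winding number of the curve about the centre. -/
theorem bcurve_winding :
    ∫ t in (0 : ℝ)..(2 * π), deriv (bcurve Ω c) t / (bcurve Ω c t - c) = 2 * π * I := by
  obtain ⟨L, hL⟩ := logc_lip H
  have hae : ∀ᵐ t : ℝ, deriv (bcurve Ω c) t / (bcurve Ω c t - c) = deriv (logc Ω c) t := by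
    filter_upwards [ae_diff hL] with t ht
    have h1 : HasDerivAt (fun s => c + Complex.exp (logc Ω c s))
        (Complex.exp (logc Ω c t) * deriv (logc Ω c) t) t :=
      (ht.hasDerivAt.cexp).const_add c
    have e : (fun s => c + Complex.exp (logc Ω c s)) = bcurve Ω c := by
      funext s
      rw [exp_logc H]; ring
    rw [e] at h1
    rw [h1.deriv, exp_logc H]
    have hne : bcurve Ω c t - c ≠ 0 := by
      rw [← exp_logc H]; exact Complex.exp_ne_zero _
    field_simp
  have h2 : ∫ t in (0 : ℝ)..(2 * π), deriv (bcurve Ω c) t / (bcurve Ω c t - c)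
      = ∫ t in (0 : ℝ)..(2 * π), deriv (logc Ω c) t :=
    intervalIntegral.integral_congr_ae (hae.mono fun t ht _ => ht)
  rw [h2, ftc_lip (hL.lipschitzOnWith (s := uIcc 0 (2 * π)))]
  unfold logc
  have h3 : rad Ω c (2 * π) = rad Ω c 0 := by
    have := rad_per H 0
    rwa [zero_add] at this
  rw [h3]
  push_cast
  ring

/-- The curve is a convex curve. -/
theorem bcurve_conv : ConvCurve (bcurve Ω c) where
  lip := bcurve_lip H
  per := bcurve_per H
  simple := bcurve_simple H
  deriv_ne := fun t ht => bcurve_deriv_ne H ht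
  support := fun t ht s => bcurve_support H ht (bcurve_mem_closure H s)

end GaugeSetup

/-- Every bounded open convex set has a boundary parametrisation. -/
theorem exists_dom {Ω : Set ℂ} {c : ℂ} (hO : IsOpen Ω) (hC : Convex ℝ Ω)
    (hB : Bornology.IsBounded Ω) (hc : c ∈ Ω) : Dom Ω (bcurve Ω c) c := by
  have H : GaugeSetup.Hyp Ω c := ⟨hO, hC, hB, hc⟩
  exact
    { isOpen := hO
      convex := hC
      bdd := hB
      c_mem := hc
      curve := GaugeSetup.bcurve_conv H
      mem_fr := GaugeSetup.bcurve_mem_fr H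
      surj := fun p hp => GaugeSetup.bcurve_surj H hp
      support := fun t ht p hp => GaugeSetup.bcurve_support H ht hp
      winding := GaugeSetup.bcurve_winding H }

end Vale.Agent.Lib.P123H99
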