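import Mathlib
import Vale.Agent.Lib.P123H99.Applied

/-! The pointwise lower bound on the boundary. -/

namespace Vale.Agent.Lib.P123H99

open MeasureTheory Set Filter Topology Complex Metric
open scoped Real ComplexConjugate

set_option linter.unusedSectionVars false
set_option linter.unusedSimpArgs false
set_option linter.unusedVariables false
set_option linter.deprecated false

/-- The final real inequality, first case. -/
lemma final_arith_large {K Q NQ X ε : ℝ} (hK : 3 ≤ K) (hε0 : 0 ≤ ε) (hε : ε ≤ 1 / 100)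
    (hQ1 : Q ≤ 1) (hQ2 : -1 ≤ Q) (hN1 : NQ ≤ 1) (hN2 : -1 ≤ NQ) (hX1 : X ≤ 1) (hX2 : -1 ≤ X) :
    1 / 10 ^ 19 ≤ K * (1 + ε * Q) + (1 / K) * (-Q + ε * X) - (1 + ε * Q + ε ^ 2)
      - (1 + ε ^ 2 + ε * NQ) := by
  have hKp : 0 < K := by linarith
  set y := 1 / K with hy
  have hy0 : 0 < y := by positivity
  have hy1 : y ≤ 1 / 3 := by
    rw [hy]; exact one_div_le_one_div_of_le (by norm_num) hK
  have e : K * (1 + ε * Q) + y * (-Q + ε * X) - (1 + ε * Q + ε ^ 2) - (1 + ε ^ 2 + ε * NQ)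
      = K - 2 - Q * y + ε * ((K - 1) * Q - NQ + y * X) - 2 * ε ^ 2 := by ring
  rw [e]
  have h1 : Q * y ≤ y := by nlinarith
  have h2 : -(K - 1) ≤ (K - 1) * Q := by nlinarith
  have h3 : -y ≤ y * X := by nlinarith
  have h4 : -(K + y) ≤ (K - 1) * Q - NQ + y * X := by linarith
  have h5 : ε * (-(K + y)) ≤ ε * ((K - 1) * Q - NQ + y * X) := mul_le_mul_of_nonneg_left h4 hε0
  have h6 : ε ^ 2 ≤ 1 / 10000 := by nlinarith
  have h7 : ε * K ≤ (1 / 100) * K := mul_le_mul_of_nonneg_right hε hKp.le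
  have h8 : ε * y ≤ 1 / 100 * (1 / 3) := mul_le_mul hε hy1 hy0.le (by norm_num)
  norm_num at h5 h6 h7 h8 ⊢
  nlinarith

/-- The lower bound of the extremal defect. -/
lemma kappa_bound {K : ℝ} (hK : 1 + Real.sqrt 2 - 1 / 10 ^ 19 ≤ K) :
    12 / 5 ≤ K ∧ -(5 / 4 * (1 / 10 ^ 19)) ≤ K - 2 - 1 / K := by
  have hs : (1.414 : ℝ) < Real.sqrt 2 := by
    rw [Real.lt_sqrt (by norm_num)]; norm_num
  have hs2 : Real.sqrt 2 < 1.5 := by
    rw [Real.sqrt_lt (by norm_num) (by norm_num)]; norm_num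
  have hss : Real.sqrt 2 ^ 2 = 2 := Real.sq_sqrt (by norm_num)
  obtain ⟨τ, hτ⟩ : ∃ τ : ℝ, τ = 1 / 10 ^ 19 := ⟨_, rfl⟩
  rw [← hτ] at hK ⊢
  have hτ0 : 0 < τ := by rw [hτ]; norm_num
  have hτ1 : τ < 1 / 1000 := by rw [hτ]; norm_num
  have hs' : (1414 : ℝ) / 1000 < Real.sqrt 2 := by
    have : (1.414 : ℝ) = 1414 / 1000 := by norm_num
    linarith
  have hs2' : Real.sqrt 2 < 3 / 2 := by
    have : (1.5 : ℝ) = 3 / 2 := by norm_num
    linarith
  have hK1 : 12 / 5 ≤ K := by linarith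
  refine ⟨hK1, ?_⟩
  have hKp : 0 < K := by linarith
  have h1 : Real.sqrt 2 - τ ≤ K - 1 := by linarith
  have h2 : 0 ≤ Real.sqrt 2 - τ := by linarith
  have h3 : (Real.sqrt 2 - τ) ^ 2 ≤ (K - 1) ^ 2 := pow_le_pow_left₀ h2 h1 2
  have h4 : 2 - 3 * τ ≤ (K - 1) ^ 2 := by nlinarith
  have h5 : K - 2 - 1 / K = ((K - 1) ^ 2 - 2) / K := by field_simp; ring
  rw [h5, le_div_iff₀ hKp]
  have h6 : -(3 * τ) ≤ (K - 1) ^ 2 - 2 := by linarith
  have h7 : -(5 / 4 * τ) * K ≤ -(5 / 4 * τ) * (12 / 5) := by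
    apply mul_le_mul_of_nonpos_left hK1
    have : 0 < 5 / 4 * τ := by positivity
    linarith
  have h8 : -(5 / 4 * τ) * (12 / 5) = -(3 * τ) := by ring
  linarith

/-- The final real inequality: strict defect of the value `Q`. -/
lemma final_arith_A {K Q NQ X : ℝ} (hK : 1 + Real.sqrt 2 - 1 / 10 ^ 19 ≤ K) (hK3 : K < 3)
    (hQ2 : -1 ≤ Q) (hN1 : NQ ≤ 1) (hX2 : -1 ≤ X) (hQ : Q ≤ 1 - 1 / 10 ^ 18) :
    1 / 10 ^ 19 ≤ K * (1 + (1 / (5 * 10 ^ 9)) * Q) + (1 / K) * (-Q + (1 / (5 * 10 ^ 9)) * X)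
      - (1 + (1 / (5 * 10 ^ 9)) * Q + (1 / (5 * 10 ^ 9)) ^ 2)
      - (1 + (1 / (5 * 10 ^ 9)) ^ 2 + (1 / (5 * 10 ^ 9)) * NQ) := by
  obtain ⟨hK1, hκ⟩ := kappa_bound hK
  have hKp : 0 < K := by linarith
  obtain ⟨ε, hε⟩ : ∃ ε : ℝ, ε = 1 / (5 * 10 ^ 9) := ⟨_, rfl⟩
  rw [← hε]
  have hε0 : 0 < ε := by rw [hε]; norm_num
  set y := 1 / K with hy
  have hy0 : 0 < y := by positivity
  have hy1 : 1 / 3 ≤ y := by
    rw [hy]; exact one_div_le_one_div_of_le hKp hK3.le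
  set s := 1 - Q with hs
  have hs1 : 1 / 10 ^ 18 ≤ s := by rw [hs]; linarith
  have hs2 : s ≤ 2 := by rw [hs]; linarith
  set κ := K - 2 - y with hκd
  have e : K * (1 + ε * Q) + y * (-Q + ε * X) - (1 + ε * Q + ε ^ 2) - (1 + ε ^ 2 + ε * NQ)
      = κ * (1 + ε) + s * (y - ε * (K - 1)) - 2 * ε ^ 2
        + ε * ((1 - NQ) + y * (X + 1)) := by
    rw [hκd, hs]; ring
  rw [e]
  have h1 : 0 ≤ ε * ((1 - NQ) + y * (X + 1)) := by
    apply mul_nonneg hε0.le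
    have : 0 ≤ y * (X + 1) := mul_nonneg hy0.le (by linarith)
    linarith
  have h2 : 33 / 100 ≤ y - ε * (K - 1) := by
    have : ε * (K - 1) ≤ ε * 2 := mul_le_mul_of_nonneg_left (by linarith) hε0.le
    have h3 : ε * 2 ≤ 1 / 300 := by rw [hε]; norm_num
    linarith
  have h3 : (1 / 10 ^ 18) * (33 / 100) ≤ s * (y - ε * (K - 1)) :=
    mul_le_mul hs1 h2 (by norm_num) (by linarith)
  have h4 : -(126 / 100 * (1 / 10 ^ 19)) ≤ κ * (1 + ε) := by
    by_cases hκ0 : 0 ≤ κ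
    · have : 0 ≤ κ * (1 + ε) := by positivity
      have h5 : (0 : ℝ) ≤ 126 / 100 * (1 / 10 ^ 19) := by norm_num
      linarith
    · have h5 : κ * (1 + ε) ≥ (-(5 / 4 * (1 / 10 ^ 19))) * (1 + ε) :=
        mul_le_mul_of_nonneg_right hκ (by linarith)
      have h6 : (-(5 / 4 * (1 / 10 ^ 19))) * (1 + ε) ≥ -(126 / 100 * (1 / 10 ^ 19)) := by
        rw [hε]; norm_num
      linarith
  have h5 : 2 * ε ^ 2 ≤ 8 / 10 ^ 20 := by rw [hε]; norm_num
  have h6 : (1 : ℝ) / 10 ^ 19 ≤ (1 / 10 ^ 18) * (33 / 100) - 126 / 100 * (1 / 10 ^ 19) - 8 / 10 ^ 20 := by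
    norm_num
  linarith

/-- The final real inequality: near equality at the point and strict decrease of the mean. -/
lemma final_arith_B {K Q NQ X : ℝ} (hK : 1 + Real.sqrt 2 - 1 / 10 ^ 19 ≤ K) (hK3 : K < 3)
    (hQ1 : Q ≤ 1) (hQ2 : 1 - 1 / 10 ^ 18 < Q) (hN : NQ ≤ 1 - 3 / 10 ^ 9)
    (hX : -NQ - 1 / 10 ^ 18 - 3 / (2 * 10 ^ 9) ≤ X) :
    1 / 10 ^ 19 ≤ K * (1 + (1 / (5 * 10 ^ 9)) * Q) + (1 / K) * (-Q + (1 / (5 * 10 ^ 9)) * X)
      - (1 + (1 / (5 * 10 ^ 9)) * Q + (1 / (5 * 10 ^ 9)) ^ 2)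
      - (1 + (1 / (5 * 10 ^ 9)) ^ 2 + (1 / (5 * 10 ^ 9)) * NQ) := by
  obtain ⟨hK1, hκ⟩ := kappa_bound hK
  have hKp : 0 < K := by linarith
  obtain ⟨ε, hε⟩ : ∃ ε : ℝ, ε = 1 / (5 * 10 ^ 9) := ⟨_, rfl⟩
  rw [← hε]
  have hε0 : 0 < ε := by rw [hε]; norm_num
  set y := 1 / K with hy
  have hy0 : 0 < y := by positivity
  set κ := K - 2 - y with hκd
  have e : K * (1 + ε * Q) + y * (-Q + ε * X) - (1 + ε * Q + ε ^ 2) - (1 + ε ^ 2 + ε * NQ)
      = κ + y * (1 - Q) + ε * ((K - 1) * Q - NQ + y * X) - 2 * ε ^ 2 := by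
    rw [hκd]; ring
  rw [e]
  have h0 : 0 ≤ y * (1 - Q) := mul_nonneg hy0.le (by linarith)
  -- the bracket
  have h1 : κ + 3 / 10 ^ 9 - 2 / 10 ^ 18 ≤ (K - 1) * Q - NQ + y * X := by
    have a1 : (K - 1) * (1 - 1 / 10 ^ 18) ≤ (K - 1) * Q :=
      mul_le_mul_of_nonneg_left hQ2.le (by linarith)
    have a2 : y * (-NQ - 1 / 10 ^ 18 - 3 / (2 * 10 ^ 9)) ≤ y * X := mul_le_mul_of_nonneg_left hX hy0.le
    have a3 : (K - 1) * (1 / 10 ^ 18) ≤ 2 * (1 / 10 ^ 18) :=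
      mul_le_mul_of_nonneg_right (by linarith) (by norm_num)
    -- the mean is at most one minus the gap
    have a4 : y * (1 - 3 / 10 ^ 9 - NQ) ≥ 0 := mul_nonneg hy0.le (by linarith)
    have a5 : y * (3 / 10 ^ 9 - 1 / 10 ^ 18 - 3 / (2 * 10 ^ 9)) ≥ 0 :=
      mul_nonneg hy0.le (by norm_num)
    have a6 : (K - 1) * Q - NQ + y * X ≥ (K - 1) - 2 * (1 / 10 ^ 18) - NQ
        + y * (-NQ - 1 / 10 ^ 18 - 3 / (2 * 10 ^ 9)) := by nlinarith
    rw [hκd]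
    have a7 : y * (-NQ - 1 / 10 ^ 18 - 3 / (2 * 10 ^ 9))
        = y * (1 - 3 / 10 ^ 9 - NQ) + y * (3 / 10 ^ 9 - 1 / 10 ^ 18 - 3 / (2 * 10 ^ 9)) - y := by ring
    rw [a7] at a6
    have a8 : (K - 1) - 2 * (1 / 10 ^ 18) - NQ ≥ (K - 1) - 2 * (1 / 10 ^ 18) - (1 - 3 / 10 ^ 9) := by
      linarith
    linarith
  have h2 : ε * (κ + 3 / 10 ^ 9 - 2 / 10 ^ 18) ≤ ε * ((K - 1) * Q - NQ + y * X) :=
    mul_le_mul_of_nonneg_left h1 hε0.le
  have h3 : κ + ε * (κ + 3 / 10 ^ 9 - 2 / 10 ^ 18) - 2 * ε ^ 2 ≥ 1 / 10 ^ 19 := by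
    have h4 : κ * (1 + ε) ≥ -(126 / 100 * (1 / 10 ^ 19)) := by
      by_cases hκ0 : 0 ≤ κ
      · have : 0 ≤ κ * (1 + ε) := by positivity
        have h5 : (0 : ℝ) ≤ 126 / 100 * (1 / 10 ^ 19) := by norm_num
        linarith
      · have h5 : κ * (1 + ε) ≥ (-(5 / 4 * (1 / 10 ^ 19))) * (1 + ε) :=
          mul_le_mul_of_nonneg_right hκ (by linarith)
        have h6 : (-(5 / 4 * (1 / 10 ^ 19))) * (1 + ε) ≥ -(126 / 100 * (1 / 10 ^ 19)) := by
          rw [hε]; norm_num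
        linarith
    have h5 : ε * (3 / 10 ^ 9 - 2 / 10 ^ 18) - 2 * ε ^ 2 ≥ 4 / 10 ^ 19 := by
      rw [hε]; norm_num
    have h6 : κ + ε * (κ + 3 / 10 ^ 9 - 2 / 10 ^ 18) - 2 * ε ^ 2
        = κ * (1 + ε) + (ε * (3 / 10 ^ 9 - 2 / 10 ^ 18) - 2 * ε ^ 2) := by ring
    rw [h6]
    have h7 : (1 : ℝ) / 10 ^ 19 ≤ - (126 / 100 * (1 / 10 ^ 19)) + 4 / 10 ^ 19 := by norm_num
    linarith
  linarith

/-- Elementary inequalities in the unit disc. -/
lemma sq_norm_one_add_le {v : ℂ} (hv : ‖v‖ ≤ 1) : ‖1 + v‖ ^ 2 ≤ 2 + 2 * v.re := by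
  have h1 : ‖v‖ ^ 2 ≤ 1 := by
    have := norm_nonneg v
    nlinarith
  rw [Complex.sq_norm, Complex.normSq_apply] at h1 ⊢
  simp only [Complex.add_re, Complex.add_im, Complex.one_re, Complex.one_im]
  nlinarith

lemma sq_norm_one_sub_le {v : ℂ} (hv : ‖v‖ ≤ 1) : ‖1 - v‖ ^ 2 ≤ 2 - 2 * v.re := by
  have h1 : ‖v‖ ^ 2 ≤ 1 := by
    have := norm_nonneg v
    nlinarith
  rw [Complex.sq_norm, Complex.normSq_apply] at h1 ⊢
  simp only [Complex.sub_re, Complex.sub_im, Complex.one_re, Complex.one_im]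
  nlinarith

/-- The value of the small parameter of the extremal functional. -/
noncomputable def eps : ℝ := 1 / (5 * 10 ^ 9)

lemma eps_pos : 0 < eps := by unfold eps; norm_num
lemma eps_le : eps ≤ 1 / 100 := by unfold eps; norm_num

/-- The product function of the proof. -/
noncomputable def Gf (Ω : Set ℂ) (γ : ℝ → ℂ) (f : ℂ → ℂ) (z : ℂ) : ℂ := -(f z * alphaE Ω γ f z)

/-- The first test function. -/
noncomputable def zetaF (Ω : Set ℂ) (γ : ℝ → ℂ) (f : ℂ → ℂ) (z : ℂ) : ℂ :=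
  f z * (1 + (eps : ℂ) * Gf Ω γ f z)

/-- The majorant of the first test function. -/
noncomputable def kkF (Ω : Set ℂ) (γ : ℝ → ℂ) (f : ℂ → ℂ) (z : ℂ) : ℂ :=
  1 + (eps : ℂ) * Gf Ω γ f z + (eps : ℂ) ^ 2

/-- The extremal combination. -/
noncomputable def EE (Ω : Set ℂ) (γ : ℝ → ℂ) (f : ℂ → ℂ) (K : ℝ) (z : ℂ) : ℂ :=
  (K : ℂ) * (1 + (eps : ℂ) * Gf Ω γ f z) + ((1 / K : ℝ) : ℂ) * (f z * alphaE Ω γ (zetaF Ω γ f) z)
    - kkF Ω γ f z - alphaE Ω γ (kkF Ω γ f) z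

namespace Dom

variable {Ω : Set ℂ} {γ : ℝ → ℂ} {c : ℂ} (hD : Dom Ω γ c)
include hD

lemma Nn_add {h₁ h₂ : ℝ → ℂ} (h1 : Continuous h₁) (h2 : Continuous h₂) {t₀ : ℝ}
    (hd : DifferentiableAt ℝ γ t₀) :
    Nn γ (fun t => h₁ t + h₂ t) t₀ = Nn γ h₁ t₀ + Nn γ h₂ t₀ := by
  unfold Nn
  rw [← intervalIntegral.integral_add (weighted_ci hD.curve hd h1 _ _)
    (weighted_ci hD.curve hd h2 _ _)]
  congr 1; ext t; ring

omit hD in
lemma Nn_const_mul (a : ℂ) (h : ℝ → ℂ) (t₀ : ℝ) :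
    Nn γ (fun t => a * h t) t₀ = a * Nn γ h t₀ := by
  unfold Nn
  rw [← intervalIntegral.integral_const_mul]
  congr 1; ext t; ring

lemma Nn_const (b : ℂ) {t₀ : ℝ} (hd : DifferentiableAt ℝ γ t₀) : Nn γ (fun _ => b) t₀ = b := by
  unfold Nn
  rw [intervalIntegral.integral_const_mul]
  have : ∫ t in (0 : ℝ)..(2 * π), ((dens γ (γ t₀) t : ℝ) : ℂ)
      = ((∫ t in (0 : ℝ)..(2 * π), dens γ (γ t₀) t : ℝ) : ℂ) := intervalIntegral.integral_ofReal
  rw [this, mass_one' hD.curve hd]; simp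

lemma Nn_re {h : ℝ → ℂ} (hh : Continuous h) {t₀ : ℝ} (hd : DifferentiableAt ℝ γ t₀) :
    (Nn γ h t₀).re = ∫ t in (0 : ℝ)..(2 * π), (h t).re * dens γ (γ t₀) t := by
  unfold Nn
  have h1 := Complex.reCLM.intervalIntegral_comp_comm (weighted_ci hD.curve hd hh 0 (2 * π))
  simp only [Complex.reCLM_apply] at h1
  rw [← h1]
  congr 1; ext t
  simp

lemma int_le {r₁ r₂ : ℝ → ℝ} (h1 : Continuous r₁) (h2 : Continuous r₂) (h : ∀ s, r₁ s ≤ r₂ s)
    {t₀ : ℝ} (hd : DifferentiableAt ℝ γ t₀) :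
    ∫ s in (0 : ℝ)..(2 * π), r₁ s * dens γ (γ t₀) s ≤ ∫ s in (0 : ℝ)..(2 * π), r₂ s * dens γ (γ t₀) s := by
  have hpi := Real.pi_pos
  apply intervalIntegral.integral_mono_ae_restrict (by positivity)
    (weighted_ii hD.curve hd h1 _ _) (weighted_ii hD.curve hd h2 _ _)
  apply ae_restrict_of_ae
  filter_upwards [hD.curve.ae_diff] with t ht
  exact mul_le_mul_of_nonneg_right (h t) (hD.curve.dens_nonneg ht t₀)

lemma int_affine {r : ℝ → ℝ} (hr : Continuous r) (α β : ℝ) {t₀ : ℝ}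
    (hd : DifferentiableAt ℝ γ t₀) :
    ∫ s in (0 : ℝ)..(2 * π), (α + β * r s) * dens γ (γ t₀) s
      = α + β * ∫ s in (0 : ℝ)..(2 * π), r s * dens γ (γ t₀) s := by
  have e : ∀ s, (α + β * r s) * dens γ (γ t₀) s
      = α * dens γ (γ t₀) s + β * (r s * dens γ (γ t₀) s) := fun s => by ring
  simp_rw [e]
  rw [intervalIntegral.integral_add ((dens_ii_all hD.curve hd _ _).const_mul _)
    ((weighted_ii hD.curve hd hr _ _).const_mul _), intervalIntegral.integral_const_mul,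
    intervalIntegral.integral_const_mul, mass_one' hD.curve hd, mul_one]

lemma Nn_norm_le {h : ℝ → ℂ} (hh : Continuous h) {r : ℝ → ℝ} (hr : Continuous r)
    (hle : ∀ s, ‖h s‖ ≤ r s) {t₀ : ℝ} (hd : DifferentiableAt ℝ γ t₀) :
    ‖Nn γ h t₀‖ ≤ ∫ s in (0 : ℝ)..(2 * π), r s * dens γ (γ t₀) s := by
  have hpi := Real.pi_pos
  unfold Nn
  refine (intervalIntegral.norm_integral_le_integral_norm (μ := volume) (a := 0) (b := 2 * π)
    (f := fun t => h t * ((dens γ (γ t₀) t : ℝ) : ℂ)) (by positivity)).trans ?_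
  apply intervalIntegral.integral_mono_ae_restrict (by positivity)
    (weighted_ci hD.curve hd hh _ _).norm (weighted_ii hD.curve hd hr _ _)
  apply ae_restrict_of_ae
  filter_upwards [hD.curve.ae_diff] with t ht
  rw [norm_mul, Complex.norm_real, Real.norm_eq_abs, abs_of_nonneg (hD.curve.dens_nonneg ht t₀)]
  exact mul_le_mul_of_nonneg_right (hle t) (hD.curve.dens_nonneg ht t₀)

lemma Gf_isA {f : ℂ → ℂ} (hf : IsA Ω f) : IsA Ω (Gf Ω γ f) :=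
  ⟨(hf.1.mul (hD.alphaE_isA hf).1).neg, (hf.2.mul (hD.alphaE_isA hf).2).neg⟩

lemma Gf_bound {f : ℂ → ℂ} (hf : IsA Ω f) (hf1 : ∀ p ∈ closure Ω, ‖f p‖ ≤ 1) {z : ℂ}
    (hz : z ∈ closure Ω) : ‖Gf Ω γ f z‖ ≤ 1 := by
  unfold Gf
  rw [norm_neg, norm_mul]
  have h1 := hf1 z hz
  have h2 := hD.alphaE_bound hf hf1 hz
  have := norm_nonneg (f z)
  have := norm_nonneg (alphaE Ω γ f z)
  nlinarith

lemma Gf_reg {f : ℂ → ℂ} (hf : IsA Ω f) {t : ℝ} (ht : DifferentiableAt ℝ γ t) :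
    Gf Ω γ f (γ t) = -(f (γ t) * conj (Nn γ (fun s => f (γ s)) t)) := by
  unfold Gf
  rw [hD.alphaE_reg hf ht]

/-- The near critical package. -/
theorem near_critical {f : ℂ → ℂ} (hf : IsA Ω f) (hf1 : ∀ p ∈ closure Ω, ‖f p‖ ≤ 1) {t₀ : ℝ}
    (hd : DifferentiableAt ℝ γ t₀) (hQ : 1 - 1 / 10 ^ 18 < (Gf Ω γ f (γ t₀)).re) :
    ∃ a : ℂ, ‖a‖ = 1 ∧ conj a * f (γ t₀) = (‖f (γ t₀)‖ : ℂ) ∧ 1 - 1 / 10 ^ 18 ≤ ‖f (γ t₀)‖ ∧
      ∫ s in (0 : ℝ)..(2 * π), ‖1 + conj a * f (γ s)‖ ^ 2 * dens γ (γ t₀) s ≤ 2 / 10 ^ 18 ∧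
      ∫ s in (0 : ℝ)..(2 * π), ‖1 + conj a * f (γ s)‖ * dens γ (γ t₀) s ≤ 3 / (2 * 10 ^ 9) := by
  have hcf := hD.comp_cont hf
  have hfγ : ∀ s, ‖f (γ s)‖ ≤ 1 := fun s => hf1 _ (hD.mem_closure s)
  set n := Nn γ (fun s => f (γ s)) t₀ with hn
  have hn1 : ‖n‖ ≤ 1 := hD.Nn_bound hcf hfγ hd
  set w := f (γ t₀) with hw
  have hQe : (Gf Ω γ f (γ t₀)).re = -(w * conj n).re := by
    rw [hD.Gf_reg hf hd, Complex.neg_re]
  rw [hQe] at hQ
  have hw1 : ‖w‖ ≤ 1 := hfγ t₀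
  have hw2 : 1 - 1 / 10 ^ 18 ≤ ‖w‖ := by
    have h1 : |(w * conj n).re| ≤ ‖w * conj n‖ := Complex.abs_re_le_norm _
    rw [norm_mul, Complex.norm_conj] at h1
    have h2 : ‖w‖ * ‖n‖ ≤ ‖w‖ * 1 := mul_le_mul_of_nonneg_left hn1 (norm_nonneg _)
    have h3 := neg_abs_le (w * conj n).re
    linarith
  have hwpos : 0 < ‖w‖ := by
    have : (0 : ℝ) < 1 - 1 / 10 ^ 18 := by norm_num
    linarith
  have hw0 : w ≠ 0 := norm_pos_iff.mp hwpos
  have hwc : (‖w‖ : ℂ) ≠ 0 := by exact_mod_cast hwpos.ne'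
  set a : ℂ := w / (‖w‖ : ℂ) with ha
  have ha1 : ‖a‖ = 1 := by
    rw [ha, norm_div, Complex.norm_real, norm_norm, div_self hwpos.ne']
  have hawe : conj a * w = (‖w‖ : ℂ) := by
    rw [ha, map_div₀, Complex.conj_ofReal]
    have : conj w * w = ((‖w‖ : ℂ)) ^ 2 := by
      rw [mul_comm, Complex.mul_conj, Complex.normSq_eq_norm_sq]; push_cast; ring
    field_simp
    rw [mul_comm, ← this]; ring
  have hv1 : ∀ s, ‖conj a * f (γ s)‖ ≤ 1 := by
    intro s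
    rw [norm_mul, Complex.norm_conj, ha1, one_mul]
    exact hfγ s
  have hvc : Continuous fun s => conj a * f (γ s) := continuous_const.mul hcf
  have hvr : Continuous fun s => (conj a * f (γ s)).re := Complex.continuous_re.comp hvc
  have hint : ∫ s in (0 : ℝ)..(2 * π), (conj a * f (γ s)).re * dens γ (γ t₀) s = (conj a * n).re := by
    rw [← hD.Nn_re hvc hd, Nn_const_mul]
  -- the relation between the value and the mean
  have hrel : -(w * conj n).re = ‖w‖ * (-(conj a * n).re) := by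
    have e1 : w * conj n = (‖w‖ : ℂ) * conj (conj a * n) := by
      rw [← hawe]
      rw [map_mul, Complex.conj_conj]
      have : a * conj a = 1 := by
        rw [Complex.mul_conj, Complex.normSq_eq_norm_sq, ha1]; simp
      calc w * conj n = (a * conj a) * (w * conj n) := by rw [this, one_mul]
        _ = conj a * w * (a * conj n) := by ring
    rw [e1, Complex.re_ofReal_mul, Complex.conj_re]
    ring
  have hρ : -(w * conj n).re ≤ -(conj a * n).re := by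
    rw [hrel]
    by_cases h0 : 0 ≤ -(conj a * n).re
    · exact mul_le_of_le_one_left h0 hw1
    · exfalso
      push Not at h0
      have h1 : ‖w‖ * (-(conj a * n).re) < 0 := mul_neg_of_pos_of_neg hwpos h0
      have h2 : (0 : ℝ) < 1 - 1 / 10 ^ 18 := by norm_num
      linarith [hrel]
  have hsq : ∫ s in (0 : ℝ)..(2 * π), ‖1 + conj a * f (γ s)‖ ^ 2 * dens γ (γ t₀) s ≤ 2 / 10 ^ 18 := by
    have hc2 : Continuous fun s => ‖1 + conj a * f (γ s)‖ ^ 2 :=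
      ((continuous_const.add hvc).norm).pow 2
    have h1 := hD.int_le hc2 (r₂ := fun s => 2 + 2 * (conj a * f (γ s)).re)
      (continuous_const.add (continuous_const.mul hvr))
      (fun s => sq_norm_one_add_le (hv1 s)) hd
    rw [hD.int_affine hvr 2 2 hd, hint] at h1
    have h3 : (2 : ℝ) * (1 / 10 ^ 18) = 2 / 10 ^ 18 := by ring
    linarith
  refine ⟨a, ha1, hawe, hw2, hsq, ?_⟩
  -- the first moment
  have hc1 : Continuous fun s => ‖1 + conj a * f (γ s)‖ := (continuous_const.add hvc).norm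
  have hc2 : Continuous fun s => ‖1 + conj a * f (γ s)‖ ^ 2 := hc1.pow 2
  have hl : (0 : ℝ) < 2 / 10 ^ 9 := by norm_num
  have hpw : ∀ s, ‖1 + conj a * f (γ s)‖
      ≤ (1 / 10 ^ 9) + (10 ^ 9 / 4) * ‖1 + conj a * f (γ s)‖ ^ 2 := by
    intro s
    nlinarith [sq_nonneg (‖1 + conj a * f (γ s)‖ * (10 ^ 9 / 2) - 1)]
  have h1 := hD.int_le hc1
    (r₂ := fun s => (1 / 10 ^ 9) + (10 ^ 9 / 4) * ‖1 + conj a * f (γ s)‖ ^ 2)
    (continuous_const.add (continuous_const.mul hc2)) hpw hd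
  rw [hD.int_affine hc2 _ _ hd] at h1
  have h2 : ((10 : ℝ) ^ 9 / 4) * ∫ s in (0 : ℝ)..(2 * π), ‖1 + conj a * f (γ s)‖ ^ 2 * dens γ (γ t₀) s
      ≤ (10 ^ 9 / 4) * (2 / 10 ^ 18) := mul_le_mul_of_nonneg_left hsq (by norm_num)
  have h3 : (1 : ℝ) / 10 ^ 9 + (10 ^ 9 / 4) * (2 / 10 ^ 18) = 3 / (2 * 10 ^ 9) := by norm_num
  linarith

/-- The quantitative decrease of the mean at a near critical point. -/
theorem main_applied {f : ℂ → ℂ} (hf : IsA Ω f) (hf1 : ∀ p ∈ closure Ω, ‖f p‖ ≤ 1) {t₀ : ℝ}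
    (hd : DifferentiableAt ℝ γ t₀) (hQ : 1 - 1 / 10 ^ 18 < (Gf Ω γ f (γ t₀)).re) :
    (Nn γ (fun s => Gf Ω γ f (γ s)) t₀).re ≤ 1 - 3 / 10 ^ 9 := by
  by_contra hcon
  push Not at hcon
  obtain ⟨a, ha1, hawe, hw2, hsq, hfirst⟩ := hD.near_critical hf hf1 hd hQ
  have hcf := hD.comp_cont hf
  have hfγ : ∀ s, ‖f (γ s)‖ ≤ 1 := fun s => hf1 _ (hD.mem_closure s)
  have hcG := hD.comp_cont (hD.Gf_isA hf)
  have hGγ : ∀ s, ‖Gf Ω γ f (γ s)‖ ≤ 1 := fun s => hD.Gf_bound hf hf1 (hD.mem_closure s)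
  have hGr : Continuous fun s => (Gf Ω γ f (γ s)).re := Complex.continuous_re.comp hcG
  have hvc : Continuous fun s => conj a * f (γ s) := continuous_const.mul hcf
  have hvr : Continuous fun s => (conj a * f (γ s)).re := Complex.continuous_re.comp hvc
  have hv1 : ∀ s, ‖conj a * f (γ s)‖ ≤ 1 := by
    intro s
    rw [norm_mul, Complex.norm_conj, ha1, one_mul]
    exact hfγ s
  have hc1 : Continuous fun s => ‖1 + conj a * f (γ s)‖ := (continuous_const.add hvc).norm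
  set B : ℝ → ℝ := fun t => 2 * (1 - (Gf Ω γ f (γ t)).re) + 2 * ‖1 + conj a * f (γ t)‖ with hB
  have hBc : Continuous B :=
    (continuous_const.mul (continuous_const.sub hGr)).add (continuous_const.mul hc1)
  have hQ1 : ∀ s, (Gf Ω γ f (γ s)).re ≤ 1 := fun s =>
    (Complex.re_le_norm _).trans (hGγ s)
  refine hD.geom_applied hf hf1 ha1 hd ?_ (B := B) hBc ?_ ?_ ?_ ?_
  · refine hsq.trans ?_
    norm_num
  · intro t
    simp only [hB]
    rw [hD.curve.per t]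
  · intro t
    have := hQ1 t
    have h2 := norm_nonneg (1 + conj a * f (γ t))
    simp only [hB]
    linarith
  · intro t ht
    have hc2 : Continuous fun s => ‖1 - conj a * f (γ s)‖ ^ 2 :=
      ((continuous_const.sub hvc).norm).pow 2
    have h1 := hD.int_le hc2 (r₂ := fun s => 2 + (-2) * (conj a * f (γ s)).re)
      (continuous_const.add (continuous_const.mul hvr))
      (fun s => by have := sq_norm_one_sub_le (hv1 s); linarith) ht
    rw [hD.int_affine hvr 2 (-2) ht] at h1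
    refine h1.trans ?_
    have hint : ∫ s in (0 : ℝ)..(2 * π), (conj a * f (γ s)).re * dens γ (γ t) s
        = (conj a * Nn γ (fun s => f (γ s)) t).re := by
      rw [← hD.Nn_re hvc ht, Nn_const_mul]
    rw [hint]
    simp only [hB]
    -- the pointwise inequality
    set n := Nn γ (fun s => f (γ s)) t with hn
    have hn1 : ‖n‖ ≤ 1 := hD.Nn_bound hcf hfγ ht
    rw [hD.Gf_reg hf ht, ← hn, Complex.neg_re]
    set ñ := conj a * n with hñ
    set ũ := conj a * f (γ t) with hũ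
    have hñ1 : ‖ñ‖ ≤ 1 := by
      rw [hñ, norm_mul, Complex.norm_conj, ha1, one_mul]; exact hn1
    have haa : a * conj a = 1 := by
      rw [Complex.mul_conj, Complex.normSq_eq_norm_sq, ha1]; simp
    have e1 : f (γ t) * conj n = ũ * conj ñ := by
      rw [hñ, hũ, map_mul, Complex.conj_conj]
      calc f (γ t) * conj n = (a * conj a) * (f (γ t) * conj n) := by rw [haa, one_mul]
        _ = conj a * f (γ t) * (a * conj n) := by ring
    rw [e1]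
    have e2 : ũ * conj ñ = (1 + ũ) * conj ñ - conj ñ := by ring
    have h3 : -‖1 + ũ‖ ≤ ((1 + ũ) * conj ñ).re := by
      have h4 : |((1 + ũ) * conj ñ).re| ≤ ‖1 + ũ‖ := by
        refine (Complex.abs_re_le_norm _).trans ?_
        rw [norm_mul, Complex.norm_conj]
        exact mul_le_of_le_one_right (norm_nonneg _) hñ1
      exact (abs_le.mp h4).1
    rw [e2, Complex.sub_re, Complex.conj_re]
    linarith
  · have e : ∀ t, B t * dens γ (γ t₀) t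
        = (2 + (-2) * (Gf Ω γ f (γ t)).re) * dens γ (γ t₀) t
          + 2 * (‖1 + conj a * f (γ t)‖ * dens γ (γ t₀) t) := by
      intro t; simp only [hB]; ring
    simp_rw [e]
    have hi1 : IntervalIntegrable (fun t => (2 + (-2) * (Gf Ω γ f (γ t)).re) * dens γ (γ t₀) t)
        volume 0 (2 * π) :=
      weighted_ii hD.curve hd (c := fun t => 2 + (-2) * (Gf Ω γ f (γ t)).re)
        (continuous_const.add (continuous_const.mul hGr)) _ _
    have hi2 : IntervalIntegrable (fun t => 2 * (‖1 + conj a * f (γ t)‖ * dens γ (γ t₀) t))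
        volume 0 (2 * π) :=
      (weighted_ii hD.curve hd hc1 _ _).const_mul _
    rw [intervalIntegral.integral_add hi1 hi2, intervalIntegral.integral_const_mul,
      hD.int_affine hGr 2 (-2) hd, ← hD.Nn_re hcG hd]
    have : (2 : ℝ) * (3 / (2 * 10 ^ 9)) = 3 / 10 ^ 9 := by ring
    have h5 : (2 : ℝ) + -2 * (1 - 3 / 10 ^ 9) + 3 / 10 ^ 9 ≤ 1 / 10 ^ 8 := by norm_num
    linarith

/-- The bound of the cross term at a near critical point. -/
theorem cross_term {f : ℂ → ℂ} (hf : IsA Ω f) (hf1 : ∀ p ∈ closure Ω, ‖f p‖ ≤ 1) {t₀ : ℝ}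
    (hd : DifferentiableAt ℝ γ t₀) (hQ : 1 - 1 / 10 ^ 18 < (Gf Ω γ f (γ t₀)).re) :
    -(Nn γ (fun s => Gf Ω γ f (γ s)) t₀).re - 1 / 10 ^ 18 - 3 / (2 * 10 ^ 9)
      ≤ (f (γ t₀) * conj (Nn γ (fun s => f (γ s) * Gf Ω γ f (γ s)) t₀)).re := by
  obtain ⟨a, ha1, hawe, hw2, hsq, hfirst⟩ := hD.near_critical hf hf1 hd hQ
  have hcf := hD.comp_cont hf
  have hfγ : ∀ s, ‖f (γ s)‖ ≤ 1 := fun s => hf1 _ (hD.mem_closure s)
  have hcG := hD.comp_cont (hD.Gf_isA hf)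
  have hGγ : ∀ s, ‖Gf Ω γ f (γ s)‖ ≤ 1 := fun s => hD.Gf_bound hf hf1 (hD.mem_closure s)
  have hvc : Continuous fun s => conj a * f (γ s) := continuous_const.mul hcf
  have hc1 : Continuous fun s => ‖1 + conj a * f (γ s)‖ := (continuous_const.add hvc).norm
  have haa : a * conj a = 1 := by
    rw [Complex.mul_conj, Complex.normSq_eq_norm_sq, ha1]; simp
  set NG := Nn γ (fun s => Gf Ω γ f (γ s)) t₀ with hNG
  have hNG1 : ‖NG‖ ≤ 1 := hD.Nn_bound hcG hGγ hd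
  set e := Nn γ (fun s => (1 + conj a * f (γ s)) * Gf Ω γ f (γ s)) t₀ with he
  have hce : Continuous fun s => (1 + conj a * f (γ s)) * Gf Ω γ f (γ s) :=
    (continuous_const.add hvc).mul hcG
  have he1 : ‖e‖ ≤ 3 / (2 * 10 ^ 9) := by
    refine (hD.Nn_norm_le hce hc1 ?_ hd).trans hfirst
    intro s
    rw [norm_mul]
    exact mul_le_of_le_one_right (norm_nonneg _) (hGγ s)
  have hdec : Nn γ (fun s => f (γ s) * Gf Ω γ f (γ s)) t₀ = a * (-NG + e) := by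
    have e1 : (fun s => f (γ s) * Gf Ω γ f (γ s))
        = fun s => a * ((-1 : ℂ) * Gf Ω γ f (γ s) + (1 + conj a * f (γ s)) * Gf Ω γ f (γ s)) := by
      funext s
      calc f (γ s) * Gf Ω γ f (γ s) = (a * conj a) * (f (γ s) * Gf Ω γ f (γ s)) := by
            rw [haa, one_mul]
        _ = _ := by ring
    rw [e1, Nn_const_mul, hD.Nn_add (h₁ := fun s => (-1 : ℂ) * Gf Ω γ f (γ s))
      (continuous_const.mul hcG) hce hd, Nn_const_mul]
    ring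
  rw [hdec, map_mul, map_add, map_neg]
  have e2 : f (γ t₀) * (conj a * (-conj NG + conj e))
      = (conj a * f (γ t₀)) * (-conj NG + conj e) := by ring
  rw [e2, hawe, Complex.re_ofReal_mul, Complex.add_re, Complex.neg_re, Complex.conj_re,
    Complex.conj_re]
  set ω := ‖f (γ t₀)‖ with hω
  have hω1 : ω ≤ 1 := hfγ t₀
  have hNr : |NG.re| ≤ 1 := (Complex.abs_re_le_norm _).trans hNG1
  have her : |e.re| ≤ 3 / (2 * 10 ^ 9) := (Complex.abs_re_le_norm _).trans he1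
  rw [abs_le] at hNr her
  have hω0 : 0 ≤ ω := norm_nonneg _
  have h1 : (1 - ω) * NG.re ≥ (1 - ω) * (-1) := mul_le_mul_of_nonneg_left hNr.1 (by linarith)
  have h2 : ω * e.re ≥ ω * (-(3 / (2 * 10 ^ 9))) := mul_le_mul_of_nonneg_left her.1 hω0
  have h3 : ω * (-(3 / (2 * 10 ^ 9))) ≥ 1 * (-(3 / (2 * 10 ^ 9))) :=
    mul_le_mul_of_nonpos_right hω1 (by norm_num)
  nlinarith

lemma zetaF_isA {f : ℂ → ℂ} (hf : IsA Ω f) : IsA Ω (zetaF Ω γ f) :=
  hf.mul ((IsA.const 1).add ((hD.Gf_isA hf).const_mul _))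

lemma kkF_isA {f : ℂ → ℂ} (hf : IsA Ω f) : IsA Ω (kkF Ω γ f) :=
  ((IsA.const 1).add ((hD.Gf_isA hf).const_mul _)).add (IsA.const _)

lemma EE_isA {f : ℂ → ℂ} (hf : IsA Ω f) (K : ℝ) : IsA Ω (EE Ω γ f K) := by
  have h1 : IsA Ω fun z => (K : ℂ) * (1 + (eps : ℂ) * Gf Ω γ f z) :=
    ((IsA.const 1).add ((hD.Gf_isA hf).const_mul _)).const_mul _
  have h2 : IsA Ω fun z => ((1 / K : ℝ) : ℂ) * (f z * alphaE Ω γ (zetaF Ω γ f) z) :=
    (hf.mul (hD.alphaE_isA (hD.zetaF_isA hf))).const_mul _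
  exact ((h1.add h2).sub (hD.kkF_isA hf)).sub (hD.alphaE_isA (hD.kkF_isA hf))

/-- The real part at a regular boundary point. -/
theorem EE_reg {f : ℂ → ℂ} (hf : IsA Ω f) (K : ℝ) {t : ℝ} (ht : DifferentiableAt ℝ γ t) :
    (EE Ω γ f K (γ t)).re = K * (1 + eps * (Gf Ω γ f (γ t)).re)
      + (1 / K) * (-(Gf Ω γ f (γ t)).re
          + eps * (f (γ t) * conj (Nn γ (fun s => f (γ s) * Gf Ω γ f (γ s)) t)).re)
      - (1 + eps * (Gf Ω γ f (γ t)).re + eps ^ 2)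
      - (1 + eps ^ 2 + eps * (Nn γ (fun s => Gf Ω γ f (γ s)) t).re) := by
  have hcf := hD.comp_cont hf
  have hcG := hD.comp_cont (hD.Gf_isA hf)
  have hz : alphaE Ω γ (zetaF Ω γ f) (γ t) = conj (Nn γ (fun s => f (γ s)) t
      + (eps : ℂ) * Nn γ (fun s => f (γ s) * Gf Ω γ f (γ s)) t) := by
    rw [hD.alphaE_reg (hD.zetaF_isA hf) ht]
    congr 1
    have e1 : (fun s => zetaF Ω γ f (γ s))
        = fun s => f (γ s) + (eps : ℂ) * (f (γ s) * Gf Ω γ f (γ s)) := by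
      funext s; unfold zetaF; ring
    rw [e1, hD.Nn_add (h₂ := fun s => (eps : ℂ) * (f (γ s) * Gf Ω γ f (γ s))) hcf
      (continuous_const.mul (hcf.mul hcG)) ht, Nn_const_mul]
  have hk : alphaE Ω γ (kkF Ω γ f) (γ t) = conj (1 + (eps : ℂ) ^ 2
      + (eps : ℂ) * Nn γ (fun s => Gf Ω γ f (γ s)) t) := by
    rw [hD.alphaE_reg (hD.kkF_isA hf) ht]
    congr 1
    have e1 : (fun s => kkF Ω γ f (γ s))
        = fun s => (1 + (eps : ℂ) ^ 2) + (eps : ℂ) * Gf Ω γ f (γ s) := by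
      funext s; unfold kkF; ring
    rw [e1, hD.Nn_add (h₁ := fun _ => 1 + (eps : ℂ) ^ 2)
      (h₂ := fun s => (eps : ℂ) * Gf Ω γ f (γ s)) continuous_const
      (continuous_const.mul hcG) ht, hD.Nn_const _ ht, Nn_const_mul]
  unfold EE
  rw [hz, hk]
  have hG0 : (Gf Ω γ f (γ t)).re = -(f (γ t) * conj (Nn γ (fun s => f (γ s)) t)).re := by
    rw [hD.Gf_reg hf ht, Complex.neg_re]
  have e1 : f (γ t) * conj (Nn γ (fun s => f (γ s)) t
      + (eps : ℂ) * Nn γ (fun s => f (γ s) * Gf Ω γ f (γ s)) t)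
      = f (γ t) * conj (Nn γ (fun s => f (γ s)) t)
        + (eps : ℂ) * (f (γ t) * conj (Nn γ (fun s => f (γ s) * Gf Ω γ f (γ s)) t)) := by
    rw [map_add, map_mul, Complex.conj_ofReal]; ring
  rw [e1]
  have e2 : ((eps : ℂ) ^ 2).re = eps ^ 2 := by
    rw [← Complex.ofReal_pow, Complex.ofReal_re]
  unfold kkF
  simp only [Complex.sub_re, Complex.add_re, Complex.re_ofReal_mul, Complex.one_re, e2,
    Complex.conj_re]
  rw [hG0]
  ring

/-- Bound of the combination on the boundary points which are regular. -/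
theorem EE_reg_lower {f : ℂ → ℂ} (hf : IsA Ω f) (hf1 : ∀ p ∈ closure Ω, ‖f p‖ ≤ 1) {K : ℝ}
    (hK : 1 + Real.sqrt 2 - 1 / 10 ^ 19 ≤ K) {t : ℝ} (ht : DifferentiableAt ℝ γ t) :
    1 / 10 ^ 19 ≤ (EE Ω γ f K (γ t)).re := by
  rw [hD.EE_reg hf K ht]
  have hcf := hD.comp_cont hf
  have hcG := hD.comp_cont (hD.Gf_isA hf)
  have hfγ : ∀ s, ‖f (γ s)‖ ≤ 1 := fun s => hf1 _ (hD.mem_closure s)
  have hGγ : ∀ s, ‖Gf Ω γ f (γ s)‖ ≤ 1 := fun s => hD.Gf_bound hf hf1 (hD.mem_closure s)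
  set Q := (Gf Ω γ f (γ t)).re with hQd
  set NQ := (Nn γ (fun s => Gf Ω γ f (γ s)) t).re with hNd
  set X := (f (γ t) * conj (Nn γ (fun s => f (γ s) * Gf Ω γ f (γ s)) t)).re with hXd
  have hQa : |Q| ≤ 1 := (Complex.abs_re_le_norm _).trans (hGγ t)
  have hNa : |NQ| ≤ 1 :=
    (Complex.abs_re_le_norm _).trans (hD.Nn_bound hcG hGγ ht)
  have hXa : |X| ≤ 1 := by
    refine (Complex.abs_re_le_norm _).trans ?_
    rw [norm_mul, Complex.norm_conj]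
    have h1 : ‖Nn γ (fun s => f (γ s) * Gf Ω γ f (γ s)) t‖ ≤ 1 := by
      apply hD.Nn_bound (h := fun s => f (γ s) * Gf Ω γ f (γ s)) (hcf.mul hcG) _ ht
      intro s
      rw [norm_mul]
      have := hfγ s
      have := hGγ s
      have := norm_nonneg (f (γ s))
      have := norm_nonneg (Gf Ω γ f (γ s))
      nlinarith
    have := hfγ t
    have := norm_nonneg (f (γ t))
    have := norm_nonneg (Nn γ (fun s => f (γ s) * Gf Ω γ f (γ s)) t)
    nlinarith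
  rw [abs_le] at hQa hNa hXa
  by_cases hK3 : 3 ≤ K
  · exact final_arith_large hK3 eps_pos.le eps_le hQa.2 hQa.1 hNa.2 hNa.1 hXa.2 hXa.1
  · push Not at hK3
    have hεe : eps = 1 / (5 * 10 ^ 9) := rfl
    rw [hεe]
    by_cases hQc : Q ≤ 1 - 1 / 10 ^ 18
    · exact final_arith_A hK hK3 hQa.1 hNa.2 hXa.1 hQc
    · push Not at hQc
      exact final_arith_B hK hK3 hQa.2 hQc (hD.main_applied hf hf1 ht hQc)
        (hD.cross_term hf hf1 ht hQc)

/-- The lower bound on the closure. -/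
theorem EE_lower {f : ℂ → ℂ} (hf : IsA Ω f) (hf1 : ∀ p ∈ closure Ω, ‖f p‖ ≤ 1) {K : ℝ}
    (hK : 1 + Real.sqrt 2 - 1 / 10 ^ 19 ≤ K) {z : ℂ} (hz : z ∈ closure Ω) :
    1 / 10 ^ 19 ≤ (EE Ω γ f K z).re := by
  have hE := hD.EE_isA hf K
  have hexp : IsA Ω fun p => Complex.exp (-(EE Ω γ f K p)) :=
    ⟨hE.1.neg.cexp, hE.2.neg.cexp⟩
  have h := hD.norm_le_of_reg hexp (M := Real.exp (-(1 / 10 ^ 19))) (fun t ht => by
    rw [Complex.norm_exp, Complex.neg_re]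
    apply Real.exp_le_exp.mpr
    have := hD.EE_reg_lower hf hf1 hK ht
    linarith) hz
  rw [Complex.norm_exp, Complex.neg_re, Real.exp_le_exp] at h
  linarith

/-- The majorant on the boundary. -/
theorem zeta_le_kk {f : ℂ → ℂ} (hf : IsA Ω f) (hf1 : ∀ p ∈ closure Ω, ‖f p‖ ≤ 1) {z : ℂ}
    (hz : z ∈ closure Ω) : ‖zetaF Ω γ f z‖ ≤ (kkF Ω γ f z).re := by
  unfold zetaF kkF
  have hG := hD.Gf_bound hf hf1 hz
  set G := Gf Ω γ f z with hGd
  have h1 : ‖1 + (eps : ℂ) * G‖ ≤ 1 + eps * G.re + eps ^ 2 := by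
    have hε0 := eps_pos
    have hε1 := eps_le
    have h2 : 0 ≤ 1 + eps * G.re + eps ^ 2 := by
      have h3 : |G.re| ≤ 1 := (Complex.abs_re_le_norm _).trans hG
      rw [abs_le] at h3
      nlinarith
    rw [← abs_of_nonneg h2, ← abs_norm]
    apply sq_le_sq.mp
    have e1 : ‖1 + (eps : ℂ) * G‖ ^ 2 = (1 + eps * G.re) ^ 2 + (eps * G.im) ^ 2 := by
      rw [Complex.sq_norm, Complex.normSq_apply]
      simp only [Complex.add_re, Complex.add_im, Complex.one_re, Complex.one_im,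
        Complex.re_ofReal_mul, Complex.im_ofReal_mul]
      ring
    rw [e1]
    have h3 : G.re ^ 2 + G.im ^ 2 ≤ 1 := by
      have := Complex.sq_norm G
      rw [Complex.normSq_apply] at this
      have h5 := norm_nonneg G
      nlinarith
    have h4 : -1 ≤ G.re := by
      have := (Complex.abs_re_le_norm G).trans hG
      rw [abs_le] at this; exact this.1
    nlinarith [sq_nonneg (eps * G.re), sq_nonneg eps, mul_nonneg hε0.le (by linarith : 0 ≤ 1 + G.re)]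
  have e2 : ((1 + (eps : ℂ) * G + (eps : ℂ) ^ 2)).re = 1 + eps * G.re + eps ^ 2 := by
    have : ((eps : ℂ) ^ 2).re = eps ^ 2 := by rw [← Complex.ofReal_pow, Complex.ofReal_re]
    simp only [Complex.add_re, Complex.one_re, Complex.re_ofReal_mul, this]
  rw [e2, norm_mul]
  have := hf1 z hz
  have h5 := norm_nonneg (1 + (eps : ℂ) * G)
  have h6 := norm_nonneg (f z)
  nlinarith

/-- The size of the extremal combination. -/
theorem EE_norm_le {f : ℂ → ℂ} (hf : IsA Ω f) (hf1 : ∀ p ∈ closure Ω, ‖f p‖ ≤ 1) {K : ℝ}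
    (hK0 : 1 ≤ K) {z : ℂ} (hz : z ∈ closure Ω) : ‖EE Ω γ f K z‖ ≤ 2 * K + 8 := by
  have hε0 := eps_pos
  have hε1 := eps_le
  have hKp : 0 < K := by linarith
  have hG := hD.Gf_bound hf hf1 hz
  have hG2 : ∀ p ∈ closure Ω, ‖1 + (eps : ℂ) * Gf Ω γ f p‖ ≤ 2 := by
    intro p hp
    have h1 : ‖(eps : ℂ) * Gf Ω γ f p‖ ≤ 1 := by
      rw [norm_mul, Complex.norm_real, Real.norm_of_nonneg hε0.le]
      have := hD.Gf_bound hf hf1 hp
      have := norm_nonneg (Gf Ω γ f p)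
      nlinarith
    calc _ ≤ ‖(1 : ℂ)‖ + ‖(eps : ℂ) * Gf Ω γ f p‖ := norm_add_le _ _
      _ ≤ 2 := by rw [norm_one]; linarith
  have hz1 : ∀ p ∈ closure Ω, ‖zetaF Ω γ f p‖ ≤ 2 := by
    intro p hp
    unfold zetaF
    rw [norm_mul]
    have := hf1 p hp
    have := hG2 p hp
    have := norm_nonneg (f p)
    have := norm_nonneg (1 + (eps : ℂ) * Gf Ω γ f p)
    nlinarith
  have hk1 : ∀ p ∈ closure Ω, ‖kkF Ω γ f p‖ ≤ 3 := by
    intro p hp
    unfold kkF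
    have h1 : ‖(eps : ℂ) ^ 2‖ ≤ 1 := by
      rw [norm_pow, Complex.norm_real, Real.norm_of_nonneg hε0.le]
      nlinarith
    calc _ ≤ ‖1 + (eps : ℂ) * Gf Ω γ f p‖ + ‖(eps : ℂ) ^ 2‖ := norm_add_le _ _
      _ ≤ 3 := by linarith [hG2 p hp]
  have h1 := hD.alphaE_bound (hD.zetaF_isA hf) hz1 hz
  have h2 := hD.alphaE_bound (hD.kkF_isA hf) hk1 hz
  unfold EE
  have h3 : ‖(K : ℂ) * (1 + (eps : ℂ) * Gf Ω γ f z)‖ ≤ K * 2 := by
    rw [norm_mul, Complex.norm_real, Real.norm_of_nonneg hKp.le]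
    exact mul_le_mul_of_nonneg_left (hG2 z hz) hKp.le
  have h4 : ‖((1 / K : ℝ) : ℂ) * (f z * alphaE Ω γ (zetaF Ω γ f) z)‖ ≤ 2 := by
    rw [norm_mul, norm_mul, Complex.norm_real, Real.norm_of_nonneg (by positivity)]
    have h5 : 1 / K ≤ 1 := by
      rw [div_le_one hKp]; exact hK0
    have h6 := hf1 z hz
    have h7 : ‖f z‖ * ‖alphaE Ω γ (zetaF Ω γ f) z‖ ≤ 1 * 2 :=
      mul_le_mul h6 h1 (norm_nonneg _) (by norm_num)
    have h8 : 0 ≤ ‖f z‖ * ‖alphaE Ω γ (zetaF Ω γ f) z‖ := by positivity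
    have h9 : 0 ≤ 1 / K := by positivity
    nlinarith
  have h5 := hk1 z hz
  calc _ ≤ ‖(K : ℂ) * (1 + (eps : ℂ) * Gf Ω γ f z)
        + ((1 / K : ℝ) : ℂ) * (f z * alphaE Ω γ (zetaF Ω γ f) z) - kkF Ω γ f z‖
        + ‖alphaE Ω γ (kkF Ω γ f) z‖ := norm_sub_le _ _
    _ ≤ (‖(K : ℂ) * (1 + (eps : ℂ) * Gf Ω γ f z)‖
        + ‖((1 / K : ℝ) : ℂ) * (f z * alphaE Ω γ (zetaF Ω γ f) z)‖ + ‖kkF Ω γ f z‖)
        + ‖alphaE Ω γ (kkF Ω γ f) z‖ := by
      gcongr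
      exact (norm_sub_le _ _).trans (by gcongr; exact norm_add_le _ _)
    _ ≤ 2 * K + 8 := by linarith

end Dom

end Vale.Agent.Lib.P123H99
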