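import Mathlib
import Vale.Agent.Lib.P123H99.Pointwise

/-! The functional calculus of an operator with a basis of eigenvectors. -/

namespace Vale.Agent.Lib.P123H99

open MeasureTheory Set Filter Topology Complex Metric
open scoped Real ComplexConjugate

set_option linter.unusedSectionVars false
set_option linter.unusedSimpArgs false
set_option linter.unusedVariables false
set_option linter.deprecated false

variable {E : Type*} [NormedAddCommGroup E] [InnerProductSpace ℂ E] [FiniteDimensional ℂ E]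
  {ι : Type*} [Fintype ι] [DecidableEq ι]

/-- The functional calculus attached to a basis and a family of eigenvalues. -/
noncomputable def Tc (b : Module.Basis ι ℂ E) (lam : ι → ℂ) (h : ℂ → ℂ) : E →L[ℂ] E :=
  LinearMap.toContinuousLinearMap (b.constr ℂ fun i => h (lam i) • b i)

section Algebra

variable (b : Module.Basis ι ℂ E) (lam : ι → ℂ)

lemma Tc_basis (h : ℂ → ℂ) (i : ι) : Tc b lam h (b i) = h (lam i) • b i := by
  simp [Tc, Module.Basis.constr_basis]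

lemma clm_ext {S₁ S₂ : E →L[ℂ] E} (h : ∀ i, S₁ (b i) = S₂ (b i)) : S₁ = S₂ :=
  ContinuousLinearMap.coe_injective (b.ext h)

lemma Tc_congr {h₁ h₂ : ℂ → ℂ} (h : ∀ i, h₁ (lam i) = h₂ (lam i)) :
    Tc b lam h₁ = Tc b lam h₂ :=
  clm_ext b fun i => by rw [Tc_basis, Tc_basis, h]

lemma Tc_mul (h₁ h₂ : ℂ → ℂ) :
    Tc b lam (fun z => h₁ z * h₂ z) = (Tc b lam h₁).comp (Tc b lam h₂) :=
  clm_ext b fun i => by
    simp only [ContinuousLinearMap.comp_apply, Tc_basis, map_smul, smul_smul]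
    rw [mul_comm]

lemma Tc_add (h₁ h₂ : ℂ → ℂ) :
    Tc b lam (fun z => h₁ z + h₂ z) = Tc b lam h₁ + Tc b lam h₂ :=
  clm_ext b fun i => by
    simp only [ContinuousLinearMap.add_apply, Tc_basis, add_smul]

lemma Tc_sub (h₁ h₂ : ℂ → ℂ) :
    Tc b lam (fun z => h₁ z - h₂ z) = Tc b lam h₁ - Tc b lam h₂ :=
  clm_ext b fun i => by
    simp only [ContinuousLinearMap.sub_apply, Tc_basis, sub_smul]

lemma Tc_const_mul (a : ℂ) (h : ℂ → ℂ) :
    Tc b lam (fun z => a * h z) = a • Tc b lam h :=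
  clm_ext b fun i => by
    simp only [ContinuousLinearMap.smul_apply, Tc_basis, smul_smul]

lemma Tc_const (a : ℂ) : Tc b lam (fun _ => a) = a • ContinuousLinearMap.id ℂ E :=
  clm_ext b fun i => by
    simp only [ContinuousLinearMap.smul_apply, Tc_basis, ContinuousLinearMap.id_apply]

lemma Tc_apply (h : ℂ → ℂ) (x : E) : Tc b lam h x = ∑ i, b.repr x i • h (lam i) • b i := by
  conv_lhs => rw [← b.sum_repr x]
  simp only [map_sum, map_smul, Tc_basis]

lemma inner_Tc_right (h : ℂ → ℂ) (x y : E) :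
    inner ℂ y (Tc b lam h x) = ∑ i, h (lam i) * (b.repr x i * inner ℂ y (b i)) := by
  rw [Tc_apply, inner_sum]
  refine Finset.sum_congr rfl fun i _ => ?_
  rw [inner_smul_right, inner_smul_right]
  ring

lemma inner_Tc_left (h : ℂ → ℂ) (x y : E) :
    inner ℂ (Tc b lam h y) x = ∑ i, conj (h (lam i)) * (conj (b.repr y i) * inner ℂ (b i) x) := by
  rw [Tc_apply, sum_inner]
  refine Finset.sum_congr rfl fun i _ => ?_
  rw [inner_smul_left, inner_smul_left]
  ring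

/-- The operator is the value of the calculus at the identity function. -/
lemma A_eq_Tc {A : E →L[ℂ] E} (hA : ∀ i, A (b i) = lam i • b i) : A = Tc b lam fun z => z :=
  clm_ext b fun i => by rw [hA, Tc_basis]

end Algebra

/-- The operator valued density. -/
noncomputable def Sm (γ : ℝ → ℂ) (b : Module.Basis ι ℂ E) (lam : ι → ℂ) (t : ℝ) (x y : E) : ℂ :=
  (2 * π * I)⁻¹ * (deriv γ t * inner ℂ y (Tc b lam (fun w => (γ t - w)⁻¹) x)
    - conj (deriv γ t) * inner ℂ (Tc b lam (fun w => (γ t - w)⁻¹) y) x)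

section Density

variable {γ : ℝ → ℂ} (b : Module.Basis ι ℂ E) (lam : ι → ℂ)

lemma Sm_expand (t : ℝ) (x y : E) :
    Sm γ b lam t x y = ∑ i, ((2 * π * I)⁻¹ * (deriv γ t / (γ t - lam i))
        * (b.repr x i * inner ℂ y (b i))
      - (2 * π * I)⁻¹ * conj (deriv γ t / (γ t - lam i))
        * (conj (b.repr y i) * inner ℂ (b i) x)) := by
  unfold Sm
  rw [inner_Tc_right, inner_Tc_left, Finset.mul_sum, Finset.mul_sum, ← Finset.sum_sub_distrib,
    Finset.mul_sum]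
  refine Finset.sum_congr rfl fun i _ => ?_
  rw [div_eq_mul_inv, map_mul]
  ring

lemma Sm_add_left (t : ℝ) (x₁ x₂ y : E) :
    Sm γ b lam t (x₁ + x₂) y = Sm γ b lam t x₁ y + Sm γ b lam t x₂ y := by
  unfold Sm
  rw [map_add, inner_add_right, inner_add_right]
  ring

lemma Sm_smul_left (t : ℝ) (a : ℂ) (x y : E) :
    Sm γ b lam t (a • x) y = a * Sm γ b lam t x y := by
  unfold Sm
  rw [map_smul, inner_smul_right, inner_smul_right]
  ring

lemma Sm_conj (t : ℝ) (x y : E) : conj (Sm γ b lam t x y) = Sm γ b lam t y x := by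
  unfold Sm
  have h3 : conj ((2 * π * I : ℂ)⁻¹) = -(2 * π * I : ℂ)⁻¹ := by
    rw [map_inv₀]
    have h2c : conj (2 : ℂ) = 2 := by
      have := Complex.conj_ofReal 2
      simpa using this
    have : conj (2 * π * I : ℂ) = -(2 * π * I) := by
      rw [map_mul, map_mul, h2c, Complex.conj_ofReal, Complex.conj_I]; ring
    rw [this, inv_neg]
  rw [map_mul, h3, map_sub, map_mul, map_mul, Complex.conj_conj, inner_conj_symm, inner_conj_symm]
  ring

lemma Sm_add_right (t : ℝ) (x y₁ y₂ : E) :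
    Sm γ b lam t x (y₁ + y₂) = Sm γ b lam t x y₁ + Sm γ b lam t x y₂ := by
  rw [← Sm_conj, Sm_add_left, map_add, Sm_conj, Sm_conj]

lemma Sm_smul_right (t : ℝ) (a : ℂ) (x y : E) :
    Sm γ b lam t x (a • y) = conj a * Sm γ b lam t x y := by
  rw [← Sm_conj, Sm_smul_left, map_mul, Sm_conj]

end Density

section Main

variable {Ω : Set ℂ} {γ : ℝ → ℂ} {c : ℂ} (hD : Dom Ω γ c) (b : Module.Basis ι ℂ E) {lam : ι → ℂ}
  (hlam : ∀ i, lam i ∈ Ω)

include hD hlam

/-- Integrability of the density against a continuous weight. -/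
lemma Sm_ii {k : ℝ → ℂ} (hk : Continuous k) (x y : E) :
    IntervalIntegrable (fun t => k t * Sm γ b lam t x y) volume 0 (2 * π) := by
  have e : (fun t => k t * Sm γ b lam t x y) = fun t => ∑ i, (k t * ((2 * π * I)⁻¹
      * (deriv γ t / (γ t - lam i)) * (b.repr x i * inner ℂ y (b i)))
      - k t * ((2 * π * I)⁻¹ * conj (deriv γ t / (γ t - lam i))
        * (conj (b.repr y i) * inner ℂ (b i) x))) := by
    funext t
    rw [Sm_expand, Finset.mul_sum]
    refine Finset.sum_congr rfl fun i _ => ?_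
    ring
  rw [e]
  have e2 : (fun t => ∑ i, (k t * ((2 * π * I)⁻¹
      * (deriv γ t / (γ t - lam i)) * (b.repr x i * inner ℂ y (b i)))
      - k t * ((2 * π * I)⁻¹ * conj (deriv γ t / (γ t - lam i))
        * (conj (b.repr y i) * inner ℂ (b i) x))))
      = ∑ i, fun t => (k t * ((2 * π * I)⁻¹
      * (deriv γ t / (γ t - lam i)) * (b.repr x i * inner ℂ y (b i)))
      - k t * ((2 * π * I)⁻¹ * conj (deriv γ t / (γ t - lam i))
        * (conj (b.repr y i) * inner ℂ (b i) x))) := by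
    funext t
    rw [Finset.sum_apply]
  rw [e2]
  apply IntervalIntegrable.sum
  intro i _
  apply IntervalIntegrable.sub
  · have h1 := (hD.quot_ii_in (hlam i) 0 (2 * π)).continuousOn_mul hk.continuousOn
    have h2 := h1.const_mul ((2 * π * I)⁻¹ * (b.repr x i * inner ℂ y (b i)))
    refine h2.congr ?_
    intro t _
    simp only
    ring
  · have h1 := (hD.conj_quot_ii (hlam i) 0 (2 * π)).continuousOn_mul hk.continuousOn
    have h2 := h1.const_mul ((2 * π * I)⁻¹ * (conj (b.repr y i) * inner ℂ (b i) x))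
    refine h2.congr ?_
    intro t _
    simp only
    ring

/-- The conjugate of the transform as an integral. -/
lemma conj_alphaI_eq {k : ℂ → ℂ} (hk : IsA Ω k) {z : ℂ} (hz : z ∈ Ω) :
    conj (alphaI γ k z)
      = -((2 * π * I)⁻¹ * ∫ t in (0 : ℝ)..(2 * π), k (γ t) * conj (deriv γ t / (γ t - z))) := by
  have h2 : conj (∫ t in (0 : ℝ)..(2 * π), conj (k (γ t)) * (deriv γ t / (γ t - z)))
      = ∫ t in (0 : ℝ)..(2 * π), k (γ t) * conj (deriv γ t / (γ t - z)) := by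
    have : ∀ t, k (γ t) * conj (deriv γ t / (γ t - z))
        = conj (conj (k (γ t)) * (deriv γ t / (γ t - z))) := by
      intro t; simp
    simp_rw [this]
    simp only [intervalIntegral]
    rw [integral_conj, integral_conj, map_sub]
  have h3 : conj ((2 * π * I : ℂ)⁻¹) = -(2 * π * I : ℂ)⁻¹ := by
    rw [map_inv₀]
    have h2c : conj (2 : ℂ) = 2 := by
      have := Complex.conj_ofReal 2
      simpa using this
    have : conj (2 * π * I : ℂ) = -(2 * π * I) := by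
      rw [map_mul, map_mul, h2c, Complex.conj_ofReal, Complex.conj_I]; ring
    rw [this, inv_neg]
  unfold alphaI
  rw [map_mul, h2, h3]
  ring

/-- The basic integral formula. -/
theorem int_Sm {ζ : ℂ → ℂ} (hζ : IsA Ω ζ) (x y : E) :
    ∫ t in (0 : ℝ)..(2 * π), ζ (γ t) * Sm γ b lam t x y
      = inner ℂ y (Tc b lam ζ x) + inner ℂ (Tc b lam (alphaE Ω γ ζ) y) x := by
  have hpi := Real.pi_pos
  have hne : (2 * π * I : ℂ) ≠ 0 := by simp [hpi.ne']
  have hcγ := hD.comp_cont hζ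
  have e : (fun t => ζ (γ t) * Sm γ b lam t x y) = fun t => ∑ i,
      (((2 * π * I)⁻¹ * (b.repr x i * inner ℂ y (b i))) * (ζ (γ t) * (deriv γ t / (γ t - lam i)))
      - ((2 * π * I)⁻¹ * (conj (b.repr y i) * inner ℂ (b i) x))
        * (ζ (γ t) * conj (deriv γ t / (γ t - lam i)))) := by
    funext t
    rw [Sm_expand, Finset.mul_sum]
    refine Finset.sum_congr rfl fun i _ => ?_
    ring
  rw [e, intervalIntegral.integral_finset_sum]
  · rw [inner_Tc_right, inner_Tc_left, ← Finset.sum_add_distrib]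
    refine Finset.sum_congr rfl fun i _ => ?_
    have hi1 : IntervalIntegrable (fun t => ζ (γ t) * (deriv γ t / (γ t - lam i))) volume 0 (2 * π) :=
      (hD.quot_ii_in (hlam i) _ _).continuousOn_mul hcγ.continuousOn
    have hi2 : IntervalIntegrable (fun t => ζ (γ t) * conj (deriv γ t / (γ t - lam i))) volume 0
        (2 * π) := (hD.conj_quot_ii (hlam i) _ _).continuousOn_mul hcγ.continuousOn
    rw [intervalIntegral.integral_sub (hi1.const_mul _) (hi2.const_mul _),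
      intervalIntegral.integral_const_mul, intervalIntegral.integral_const_mul,
      hD.cauchy hζ (hlam i), hD.alphaE_eq hζ (hlam i), conj_alphaI_eq hD hlam hζ (hlam i)]
    field_simp
    ring
  · intro i _
    have hi1 : IntervalIntegrable (fun t => ζ (γ t) * (deriv γ t / (γ t - lam i))) volume 0 (2 * π) :=
      (hD.quot_ii_in (hlam i) _ _).continuousOn_mul hcγ.continuousOn
    have hi2 : IntervalIntegrable (fun t => ζ (γ t) * conj (deriv γ t / (γ t - lam i))) volume 0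
        (2 * π) := (hD.conj_quot_ii (hlam i) _ _).continuousOn_mul hcγ.continuousOn
    exact (hi1.const_mul _).sub (hi2.const_mul _)

/-- Points of the closure from the values of the numerical range. -/
lemma range_mem {A : E →L[ℂ] E} (hW : ∀ v : E, ‖v‖ = 1 → inner ℂ v (A v) ∈ closure Ω) {w : E}
    (hw : w ≠ 0) : inner ℂ w (A w) / ((‖w‖ ^ 2 : ℝ) : ℂ) ∈ closure Ω := by
  have hn : ‖w‖ ≠ 0 := norm_ne_zero_iff.mpr hw
  have hnc : (‖w‖ : ℂ) ≠ 0 := by exact_mod_cast hn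
  have hv : ‖((‖w‖ : ℂ)⁻¹) • w‖ = 1 := by
    rw [norm_smul, norm_inv, Complex.norm_real, norm_norm, inv_mul_cancel₀ hn]
  have h := hW _ hv
  rw [map_smul, inner_smul_left, inner_smul_right, map_inv₀, Complex.conj_ofReal] at h
  convert h using 1
  push_cast
  field_simp

/-- The resolvent identity. -/
lemma resolvent_eq {A : E →L[ℂ] E} (hA : ∀ i, A (b i) = lam i • b i) (t : ℝ) (x : E) :
    (γ t) • Tc b lam (fun w => (γ t - w)⁻¹) x - A (Tc b lam (fun w => (γ t - w)⁻¹) x) = x := by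
  have hne : ∀ i, γ t - lam i ≠ 0 := fun i => sub_ne_zero.mpr (hD.disjoint_fr (hlam i) t)
  have h1 : Tc b lam (fun z => (γ t - z) * (γ t - z)⁻¹) = ContinuousLinearMap.id ℂ E := by
    have h2 : Tc b lam (fun z => (γ t - z) * (γ t - z)⁻¹) = Tc b lam (fun _ => (1 : ℂ)) :=
      Tc_congr b lam fun i => mul_inv_cancel₀ (hne i)
    rw [h2, Tc_const, one_smul]
  have h3 : Tc b lam (fun z => γ t - z) = (γ t) • ContinuousLinearMap.id ℂ E - A := by
    rw [Tc_sub, Tc_const, ← A_eq_Tc b lam hA]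
  have h4 := congrArg (fun S : E →L[ℂ] E => S x) h1
  simp only [Tc_mul, ContinuousLinearMap.comp_apply, ContinuousLinearMap.id_apply, h3,
    ContinuousLinearMap.sub_apply, ContinuousLinearMap.smul_apply] at h4
  exact h4

/-- Positivity of the density at a regular parameter. -/
theorem Sm_self {A : E →L[ℂ] E} (hA : ∀ i, A (b i) = lam i • b i)
    (hW : ∀ v : E, ‖v‖ = 1 → inner ℂ v (A v) ∈ closure Ω) {t : ℝ} (hd : DifferentiableAt ℝ γ t)
    (x : E) : (Sm γ b lam t x x).im = 0 ∧ 0 ≤ (Sm γ b lam t x x).re := by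
  have hpi := Real.pi_pos
  set w := Tc b lam (fun z => (γ t - z)⁻¹) x with hw
  have hres : (γ t) • w - A w = x := resolvent_eq hD b hlam hA t x
  have hpiC : (π : ℂ) ≠ 0 := by exact_mod_cast hpi.ne'
  set q := deriv γ t * inner ℂ x w with hq
  have e1 : Sm γ b lam t x x = ((q.im / π : ℝ) : ℂ) := by
    unfold Sm
    rw [← hw]
    have h1 : conj (deriv γ t) * inner ℂ w x = conj q := by
      rw [hq, map_mul, inner_conj_symm]
    rw [h1, Complex.sub_conj]
    push_cast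
    field_simp
    rw [hq]
  rw [e1, Complex.ofReal_im, Complex.ofReal_re]
  refine ⟨rfl, ?_⟩
  apply div_nonneg _ hpi.le
  by_cases hw0 : w = 0
  · rw [hq, hw0, inner_zero_right, mul_zero]; simp
  have hn : ‖w‖ ≠ 0 := norm_ne_zero_iff.mpr hw0
  have hnc : ((‖w‖ ^ 2 : ℝ) : ℂ) ≠ 0 := by
    have : ‖w‖ ^ 2 ≠ 0 := pow_ne_zero _ hn
    exact_mod_cast this
  set p := inner ℂ w (A w) / ((‖w‖ ^ 2 : ℝ) : ℂ) with hp
  have hpmem : p ∈ closure Ω := range_mem hD hlam hW hw0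
  have htang := hD.support t hd p hpmem
  have hAw : inner ℂ w (A w) = p * ((‖w‖ ^ 2 : ℝ) : ℂ) := by
    rw [hp]; field_simp
  have e2 : inner ℂ x w = ((‖w‖ ^ 2 : ℝ) : ℂ) * conj (γ t - p) := by
    rw [← hres, inner_sub_left, inner_smul_left, inner_self_eq_norm_sq_to_K, ← inner_conj_symm (A w) w,
      hAw, map_sub, map_mul, Complex.conj_ofReal]
    push_cast
    simp only [Complex.coe_algebraMap]
    ring
  have e3 : q = ((‖w‖ ^ 2 : ℝ) : ℂ) * (deriv γ t * conj (γ t - p)) := by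
    rw [hq, e2]; ring
  rw [e3, Complex.im_ofReal_mul]
  apply mul_nonneg (by positivity)
  have e4 : (deriv γ t * conj (γ t - p)).im = tang γ t p := by
    unfold tang
    have : conj (deriv γ t) * (p - γ t) = -conj (deriv γ t * conj (γ t - p)) := by
      rw [map_mul, Complex.conj_conj]; ring
    rw [this, Complex.neg_im, Complex.conj_im, neg_neg]
  rw [e4]
  exact htang

/-- The Cauchy Schwarz inequality for the density. -/
theorem Sm_cs {A : E →L[ℂ] E} (hA : ∀ i, A (b i) = lam i • b i)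
    (hW : ∀ v : E, ‖v‖ = 1 → inner ℂ v (A v) ∈ closure Ω) {t : ℝ} (hd : DifferentiableAt ℝ γ t)
    (x y : E) {ω : ℂ} (hω : ‖ω‖ = 1) :
    2 * (conj ω * Sm γ b lam t x y).re ≤ (Sm γ b lam t x x).re + (Sm γ b lam t y y).re := by
  have h := (Sm_self hD b hlam hA hW hd (x + (-ω) • y)).2
  have hωω : (-ω) * conj (-ω) = 1 := by
    rw [Complex.mul_conj, Complex.normSq_eq_norm_sq, norm_neg, hω]; simp
  have e : Sm γ b lam t (x + (-ω) • y) (x + (-ω) • y)
      = Sm γ b lam t x x - conj ω * Sm γ b lam t x y - conj (conj ω * Sm γ b lam t x y)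
        + Sm γ b lam t y y := by
    rw [Sm_add_left, Sm_add_right, Sm_add_right, Sm_smul_left, Sm_smul_right, Sm_smul_left,
      Sm_smul_right, ← mul_assoc, hωω, ← Sm_conj b lam t x y, map_mul, Complex.conj_conj, map_neg]
    ring
  rw [e] at h
  simp only [Complex.add_re, Complex.sub_re, Complex.conj_re] at h
  linarith

/-- The bound of a product by the diagonal of the density. -/
theorem Sm_bound {A : E →L[ℂ] E} (hA : ∀ i, A (b i) = lam i • b i)
    (hW : ∀ v : E, ‖v‖ = 1 → inner ℂ v (A v) ∈ closure Ω) {t : ℝ} (hd : DifferentiableAt ℝ γ t)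
    (x y : E) {u : ℂ} {ρ : ℝ} (hu : ‖u‖ ≤ ρ) :
    2 * (u * Sm γ b lam t x y).re ≤ ρ * ((Sm γ b lam t x x).re + (Sm γ b lam t y y).re) := by
  have hsum : 0 ≤ (Sm γ b lam t x x).re + (Sm γ b lam t y y).re :=
    add_nonneg (Sm_self hD b hlam hA hW hd x).2 (Sm_self hD b hlam hA hW hd y).2
  by_cases hu0 : u = 0
  · rw [hu0, zero_mul, Complex.zero_re, mul_zero]
    have hρ : 0 ≤ ρ := (norm_nonneg _).trans hu
    exact mul_nonneg hρ hsum
  have hn : ‖u‖ ≠ 0 := norm_ne_zero_iff.mpr hu0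
  have hnc : (‖u‖ : ℂ) ≠ 0 := by exact_mod_cast hn
  set ω : ℂ := conj u / (‖u‖ : ℂ) with hωd
  have hω : ‖ω‖ = 1 := by
    rw [hωd, norm_div, Complex.norm_conj, Complex.norm_real, norm_norm, div_self hn]
  have h := Sm_cs hD b hlam hA hW hd x y hω
  have e : u * Sm γ b lam t x y = (‖u‖ : ℂ) * (conj ω * Sm γ b lam t x y) := by
    rw [hωd, map_div₀, Complex.conj_conj, Complex.conj_ofReal]
    field_simp
  rw [e, Complex.re_ofReal_mul]
  have h2 : ‖u‖ * (2 * (conj ω * Sm γ b lam t x y).re)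
      ≤ ‖u‖ * ((Sm γ b lam t x x).re + (Sm γ b lam t y y).re) :=
    mul_le_mul_of_nonneg_left h (norm_nonneg _)
  have h3 : ‖u‖ * ((Sm γ b lam t x x).re + (Sm γ b lam t y y).re)
      ≤ ρ * ((Sm γ b lam t x x).re + (Sm γ b lam t y y).re) :=
    mul_le_mul_of_nonneg_right hu hsum
  linarith

/-- The key inequality for the calculus. -/
theorem key_ineq {A : E →L[ℂ] E} (hA : ∀ i, A (b i) = lam i • b i)
    (hW : ∀ v : E, ‖v‖ = 1 → inner ℂ v (A v) ∈ closure Ω) {ζ kk : ℂ → ℂ} (hζ : IsA Ω ζ)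
    (hk : IsA Ω kk) (hle : ∀ p ∈ closure Ω, ‖ζ p‖ ≤ (kk p).re) (x y : E) :
    2 * (inner ℂ y (Tc b lam ζ x) + inner ℂ (Tc b lam (alphaE Ω γ ζ) y) x).re
      ≤ (inner ℂ x (Tc b lam kk x) + inner ℂ (Tc b lam (alphaE Ω γ kk) x) x).re
        + (inner ℂ y (Tc b lam kk y) + inner ℂ (Tc b lam (alphaE Ω γ kk) y) y).re := by
  have hpi := Real.pi_pos
  rw [← int_Sm hD b hlam hζ x y, ← int_Sm hD b hlam hk x x, ← int_Sm hD b hlam hk y y]
  have hcζ := hD.comp_cont hζ
  have hck := hD.comp_cont hk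
  have i1 := Sm_ii hD b hlam hcζ x y
  have i2 := Sm_ii hD b hlam hck x x
  have i3 := Sm_ii hD b hlam hck y y
  have hre : ∀ {F : ℝ → ℂ}, IntervalIntegrable F volume 0 (2 * π) →
      (∫ t in (0 : ℝ)..(2 * π), F t).re = ∫ t in (0 : ℝ)..(2 * π), (F t).re := by
    intro F hF
    have h1 := Complex.reCLM.intervalIntegral_comp_comm hF
    simp only [Complex.reCLM_apply] at h1
    exact h1.symm
  have hreI : ∀ {F : ℝ → ℂ}, IntervalIntegrable F volume 0 (2 * π) →
      IntervalIntegrable (fun t => (F t).re) volume 0 (2 * π) := by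
    intro F hF
    exact ⟨hF.1.re, hF.2.re⟩
  rw [hre i1, hre i2, hre i3, ← intervalIntegral.integral_const_mul,
    ← intervalIntegral.integral_add (hreI i2) (hreI i3)]
  apply intervalIntegral.integral_mono_ae_restrict (by positivity) ((hreI i1).const_mul 2)
    ((hreI i2).add (hreI i3))
  apply ae_restrict_of_ae
  filter_upwards [hD.curve.ae_diff] with t ht
  have h1 := Sm_bound hD b hlam hA hW ht x y (hle _ (hD.mem_closure t))
  have h2 := (Sm_self hD b hlam hA hW ht x).1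
  have h3 := (Sm_self hD b hlam hA hW ht y).1
  simp only [Complex.mul_re, h2, h3] at h1 ⊢
  simp only [mul_zero, sub_zero]
  linarith

end Main

/-- The relation at a maximising vector. -/
lemma extremal_rel (S : E →L[ℂ] E) {x : E} (hx : ‖x‖ = 1) (hSx : ‖S x‖ = ‖S‖) (w : E) :
    inner ℂ (S x) (S w) = ((‖S‖ ^ 2 : ℝ) : ℂ) * inner ℂ x w := by
  have : CompleteSpace E := FiniteDimensional.complete ℂ E
  set S' := ContinuousLinearMap.adjoint S with hS'
  have hadj : ∀ u v, inner ℂ (S' u) v = inner ℂ u (S v) := fun u v =>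
    ContinuousLinearMap.adjoint_inner_left S v u
  have hnorm : ‖S' (S x)‖ ≤ ‖S‖ * ‖S‖ := by
    have h1 := S'.le_opNorm (S x)
    rw [hSx] at h1
    have h2 : ‖S'‖ = ‖S‖ := by
      rw [hS']; exact LinearIsometryEquiv.norm_map _ _
    rwa [h2] at h1
  have hmain : S' (S x) = ((‖S‖ ^ 2 : ℝ) : ℂ) • x := by
    have hin : inner ℂ (S x) (S x) = ((‖S‖ ^ 2 : ℝ) : ℂ) := by
      rw [inner_self_eq_norm_sq_to_K, hSx]
      push_cast
      rfl
    have h0 : ‖S' (S x) - ((‖S‖ ^ 2 : ℝ) : ℂ) • x‖ ^ 2 ≤ 0 := by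
      rw [@norm_sub_sq ℂ E _ _ _ (S' (S x)) (((‖S‖ ^ 2 : ℝ) : ℂ) • x), inner_smul_right, hadj,
        hin, norm_smul, hx, mul_one, Complex.norm_real,
        Real.norm_of_nonneg (by positivity)]
      have e : RCLike.re (((‖S‖ ^ 2 : ℝ) : ℂ) * ((‖S‖ ^ 2 : ℝ) : ℂ)) = ‖S‖ ^ 4 := by
        have hre : ∀ r : ℝ, RCLike.re ((r : ℝ) : ℂ) = r := fun r => Complex.ofReal_re r
        rw [← Complex.ofReal_mul, hre]
        ring
      rw [e]
      have h3 : ‖S' (S x)‖ ^ 2 ≤ (‖S‖ * ‖S‖) ^ 2 :=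
        pow_le_pow_left₀ (norm_nonneg _) hnorm 2
      nlinarith
    have h1 : ‖S' (S x) - ((‖S‖ ^ 2 : ℝ) : ℂ) • x‖ = 0 := by
      have := norm_nonneg (S' (S x) - ((‖S‖ ^ 2 : ℝ) : ℂ) • x)
      nlinarith
    exact sub_eq_zero.mp (norm_eq_zero.mp h1)
  rw [← hadj, hmain, inner_smul_left, Complex.conj_ofReal]

/-- A maximising unit vector exists for a nonzero operator. -/
lemma exists_extremal (S : E →L[ℂ] E) (hS : 0 < ‖S‖) : ∃ x : E, ‖x‖ = 1 ∧ ‖S x‖ = ‖S‖ := by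
  have : ProperSpace E := FiniteDimensional.proper ℂ E
  have : Nontrivial E := by
    by_contra hn
    rw [not_nontrivial_iff_subsingleton] at hn
    have : S = 0 := by
      ext x
      rw [Subsingleton.elim x 0]; simp
    rw [this, norm_zero] at hS
    exact lt_irrefl _ hS
  have hcomp : IsCompact (sphere (0 : E) 1) := isCompact_sphere _ _
  have hne : (sphere (0 : E) 1).Nonempty := NormedSpace.sphere_nonempty.mpr zero_le_one
  obtain ⟨x, hx, hmax⟩ := hcomp.exists_isMaxOn hne (f := fun v => ‖S v‖)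
    (S.continuous.norm.continuousOn)
  have hx1 : ‖x‖ = 1 := by simpa using hx
  refine ⟨x, hx1, le_antisymm ?_ ?_⟩
  · have := S.le_opNorm x
    rwa [hx1, mul_one] at this
  · apply ContinuousLinearMap.opNorm_le_of_unit_norm (norm_nonneg _)
    intro v hv
    exact hmax (by simpa using hv)

section Bound

variable {Ω : Set ℂ} {γ : ℝ → ℂ} {c : ℂ} (hD : Dom Ω γ c) (b : Module.Basis ι ℂ E) {lam : ι → ℂ}
  (hlam : ∀ i, lam i ∈ Ω)

/-- Uniform bound of the calculus. -/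
lemma Tc_le_const (hlam : ∀ i, lam i ∈ Ω) : ∃ C : ℝ, 0 ≤ C ∧ ∀ h : ℂ → ℂ,
    (∀ p ∈ closure Ω, ‖h p‖ ≤ 1) → ‖Tc b lam h‖ ≤ C := by
  set co : ι → (E →L[ℂ] ℂ) := fun i => LinearMap.toContinuousLinearMap (b.coord i) with hco
  have hcoe : ∀ i x, co i x = b.repr x i := fun i x => by
    simp [hco, Module.Basis.coord_apply]
  refine ⟨∑ i, ‖co i‖ * ‖b i‖, Finset.sum_nonneg fun i _ => by positivity, ?_⟩
  intro h hh
  apply ContinuousLinearMap.opNorm_le_bound _ (Finset.sum_nonneg fun i _ => by positivity)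
  intro x
  rw [Tc_apply, Finset.sum_mul]
  refine (norm_sum_le _ _).trans (Finset.sum_le_sum fun i _ => ?_)
  rw [norm_smul, norm_smul]
  have h1 : ‖b.repr x i‖ ≤ ‖co i‖ * ‖x‖ := by
    rw [← hcoe]; exact (co i).le_opNorm x
  have h2 : ‖h (lam i)‖ ≤ 1 := hh _ (subset_closure (hlam i))
  calc ‖b.repr x i‖ * (‖h (lam i)‖ * ‖b i‖) ≤ (‖co i‖ * ‖x‖) * (1 * ‖b i‖) := by gcongr
    _ = ‖co i‖ * ‖b i‖ * ‖x‖ := by ring

/-- The values of the calculus on the unit ball of the class. -/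
def normSet (Ω : Set ℂ) (b : Module.Basis ι ℂ E) (lam : ι → ℂ) : Set ℝ :=
  {r | ∃ h : ℂ → ℂ, IsA Ω h ∧ (∀ p ∈ closure Ω, ‖h p‖ ≤ 1) ∧ r = ‖Tc b lam h‖}

/-- Commutation in the calculus. -/
lemma Tc_comm (h f : ℂ → ℂ) (w : E) :
    Tc b lam h (Tc b lam f w) = Tc b lam f (Tc b lam h w) := by
  have h1 := Tc_mul b lam h f
  have h2 := Tc_mul b lam f h
  have h3 : (fun z => h z * f z) = fun z => f z * h z := by funext z; ring
  rw [h3, h2] at h1
  have := congrArg (fun S : E →L[ℂ] E => S w) h1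
  simpa using this.symm

/-- The extremal pair of vectors. -/
lemma extremal_pair (f : ℂ → ℂ) (hK : 0 < ‖Tc b lam f‖) :
    ∃ x y : E, ‖x‖ = 1 ∧ ‖y‖ = 1 ∧ y = ((‖Tc b lam f‖⁻¹ : ℝ) : ℂ) • Tc b lam f x ∧
      ∀ w, inner ℂ y (Tc b lam f w) = (‖Tc b lam f‖ : ℂ) * inner ℂ x w := by
  obtain ⟨x, hx, hSx⟩ := exists_extremal (Tc b lam f) hK
  have hKc : (‖Tc b lam f‖ : ℂ) ≠ 0 := by exact_mod_cast hK.ne'
  refine ⟨x, _, hx, ?_, rfl, ?_⟩
  · rw [norm_smul, Complex.norm_real, Real.norm_of_nonneg (by positivity), hSx,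
      inv_mul_cancel₀ hK.ne']
  · intro w
    rw [inner_smul_left, extremal_rel _ hx hSx, Complex.conj_ofReal]
    push_cast
    field_simp

/-- The second vector represents the same functional. -/
lemma extremal_same (f : ℂ → ℂ) (hK : 0 < ‖Tc b lam f‖) {x y : E}
    (hy : y = ((‖Tc b lam f‖⁻¹ : ℝ) : ℂ) • Tc b lam f x)
    (hR : ∀ w, inner ℂ y (Tc b lam f w) = (‖Tc b lam f‖ : ℂ) * inner ℂ x w) (h : ℂ → ℂ) :
    inner ℂ y (Tc b lam h y) = inner ℂ x (Tc b lam h x) := by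
  have hKc : (‖Tc b lam f‖ : ℂ) ≠ 0 := by exact_mod_cast hK.ne'
  have e1 : Tc b lam h y = ((‖Tc b lam f‖⁻¹ : ℝ) : ℂ) • Tc b lam f (Tc b lam h x) := by
    rw [hy, map_smul, Tc_comm]
  rw [e1, inner_smul_right, hR]
  push_cast
  field_simp

include hD hlam

/-- The extremal combination has nonpositive real part on the extremal vectors. -/
theorem EE_functional {A : E →L[ℂ] E} (hA : ∀ i, A (b i) = lam i • b i)
    (hW : ∀ v : E, ‖v‖ = 1 → inner ℂ v (A v) ∈ closure Ω) {f : ℂ → ℂ} (hf : IsA Ω f)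
    (hf1 : ∀ p ∈ closure Ω, ‖f p‖ ≤ 1) (hK : 0 < ‖Tc b lam f‖) {x y : E}
    (hy : y = ((‖Tc b lam f‖⁻¹ : ℝ) : ℂ) • Tc b lam f x)
    (hR : ∀ w, inner ℂ y (Tc b lam f w) = (‖Tc b lam f‖ : ℂ) * inner ℂ x w) :
    (inner ℂ x (Tc b lam (EE Ω γ f ‖Tc b lam f‖) x)).re ≤ 0 := by
  have hζ := hD.zetaF_isA hf
  have hkk := hD.kkF_isA hf
  have hkey := key_ineq hD b hlam hA hW hζ hkk (fun p hp => hD.zeta_le_kk hf hf1 hp) x y
  set K := ‖Tc b lam f‖ with hKd
  set φ : (ℂ → ℂ) → ℂ := fun h => inner ℂ x (Tc b lam h x) with hφ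
  have hP1 : ∀ h, inner ℂ y (Tc b lam h y) = φ h := fun h => extremal_same b f hK hy hR h
  set αζ := alphaE Ω γ (zetaF Ω γ f) with hαζ
  set αk := alphaE Ω γ (kkF Ω γ f) with hαk
  set g1 : ℂ → ℂ := fun z => 1 + (eps : ℂ) * Gf Ω γ f z with hg1
  have e1 : inner ℂ y (Tc b lam (zetaF Ω γ f) x) = (K : ℂ) * φ g1 := by
    have : zetaF Ω γ f = fun z => f z * g1 z := rfl
    rw [this, Tc_mul, ContinuousLinearMap.comp_apply, hR]
  have e2 : (inner ℂ (Tc b lam αζ y) x).re = (1 / K) * (φ fun z => f z * αζ z).re := by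
    rw [← inner_conj_symm, Complex.conj_re]
    have e3 : Tc b lam αζ y = ((K⁻¹ : ℝ) : ℂ) • Tc b lam (fun z => f z * αζ z) x := by
      rw [hy, map_smul, Tc_comm, Tc_mul, ContinuousLinearMap.comp_apply]
    rw [e3, inner_smul_right, Complex.re_ofReal_mul, one_div]
  have e4 : ∀ h, (inner ℂ (Tc b lam h x) x).re = (φ h).re := by
    intro h
    rw [← inner_conj_symm, Complex.conj_re]
  have e5 : ∀ h, (inner ℂ (Tc b lam h y) y).re = (φ h).re := by
    intro h
    rw [← inner_conj_symm, Complex.conj_re, hP1]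
  simp only [Complex.add_re] at hkey
  have hxk : inner ℂ x (Tc b lam (kkF Ω γ f) x) = φ (kkF Ω γ f) := rfl
  rw [e1, e2, e4, e5, hP1, hxk] at hkey
  have hEEφ : φ (EE Ω γ f K) = (K : ℂ) * φ g1 + ((1 / K : ℝ) : ℂ) * φ (fun z => f z * αζ z)
      - φ (kkF Ω γ f) - φ αk := by
    have : EE Ω γ f K = fun z => (fun z => (fun z => (fun z => (K : ℂ) * g1 z) z
        + (fun z => ((1 / K : ℝ) : ℂ) * (f z * αζ z)) z) z - kkF Ω γ f z) z - αk z := rfl
    simp only [hφ]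
    rw [this, Tc_sub, Tc_sub, Tc_add, Tc_const_mul, Tc_const_mul]
    simp only [ContinuousLinearMap.sub_apply, ContinuousLinearMap.add_apply,
      ContinuousLinearMap.smul_apply, inner_sub_right, inner_add_right, inner_smul_right]
  change (φ (EE Ω γ f K)).re ≤ 0
  rw [hEEφ]
  simp only [Complex.add_re, Complex.sub_re, Complex.re_ofReal_mul] at hkey ⊢
  linarith

omit hD hlam in
/-- Real constants for the contradiction. -/
lemma exists_constants (Kst : ℝ) (hKp : 0 < Kst) {c₂ : ℝ} (hc₂0 : 0 < c₂) :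
    ∃ R M₂ r : ℝ, 0 < R ∧ 0 < M₂ ∧ 1 < r ∧ M₂ ^ 2 = R ^ 2 + (2 * Kst + 9) ^ 2 ∧
      r * M₂ = R + c₂ := by
  set M₁ : ℝ := 2 * Kst + 9 with hM₁
  have hM₁0 : 0 < M₁ := by rw [hM₁]; linarith
  set R : ℝ := M₁ ^ 2 / c₂ + 1 with hR
  have hR0 : 0 < R := by rw [hR]; positivity
  have hRc : M₁ ^ 2 < R * c₂ := by
    rw [hR, add_mul, div_mul_cancel₀ _ hc₂0.ne']; linarith
  set M₂ : ℝ := Real.sqrt (R ^ 2 + M₁ ^ 2) with hM₂
  have hM₂0 : 0 < M₂ := Real.sqrt_pos.mpr (by positivity)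
  have hM₂s : M₂ ^ 2 = R ^ 2 + M₁ ^ 2 := Real.sq_sqrt (by positivity)
  have hr1 : M₂ < R + c₂ := by
    apply lt_of_pow_lt_pow_left₀ 2 (by positivity)
    rw [hM₂s]
    nlinarith
  refine ⟨R, M₂, (R + c₂) / M₂, hR0, hM₂0, ?_, hM₂s, ?_⟩
  · rw [one_lt_div hM₂0]; exact hr1
  · field_simp

omit hD hlam in
lemma norm_sub_le_const {R M₁ M₂ : ℝ} {u : ℂ} (hR0 : 0 < R) (hure : 0 ≤ u.re) (hun : ‖u‖ ≤ M₁)
    (hM₂s : M₂ ^ 2 = R ^ 2 + M₁ ^ 2) (hM₂0 : 0 ≤ M₂) : ‖(R : ℂ) - u‖ ≤ M₂ := by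
  apply (pow_le_pow_iff_left₀ (norm_nonneg _) hM₂0 two_ne_zero).mp
  rw [hM₂s, Complex.sq_norm, Complex.normSq_apply]
  have h4 : ‖u‖ ^ 2 = u.re * u.re + u.im * u.im := by
    rw [Complex.sq_norm, Complex.normSq_apply]
  have h5 : ‖u‖ ^ 2 ≤ M₁ ^ 2 := pow_le_pow_left₀ (norm_nonneg _) hun 2
  simp only [Complex.sub_re, Complex.sub_im, Complex.ofReal_re, Complex.ofReal_im]
  have h6 := mul_nonneg hR0.le hure
  nlinarith

/-- The main theorem for the calculus. -/
theorem calc_bound {A : E →L[ℂ] E} (hA : ∀ i, A (b i) = lam i • b i)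
    (hW : ∀ v : E, ‖v‖ = 1 → inner ℂ v (A v) ∈ closure Ω) {h₀ : ℂ → ℂ} (hh₀ : IsA Ω h₀)
    (hh₀1 : ∀ p ∈ closure Ω, ‖h₀ p‖ ≤ 1) :
    ‖Tc b lam h₀‖ ≤ 1 + Real.sqrt 2 - 1 / 10 ^ 19 := by
  by_contra hcon
  push Not at hcon
  set C₀ : ℝ := 1 + Real.sqrt 2 - 1 / 10 ^ 19 with hC₀
  have hC₀1 : 1 ≤ C₀ := by
    have hs : (1 : ℝ) < Real.sqrt 2 := by
      rw [Real.lt_sqrt (by norm_num)]; norm_num
    have h2 : (1 : ℝ) / 10 ^ 19 ≤ 1 := by norm_num
    rw [hC₀]; linarith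
  set S := normSet Ω b lam with hS
  obtain ⟨C, hC0, hC⟩ := Tc_le_const b hlam
  have hbdd : BddAbove S := ⟨C, by
    rintro r ⟨h, _, h1, rfl⟩
    exact hC h h1⟩
  have hmem : ‖Tc b lam h₀‖ ∈ S := ⟨h₀, hh₀, hh₀1, rfl⟩
  set Kst := sSup S with hKst
  have hle : ∀ r ∈ S, r ≤ Kst := fun r hr => le_csSup hbdd hr
  have hKC : C₀ < Kst := hcon.trans_le (hle _ hmem)
  have hKp : 0 < Kst := by linarith
  -- scaling
  have hscale : ∀ {h : ℂ → ℂ} {M : ℝ}, IsA Ω h → 0 < M → (∀ p ∈ closure Ω, ‖h p‖ ≤ M) →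
      ‖Tc b lam h‖ ≤ M * Kst := by
    intro h M hh hM hb
    have hI : IsA Ω fun z => ((M⁻¹ : ℝ) : ℂ) * h z := hh.const_mul _
    have h1 : ∀ p ∈ closure Ω, ‖((M⁻¹ : ℝ) : ℂ) * h p‖ ≤ 1 := by
      intro p hp
      rw [norm_mul, Complex.norm_real, Real.norm_of_nonneg (by positivity), inv_mul_le_iff₀ hM]
      simpa using hb p hp
    have h2 := hle _ ⟨_, hI, h1, rfl⟩
    rw [Tc_const_mul, norm_smul, Complex.norm_real, Real.norm_of_nonneg (by positivity),
      inv_mul_le_iff₀ hM] at h2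
    exact h2
  -- constants
  have hc₂0 : (0 : ℝ) < 1 / 10 ^ 19 := by norm_num
  obtain ⟨R, M₂, r, hR0, hM₂0, hr1, hM₂s, hrM⟩ := exists_constants Kst hKp hc₂0
  have hr0 : 0 < r := by linarith
  have hlt : max C₀ (Kst / r) < Kst := by
    apply max_lt hKC
    rw [div_lt_iff₀ hr0]
    nlinarith
  obtain ⟨K, ⟨f, hf, hf1, rfl⟩, hKgt⟩ := exists_lt_of_lt_csSup ⟨_, hmem⟩ hlt
  have hKC₀ : C₀ ≤ ‖Tc b lam f‖ := ((le_max_left _ _).trans_lt hKgt).le
  have hKr : Kst < ‖Tc b lam f‖ * r := by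
    have := (le_max_right C₀ (Kst / r)).trans_lt hKgt
    rwa [div_lt_iff₀ hr0] at this
  have hKle : ‖Tc b lam f‖ ≤ Kst := hle _ ⟨f, hf, hf1, rfl⟩
  have hK1 : 1 ≤ ‖Tc b lam f‖ := hC₀1.trans hKC₀
  have hKpos : 0 < ‖Tc b lam f‖ := by linarith
  obtain ⟨x, y, hx, hy1, hy, hR1⟩ := extremal_pair b f hKpos
  have hEE := EE_functional hD b hlam hA hW hf hf1 hKpos hy hR1
  set K := ‖Tc b lam f‖ with hK
  -- the test function
  have hEEi := hD.EE_isA hf K
  set hh : ℂ → ℂ := fun z => ((R + 1 / 10 ^ 19 : ℝ) : ℂ) - EE Ω γ f K z with hhd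
  have hhI : IsA Ω hh := (IsA.const _).sub hEEi
  have hhb : ∀ p ∈ closure Ω, ‖hh p‖ ≤ M₂ := by
    intro p hp
    have h1 : 1 / 10 ^ 19 ≤ (EE Ω γ f K p).re := hD.EE_lower hf hf1 (hKC₀) hp
    have h2 := hD.EE_norm_le hf hf1 hK1 hp
    have e6 : hh p = (R : ℂ) - (EE Ω γ f K p - ((1 / 10 ^ 19 : ℝ) : ℂ)) := by
      simp only [hhd]; push_cast; ring
    rw [e6]
    apply norm_sub_le_const hR0 _ _ hM₂s hM₂0.le
    · simp only [Complex.sub_re, Complex.ofReal_re]; linarith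
    · have h3 : ‖((1 / 10 ^ 19 : ℝ) : ℂ)‖ ≤ 1 := by
        rw [Complex.norm_real, Real.norm_of_nonneg hc₂0.le]; norm_num
      calc _ ≤ ‖EE Ω γ f K p‖ + ‖((1 / 10 ^ 19 : ℝ) : ℂ)‖ := norm_sub_le _ _
        _ ≤ _ := by linarith
  have hφh : inner ℂ x (Tc b lam hh x)
      = ((R + 1 / 10 ^ 19 : ℝ) : ℂ) - inner ℂ x (Tc b lam (EE Ω γ f K) x) := by
    simp only [hhd]
    rw [Tc_sub, ContinuousLinearMap.sub_apply, inner_sub_right, Tc_const,
      ContinuousLinearMap.smul_apply, ContinuousLinearMap.id_apply, inner_smul_right,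
      inner_self_eq_norm_sq_to_K, hx]
    simp
  have hφre : R + 1 / 10 ^ 19 ≤ ‖inner ℂ x (Tc b lam hh x)‖ := by
    refine le_trans ?_ (Complex.re_le_norm _)
    rw [hφh, Complex.sub_re, Complex.ofReal_re]
    linarith
  -- the almost state property
  have hfin : K * ‖inner ℂ x (Tc b lam hh x)‖ ≤ M₂ * Kst := by
    have e1 : (K : ℂ) * inner ℂ x (Tc b lam hh x)
        = inner ℂ y (Tc b lam (fun z => f z * hh z) x) := by
      rw [Tc_mul, ContinuousLinearMap.comp_apply, hR1]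
    have h1 : ‖(K : ℂ) * inner ℂ x (Tc b lam hh x)‖ = K * ‖inner ℂ x (Tc b lam hh x)‖ := by
      rw [norm_mul, Complex.norm_real, Real.norm_of_nonneg hKpos.le]
    rw [← h1, e1]
    have h2 : ‖Tc b lam (fun z => f z * hh z)‖ ≤ M₂ * Kst := by
      apply hscale (hf.mul hhI) hM₂0
      intro p hp
      rw [norm_mul]
      have h3 := hf1 p hp
      have h4 := hhb p hp
      have h5 := norm_nonneg (f p)
      have h6 := norm_nonneg (hh p)
      nlinarith
    calc ‖inner ℂ y (Tc b lam (fun z => f z * hh z) x)‖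
        ≤ ‖y‖ * ‖Tc b lam (fun z => f z * hh z) x‖ := norm_inner_le_norm _ _
      _ ≤ 1 * (‖Tc b lam (fun z => f z * hh z)‖ * 1) := by
          rw [hy1]
          gcongr
          have := (Tc b lam (fun z => f z * hh z)).le_opNorm x
          rwa [hx] at this
      _ ≤ M₂ * Kst := by linarith
  have h7 : K * (R + 1 / 10 ^ 19) ≤ M₂ * Kst :=
    (mul_le_mul_of_nonneg_left hφre hKpos.le).trans hfin
  have h9 : Kst * M₂ < K * r * M₂ := mul_lt_mul_of_pos_right hKr hM₂0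
  have h8 : K * r * M₂ = K * (R + 1 / 10 ^ 19) := by
    rw [mul_assoc, hrM]
  linarith

end Bound

end Vale.Agent.Lib.P123H99
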