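import Mathlib

/-! Operators with a basis of eigenvectors are dense among operators on a finite dimensional complex
inner product space. -/

namespace Vale.Agent.Lib.P123H99

open Module Submodule
open scoped ComplexConjugate

set_option linter.unusedSectionVars false
set_option linter.unusedSimpArgs false
set_option linter.unusedVariables false
set_option linter.deprecated false

universe u

/-- A value outside of a given finite set arbitrarily close to zero. -/
lemma exists_small_avoid {m : ℕ} (μ : ℂ) (lam : Fin m → ℂ) {δ : ℝ} (hδ : 0 < δ) :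
    ∃ τ : ℝ, 0 < τ ∧ τ ≤ δ ∧ ∀ i, lam i ≠ μ + τ := by
  classical
  have hinf : (Set.Ioo (0 : ℝ) δ).Infinite := Set.Ioo_infinite hδ
  obtain ⟨τ, hτ, hτF⟩ := hinf.exists_notMem_finset
    (Finset.univ.image fun i => (lam i - μ).re)
  refine ⟨τ, hτ.1, hτ.2.le, fun i hi => hτF ?_⟩
  rw [Finset.mem_image]
  refine ⟨i, Finset.mem_univ _, ?_⟩
  rw [hi]
  simp

/-- The density theorem. -/
theorem exists_eigen_approx : ∀ (n : ℕ) (E : Type u) [NormedAddCommGroup E] [InnerProductSpace ℂ E]
    [FiniteDimensional ℂ E], finrank ℂ E = n → ∀ (A : E →L[ℂ] E) (δ : ℝ), 0 < δ →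
      ∃ (A' : E →L[ℂ] E) (m : ℕ) (b : Basis (Fin m) ℂ E) (lam : Fin m → ℂ),
        (∀ i, A' (b i) = lam i • b i) ∧ ‖A' - A‖ ≤ δ := by
  intro n
  induction n with
  | zero =>
    intro E _ _ _ hE A δ hδ
    refine ⟨A, 0, finBasisOfFinrankEq ℂ E hE, fun _ => 0, fun i => i.elim0, ?_⟩
    simpa using hδ.le
  | succ n ih =>
    intro E _ _ _ hE A δ hδ
    have : Nontrivial E := nontrivial_of_finrank_pos (R := ℂ) (by omega)
    obtain ⟨μ, hμ⟩ := Module.End.exists_eigenvalue (A : E →ₗ[ℂ] E)
    obtain ⟨v₀, hv₀⟩ := hμ.exists_hasEigenvector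
    have hv₀ne : v₀ ≠ 0 := hv₀.2
    have hn₀ : ‖v₀‖ ≠ 0 := norm_ne_zero_iff.mpr hv₀ne
    have hAv₀ : A v₀ = μ • v₀ := hv₀.apply_eq_smul
    obtain ⟨v, hv, hAv⟩ : ∃ v : E, ‖v‖ = 1 ∧ A v = μ • v := by
      refine ⟨((‖v₀‖⁻¹ : ℝ) : ℂ) • v₀, ?_, ?_⟩
      · rw [norm_smul, Complex.norm_real, norm_inv, norm_norm, inv_mul_cancel₀ hn₀]
      · rw [map_smul, hAv₀, smul_comm]
    have hvne : v ≠ 0 := by
      intro h
      rw [h, norm_zero] at hv
      exact zero_ne_one hv
    have hvv : inner ℂ v v = (1 : ℂ) := by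
      rw [inner_self_eq_norm_sq_to_K, hv]; simp
    set E' : Submodule ℂ E := (ℂ ∙ v)ᗮ with hE'd
    have : Fact (finrank ℂ E = n + 1) := ⟨hE⟩
    have hE' : finrank ℂ E' = n := finrank_orthogonal_span_singleton hvne
    set P : E →L[ℂ] E' := E'.orthogonalProjectionOnto with hP
    set ι : E' →L[ℂ] E := E'.subtypeL with hι
    have hPn : ∀ x, ‖P x‖ ≤ ‖x‖ := by
      intro x
      have h1 := P.le_opNorm x
      have h2 : ‖P‖ ≤ 1 := E'.orthogonalProjectionOnto_norm_le
      have h3 := norm_nonneg x
      nlinarith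
    have hPι : ∀ y : E', P (ι y) = y := fun y => E'.orthogonalProjectionOnto_mem_subspace_eq_self y
    have hPv : P v = 0 := orthogonalProjectionOnto_orthogonalComplement_singleton_eq_zero v
    have hdec : ∀ x : E, x = ι (P x) + inner ℂ v x • v := by
      intro x
      have h1 := (ℂ ∙ v).starProjection_add_starProjection_orthogonal x
      rw [starProjection_unit_singleton ℂ hv, starProjection_apply] at h1
      rw [add_comm]
      exact h1.symm
    set C : E' →L[ℂ] E' := P ∘L A ∘L ι with hC
    obtain ⟨C', m, b', lam', hb', hC'⟩ := ih E' hE' C (δ / 2) (by positivity)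
    have hm : m = n := by
      have := finrank_eq_card_basis b'
      simp only [Fintype.card_fin] at this
      omega
    obtain ⟨τ, hτ0, hτδ, hτ⟩ := exists_small_avoid μ lam' (half_pos hδ)
    set D : E →L[ℂ] E := ι ∘L (C' - C) ∘L P + (τ : ℂ) • ((innerSL ℂ v).smulRight v) with hD
    have hDa : ∀ x, D x = ι ((C' - C) (P x)) + (τ : ℂ) • (inner ℂ v x • v) := by
      intro x
      simp [hD]
    have hDn : ‖D‖ ≤ δ := by
      apply ContinuousLinearMap.opNorm_le_bound _ hδ.le
      intro x
      rw [hDa]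
      refine (norm_add_le _ _).trans ?_
      have h1 : ‖ι ((C' - C) (P x))‖ ≤ δ / 2 * ‖x‖ := by
        have h2 : ‖ι ((C' - C) (P x))‖ = ‖(C' - C) (P x)‖ := by simp [hι]
        rw [h2]
        refine ((C' - C).le_opNorm _).trans ?_
        exact mul_le_mul hC' (hPn x) (norm_nonneg _) (by positivity)
      have h3 : ‖(τ : ℂ) • (inner ℂ v x • v)‖ ≤ δ / 2 * ‖x‖ := by
        rw [norm_smul, norm_smul, hv, mul_one, Complex.norm_real, Real.norm_of_nonneg hτ0.le]
        have h4 : ‖inner ℂ v x‖ ≤ ‖x‖ := by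
          have := norm_inner_le_norm (𝕜 := ℂ) v x
          rwa [hv, one_mul] at this
        exact mul_le_mul hτδ h4 (norm_nonneg _) (by positivity)
      linarith
    set A' : E →L[ℂ] E := A + D with hA'
    set μ₁ : ℂ := μ + τ with hμ₁
    have hA'v : A' v = μ₁ • v := by
      simp only [hA', ContinuousLinearMap.add_apply, hDa, hPv, map_zero, hvv, one_smul, add_zero,
        hAv, hμ₁, add_smul, zero_add]
    have hA'ι : ∀ y : E', A' (ι y) = ι (C' y) + inner ℂ v (A (ι y)) • v := by
      intro y
      have h0 : inner ℂ v (ι y) = (0 : ℂ) := by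
        have h1 : (y : E) ∈ (ℂ ∙ v)ᗮ := y.2
        rw [mem_orthogonal_singleton_iff_inner_right] at h1
        exact h1
      set r : ℂ := inner ℂ v (A (ι y)) with hr
      have h2 : A (ι y) = ι (C y) + r • v := hdec _
      simp only [hA', ContinuousLinearMap.add_apply, hDa, hPι, h0, zero_smul, smul_zero, add_zero,
        ContinuousLinearMap.sub_apply, map_sub]
      rw [h2]
      abel
    set α : Fin m → ℂ := fun i => inner ℂ v (A (ι (b' i))) / (lam' i - μ₁) with hα
    set g : Fin m → E := fun i => ι (b' i) + α i • v with hg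
    have hAg : ∀ i, A' (g i) = lam' i • g i := by
      intro i
      have hne : lam' i - μ₁ ≠ 0 := sub_ne_zero.mpr (hτ i)
      have hαi : inner ℂ v (A (ι (b' i))) + α i * μ₁ = lam' i * α i := by
        simp only [hα]
        field_simp
        ring
      simp only [hg, map_add, map_smul, hA'ι, hb', hA'v]
      rw [add_assoc, smul_smul, ← add_smul, hαi, smul_add, smul_smul]
    set f : Fin (m + 1) → E := Fin.cons v g with hf
    have hspan : ⊤ ≤ span ℂ (Set.range f) := by
      intro x _
      have hvm : v ∈ span ℂ (Set.range f) := subset_span ⟨0, by simp [hf]⟩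
      have hgm : ∀ i, g i ∈ span ℂ (Set.range f) := fun i => subset_span ⟨i.succ, by simp [hf]⟩
      have hιm : ∀ i, ι (b' i) ∈ span ℂ (Set.range f) := by
        intro i
        have : ι (b' i) = g i - α i • v := by simp [hg]
        rw [this]
        exact sub_mem (hgm i) (smul_mem _ _ hvm)
      have hym : ∀ y : E', ι y ∈ span ℂ (Set.range f) := by
        intro y
        rw [← b'.sum_repr y, map_sum]
        refine sum_mem fun i _ => ?_
        rw [map_smul]
        exact smul_mem _ _ (hιm i)
      rw [hdec x]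
      exact add_mem (hym _) (smul_mem _ _ hvm)
    have hcard : Fintype.card (Fin (m + 1)) = finrank ℂ E := by
      simp [hE, hm]
    refine ⟨A', m + 1, basisOfTopLeSpanOfCardEqFinrank f hspan hcard, Fin.cons μ₁ lam', ?_, ?_⟩
    · intro i
      rw [coe_basisOfTopLeSpanOfCardEqFinrank]
      refine Fin.cases ?_ (fun j => ?_) i
      · simpa [hf] using hA'v
      · simpa [hf] using hAg j
    · have : A' - A = D := by rw [hA']; abel
      rw [this]
      exact hDn

end Vale.Agent.Lib.P123H99
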