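import Mathlib
import Vale.Agent.Lib.P123H99.Operator
import Vale.Agent.Lib.P123H99.Gauge
import Vale.Agent.Lib.P123H99.Perturb

/-! Reduction of the universal bound to operators with a basis of eigenvectors. -/

namespace Vale.Agent.Lib.P123H99

open Set Filter Topology Complex Metric
open scoped Real ComplexConjugate

set_option linter.unusedSectionVars false
set_option linter.unusedSimpArgs false
set_option linter.unusedVariables false
set_option linter.deprecated false

universe u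

section Range

variable {H : Type u} [NormedAddCommGroup H] [InnerProductSpace ℂ H]

/-- The numerical range. -/
def numR (A : H →L[ℂ] H) : Set ℂ := {z | ∃ x : H, ‖x‖ = 1 ∧ inner ℂ x (A x) = z}

/-- The normalised form of the convexity theorem of Toeplitz and Hausdorff. -/
theorem th_normal (A : H →L[ℂ] H) {u v : H} (hu : ‖u‖ = 1) (hv : ‖v‖ = 1)
    (hu0 : inner ℂ u (A u) = 0) (hv1 : inner ℂ v (A v) = 1) {s : ℝ} (hs : s ∈ Icc (0 : ℝ) 1) :
    ∃ w : H, ‖w‖ = 1 ∧ inner ℂ w (A w) = (s : ℂ) := by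
  set p : ℂ := inner ℂ u (A v) with hp
  set q : ℂ := inner ℂ v (A u) with hq
  set d : ℂ := p - conj q with hd
  obtain ⟨ω, hω, hωd⟩ : ∃ ω : ℂ, ‖ω‖ = 1 ∧ (ω * d).im = 0 := by
    by_cases hd0 : d = 0
    · exact ⟨1, by simp, by simp [hd0]⟩
    · have hn : ‖d‖ ≠ 0 := norm_ne_zero_iff.mpr hd0
      have hnc : (‖d‖ : ℂ) ≠ 0 := by exact_mod_cast hn
      refine ⟨conj d / (‖d‖ : ℂ), ?_, ?_⟩
      · rw [norm_div, Complex.norm_conj, Complex.norm_real, norm_norm, div_self hn]
      · have : conj d / (‖d‖ : ℂ) * d = (‖d‖ : ℂ) := by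
          have h1 : conj d * d = (‖d‖ : ℂ) ^ 2 := by
            rw [mul_comm, Complex.mul_conj, Complex.normSq_eq_norm_sq]; push_cast; rfl
          field_simp
          rw [h1]
        rw [this, Complex.ofReal_im]
  have hωω : conj ω * ω = 1 := by
    rw [mul_comm, Complex.mul_conj, Complex.normSq_eq_norm_sq, hω]; simp
  have huu : inner ℂ u u = (1 : ℂ) := by
    rw [inner_self_eq_norm_sq_to_K, hu]; simp
  have hvv : inner ℂ v v = (1 : ℂ) := by
    rw [inner_self_eq_norm_sq_to_K, hv]; simp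
  set w : ℝ → H := fun r => ((1 - r : ℝ) : ℂ) • u + ((r : ℂ) * ω) • v with hw
  have hwc : Continuous w := by
    apply Continuous.add
    · exact (Complex.continuous_ofReal.comp (continuous_const.sub continuous_id)).smul
        continuous_const
    · exact (Complex.continuous_ofReal.mul continuous_const).smul continuous_const
  -- the quadratic form along the path
  obtain ⟨ρ, hρ⟩ : ∃ ρ : ℝ, ω * p + conj ω * q = (ρ : ℂ) := by
    have him : (ω * p + conj ω * q).im = 0 := by
      have e : (conj ω * q).im = -(ω * conj q).im := by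
        rw [← Complex.conj_im, map_mul, Complex.conj_conj]
      rw [Complex.add_im, e]
      have e2 : ω * p = ω * d + ω * conj q := by rw [hd]; ring
      rw [e2, Complex.add_im, hωd]
      ring
    refine ⟨(ω * p + conj ω * q).re, ?_⟩
    apply Complex.ext
    · simp
    · simp only [Complex.ofReal_im]; exact him
  have hQ : ∀ r : ℝ, inner ℂ (w r) (A (w r)) = ((r ^ 2 + (1 - r) * r * ρ : ℝ) : ℂ) := by
    intro r
    simp only [hw, map_add, map_smul, inner_add_left, inner_add_right, inner_smul_left,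
      inner_smul_right, hu0, hv1, ← hp, ← hq, map_mul, Complex.conj_ofReal]
    push_cast
    calc _ = ((1 - (r : ℂ)) * (r : ℂ)) * (ω * p + conj ω * q) + (r : ℂ) ^ 2 * (conj ω * ω) := by
          ring
      _ = _ := by
        rw [hρ, hωω]
        ring
  -- nonvanishing of the path
  have hwne : ∀ r : ℝ, w r ≠ 0 := by
    intro r hr
    have h1 : ((1 - r : ℝ) : ℂ) • u = -(((r : ℂ) * ω) • v) := eq_neg_of_add_eq_zero_left hr
    have h2 : |1 - r| = |r| := by
      have := congrArg norm h1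
      rw [norm_neg, norm_smul, norm_smul, hu, hv, norm_mul, hω, Complex.norm_real,
        Complex.norm_real, Real.norm_eq_abs, Real.norm_eq_abs] at this
      simpa using this
    have hr12 : r = 1 / 2 := by
      rcases abs_eq_abs.mp h2 with h | h <;> linarith
    subst hr12
    have h3 : u = (-ω) • v := by
      have h4 : ((1 - 1 / 2 : ℝ) : ℂ) = (((1 / 2 : ℝ)) : ℂ) := by norm_num
      rw [h4] at h1
      have h5 : (((1 / 2 : ℝ)) : ℂ) ≠ 0 := by norm_num
      have h6 : u = ((((1 / 2 : ℝ)) : ℂ))⁻¹ • (((1 / 2 : ℝ)) : ℂ) • u := by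
        rw [smul_smul, inv_mul_cancel₀ h5, one_smul]
      rw [h6, h1, smul_neg, smul_smul, ← mul_assoc, inv_mul_cancel₀ h5, one_mul, neg_smul]
    rw [h3, map_smul, inner_smul_left, inner_smul_right, hv1, map_neg] at hu0
    have h7 : -conj ω * (-ω * 1) = conj ω * ω := by ring
    rw [h7, hωω] at hu0
    exact one_ne_zero hu0
  set g : ℝ → ℝ := fun r => (r ^ 2 + (1 - r) * r * ρ) / ‖w r‖ ^ 2 with hg
  have hgc : ContinuousOn g (Icc 0 1) := by
    apply Continuous.continuousOn
    apply Continuous.div (by fun_prop)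
    · exact hwc.norm.pow 2
    · intro r
      exact pow_ne_zero _ (norm_ne_zero_iff.mpr (hwne r))
  have hg0 : g 0 = 0 := by simp [hg]
  have hg1 : g 1 = 1 := by
    have : w 1 = ω • v := by simp [hw]
    simp only [hg, this]
    rw [norm_smul, hω, hv]
    norm_num
  have hs' : s ∈ Icc (g 0) (g 1) := by rw [hg0, hg1]; exact hs
  obtain ⟨r, _, hrs⟩ := intermediate_value_Icc zero_le_one hgc hs'
  have hn : ‖w r‖ ≠ 0 := norm_ne_zero_iff.mpr (hwne r)
  refine ⟨((‖w r‖⁻¹ : ℝ) : ℂ) • w r, ?_, ?_⟩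
  · rw [norm_smul, Complex.norm_real, norm_inv, norm_norm, inv_mul_cancel₀ hn]
  · rw [map_smul, inner_smul_left, inner_smul_right, hQ, Complex.conj_ofReal, ← hrs]
    simp only [hg]
    push_cast
    have hnc : (‖w r‖ : ℂ) ≠ 0 := by exact_mod_cast hn
    field_simp

/-- The theorem of Toeplitz and Hausdorff. -/
theorem numR_convex (A : H →L[ℂ] H) : Convex ℝ (numR A) := by
  rintro a ⟨u, hu, rfl⟩ b ⟨v, hv, rfl⟩ α β hα hβ hαβ
  by_cases hab : inner ℂ u (A u) = inner ℂ v (A v)
  · refine ⟨u, hu, ?_⟩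
    rw [← hab, ← add_smul, hαβ, one_smul]
  set a : ℂ := inner ℂ u (A u) with ha
  set b : ℂ := inner ℂ v (A v) with hb
  have hne : b - a ≠ 0 := sub_ne_zero.mpr (Ne.symm hab)
  set A' : H →L[ℂ] H := (b - a)⁻¹ • (A - a • ContinuousLinearMap.id ℂ H) with hA'
  have hval : ∀ x : H, ‖x‖ = 1 → inner ℂ x (A' x) = (b - a)⁻¹ * (inner ℂ x (A x) - a) := by
    intro x hx
    have hxx : inner ℂ x x = (1 : ℂ) := by
      rw [inner_self_eq_norm_sq_to_K, hx]; simp
    simp only [hA', ContinuousLinearMap.smul_apply, ContinuousLinearMap.sub_apply,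
      ContinuousLinearMap.id_apply, inner_smul_right, inner_sub_right, hxx, mul_one]
  have hu0 : inner ℂ u (A' u) = 0 := by
    rw [hval u hu, ← ha]; simp
  have hv1 : inner ℂ v (A' v) = 1 := by
    rw [hval v hv, ← hb, inv_mul_cancel₀ hne]
  have hβ1 : β ∈ Icc (0 : ℝ) 1 := ⟨hβ, by linarith⟩
  obtain ⟨w, hw, hwβ⟩ := th_normal A' hu hv hu0 hv1 hβ1
  refine ⟨w, hw, ?_⟩
  rw [hval w hw] at hwβ
  have h1 : inner ℂ w (A w) - a = (b - a) * β := by
    rw [← hwβ]; field_simp
  have hα' : α = 1 - β := by linarith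
  rw [Complex.real_smul, Complex.real_smul, hα']
  push_cast
  linear_combination h1

end Range

section Finite

variable {E : Type u} [NormedAddCommGroup E] [InnerProductSpace ℂ E] [FiniteDimensional ℂ E]

lemma pow_basis {ι : Type*} (b : Module.Basis ι ℂ E) {lam : ι → ℂ} {A : E →L[ℂ] E}
    (hA : ∀ i, A (b i) = lam i • b i) (i : ι) (n : ℕ) : (A ^ n) (b i) = lam i ^ n • b i := by
  induction n with
  | zero => simp
  | succ n ih =>
    rw [pow_succ', ContinuousLinearMap.mul_apply, ih, map_smul, hA, smul_smul, pow_succ]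

lemma aeval_basis {ι : Type*} (b : Module.Basis ι ℂ E) {lam : ι → ℂ} {A : E →L[ℂ] E}
    (hA : ∀ i, A (b i) = lam i • b i) (i : ι) (P : Polynomial ℂ) :
    (Polynomial.aeval A P) (b i) = P.eval (lam i) • b i := by
  induction P using Polynomial.induction_on' with
  | add p q hp hq =>
    rw [map_add, ContinuousLinearMap.add_apply, hp, hq, Polynomial.eval_add, add_smul]
  | monomial n a =>
    rw [Polynomial.aeval_monomial, Polynomial.eval_monomial, ContinuousLinearMap.mul_apply,
      pow_basis b hA, Algebra.algebraMap_eq_smul_one, ContinuousLinearMap.smul_apply,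
      ContinuousLinearMap.one_apply, smul_smul]

/-- The bound for an operator with a basis of eigenvectors. -/
theorem fd_diag {ι : Type*} [Fintype ι] [DecidableEq ι] (b : Module.Basis ι ℂ E) {lam : ι → ℂ}
    {A : E →L[ℂ] E} (hA : ∀ i, A (b i) = lam i • b i) {Ω : Set ℂ} (hO : IsOpen Ω)
    (hC : Convex ℝ Ω) (hB : Bornology.IsBounded Ω) (hne : Ω.Nonempty)
    (hW : ∀ v : E, ‖v‖ = 1 → inner ℂ v (A v) ∈ Ω) (P : Polynomial ℂ) {M : ℝ} (hM : 0 < M)
    (hP : ∀ p ∈ closure Ω, ‖P.eval p‖ ≤ M) :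
    ‖Polynomial.aeval A P‖ ≤ (1 + Real.sqrt 2 - 1 / 10 ^ 19) * M := by
  obtain ⟨c, hc⟩ := hne
  have hD := exists_dom hO hC hB hc
  have hlam : ∀ i, lam i ∈ Ω := by
    intro i
    have hn : ‖b i‖ ≠ 0 := norm_ne_zero_iff.mpr (b.ne_zero i)
    have hv : ‖((‖b i‖⁻¹ : ℝ) : ℂ) • b i‖ = 1 := by
      rw [norm_smul, Complex.norm_real, norm_inv, norm_norm, inv_mul_cancel₀ hn]
    have h := hW _ hv
    have e : inner ℂ (((‖b i‖⁻¹ : ℝ) : ℂ) • b i) (A (((‖b i‖⁻¹ : ℝ) : ℂ) • b i)) = lam i := by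
      rw [map_smul, hA, smul_comm, inner_smul_right]
      have : inner ℂ (((‖b i‖⁻¹ : ℝ) : ℂ) • b i) (((‖b i‖⁻¹ : ℝ) : ℂ) • b i) = (1 : ℂ) := by
        rw [inner_self_eq_norm_sq_to_K, hv]; simp
      rw [this, mul_one]
    rwa [e] at h
  have hT : Polynomial.aeval A P = Tc b lam fun z => P.eval z :=
    clm_ext b fun i => by rw [aeval_basis b hA, Tc_basis]
  have hI : IsA Ω fun z => ((M⁻¹ : ℝ) : ℂ) * P.eval z :=
    IsA.const_mul _ ⟨P.continuous.continuousOn, P.differentiable.differentiableOn⟩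
  have h1 : ∀ p ∈ closure Ω, ‖((M⁻¹ : ℝ) : ℂ) * P.eval p‖ ≤ 1 := by
    intro p hp
    rw [norm_mul, Complex.norm_real, Real.norm_of_nonneg (by positivity), inv_mul_le_iff₀ hM]
    simpa using hP p hp
  have h2 := calc_bound hD b hlam hA (fun v hv => subset_closure (hW v hv)) hI h1
  rw [Tc_const_mul, norm_smul, Complex.norm_real, Real.norm_of_nonneg (by positivity),
    inv_mul_le_iff₀ hM, ← hT] at h2
  linarith

/-- The bound for a general operator on a finite dimensional space. -/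
theorem fd_general (A : E →L[ℂ] E) {Ω : Set ℂ} (hO : IsOpen Ω)
    (hC : Convex ℝ Ω) (hB : Bornology.IsBounded Ω) (hne : Ω.Nonempty)
    (hW : ∀ v : E, ‖v‖ = 1 → inner ℂ v (A v) ∈ Ω) (P : Polynomial ℂ) {M : ℝ} (hM : 0 < M)
    (hP : ∀ p ∈ closure Ω, ‖P.eval p‖ ≤ M) :
    ‖Polynomial.aeval A P‖ ≤ (1 + Real.sqrt 2 - 1 / 10 ^ 19) * M := by
  have : ProperSpace E := FiniteDimensional.proper ℂ E
  set W : Set ℂ := (fun v : E => inner ℂ v (A v)) '' sphere (0 : E) 1 with hWd
  have hWc : IsCompact W := by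
    apply (isCompact_sphere (0 : E) 1).image
    exact continuous_id.inner A.continuous
  have hWΩ : W ⊆ Ω := by
    rintro _ ⟨v, hv, rfl⟩
    exact hW v (by simpa using hv)
  obtain ⟨η, hη, hthick⟩ := hWc.exists_thickening_subset_open hO hWΩ
  have hcont : Continuous fun B : E →L[ℂ] E => Polynomial.aeval B P := P.continuous_aeval
  apply le_of_forall_pos_le_add
  intro ε hε
  have hct := Metric.continuous_iff.mp hcont A ε hε
  obtain ⟨δ₀, hδ₀, hδ⟩ := hct
  set δ : ℝ := min (δ₀ / 2) (η / 2) with hδd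
  have hδ0 : 0 < δ := lt_min (by positivity) (by positivity)
  obtain ⟨A', m, b, lam, hb, hA'⟩ := exists_eigen_approx _ E rfl A δ hδ0
  have hW' : ∀ v : E, ‖v‖ = 1 → inner ℂ v (A' v) ∈ Ω := by
    intro v hv
    apply hthick
    rw [Metric.mem_thickening_iff]
    refine ⟨_, ⟨v, by simpa using hv, rfl⟩, ?_⟩
    rw [dist_eq_norm]
    have e : inner ℂ v (A' v) - inner ℂ v (A v) = inner ℂ v ((A' - A) v) := by
      rw [ContinuousLinearMap.sub_apply, inner_sub_right]
    rw [e]
    have h1 : ‖inner ℂ v ((A' - A) v)‖ ≤ ‖v‖ * ‖(A' - A) v‖ := norm_inner_le_norm _ _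
    have h2 := (A' - A).le_opNorm v
    rw [hv] at h1 h2
    have h3 : δ ≤ η / 2 := min_le_right _ _
    linarith
  have h1 := fd_diag b hb hO hC hB hne hW' P hM hP
  have h2 : dist (Polynomial.aeval A' P) (Polynomial.aeval A P) < ε := by
    apply hδ
    rw [dist_eq_norm]
    have h3 : δ ≤ δ₀ / 2 := min_le_left _ _
    linarith
  rw [dist_eq_norm] at h2
  have h3 : ‖Polynomial.aeval A P‖ ≤ ‖Polynomial.aeval A' P‖
      + ‖Polynomial.aeval A' P - Polynomial.aeval A P‖ := by
    have e : Polynomial.aeval A P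
        = Polynomial.aeval A' P - (Polynomial.aeval A' P - Polynomial.aeval A P) := by abel
    calc _ = ‖Polynomial.aeval A' P - (Polynomial.aeval A' P - Polynomial.aeval A P)‖ := by rw [← e]
      _ ≤ _ := norm_sub_le _ _
  linarith

/-- The bound on the numerical range of an operator on a finite dimensional space. -/
theorem fd_range (A : E →L[ℂ] E) (P : Polynomial ℂ) {M : ℝ} (hM : 0 ≤ M)
    (hP : ∀ x : E, ‖x‖ = 1 → ‖P.eval (inner ℂ x (A x))‖ ≤ M) :
    ‖Polynomial.aeval A P‖ ≤ (1 + Real.sqrt 2 - 1 / 10 ^ 19) * M := by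
  have : ProperSpace E := FiniteDimensional.proper ℂ E
  have hC₀ : 0 ≤ 1 + Real.sqrt 2 - 1 / 10 ^ 19 := by
    have hs : (1 : ℝ) < Real.sqrt 2 := by
      rw [Real.lt_sqrt (by norm_num)]; norm_num
    have h2 : (1 : ℝ) / 10 ^ 19 ≤ 1 := by norm_num
    linarith
  by_cases hE : Nontrivial E
  swap
  · rw [not_nontrivial_iff_subsingleton] at hE
    have : Polynomial.aeval A P = 0 := by
      ext x
      rw [Subsingleton.elim x 0]; simp
    rw [this, norm_zero]
    positivity
  have hWe : numR A = (fun v : E => inner ℂ v (A v)) '' sphere (0 : E) 1 := by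
    ext z
    constructor
    · rintro ⟨x, hx, rfl⟩
      exact ⟨x, by simpa using hx, rfl⟩
    · rintro ⟨x, hx, rfl⟩
      exact ⟨x, by simpa using hx, rfl⟩
  have hWc : IsCompact (numR A) := by
    rw [hWe]
    apply (isCompact_sphere (0 : E) 1).image
    exact continuous_id.inner A.continuous
  have hWne : (numR A).Nonempty := by
    obtain ⟨x, hx⟩ := (NormedSpace.sphere_nonempty (E := E) (x := 0) (r := 1)).mpr zero_le_one
    exact ⟨_, x, by simpa using hx, rfl⟩
  have hWconv := numR_convex A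
  apply le_of_forall_pos_le_add
  intro ε hε
  have hC₁ : 0 < 1 + Real.sqrt 2 - 1 / 10 ^ 19 := by
    have hs : (1 : ℝ) < Real.sqrt 2 := by
      rw [Real.lt_sqrt (by norm_num)]; norm_num
    have h2 : (1 : ℝ) / 10 ^ 19 ≤ 1 := by norm_num
    linarith
  set C₀ : ℝ := 1 + Real.sqrt 2 - 1 / 10 ^ 19 with hC₀d
  set ε' : ℝ := ε / C₀ with hε'
  have hε'0 : 0 < ε' := by positivity
  set U : Set ℂ := {z | ‖P.eval z‖ < M + ε'} with hU
  have hUo : IsOpen U := isOpen_lt P.continuous.norm continuous_const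
  have hWU : numR A ⊆ U := by
    rintro _ ⟨x, hx, rfl⟩
    have := hP x hx
    change ‖P.eval (inner ℂ x (A x))‖ < M + ε'
    linarith
  obtain ⟨δ, hδ, hcth⟩ := hWc.exists_cthickening_subset_open hUo hWU
  have hbound : ∀ p ∈ closure (thickening δ (numR A)), ‖P.eval p‖ ≤ M + ε' := by
    intro p hp
    have h1 := hcth (closure_thickening_subset_cthickening δ _ hp)
    exact le_of_lt h1
  have hsub : numR A ⊆ thickening δ (numR A) := self_subset_thickening hδ _
  have h := fd_general A (Ω := thickening δ (numR A)) isOpen_thickening (hWconv.thickening δ)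
    hWc.isBounded.thickening (hWne.mono hsub) (fun v hv => hsub ⟨v, hv, rfl⟩) P
    (by positivity : 0 < M + ε') hbound
  have e : C₀ * (M + ε') = C₀ * M + ε := by
    rw [hε']; field_simp
  rw [e] at h
  exact h

end Finite

/-- The universal bound: compression to a finite dimensional subspace. -/
theorem universal_bound {H : Type u} [NormedAddCommGroup H] [InnerProductSpace ℂ H]
    (A : H →L[ℂ] H) (P : Polynomial ℂ) {M : ℝ} (hM : 0 ≤ M)
    (hP : ∀ x : H, ‖x‖ = 1 → ‖P.eval (inner ℂ x (A x))‖ ≤ M) :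
    ‖Polynomial.aeval A P‖ ≤ (1 + Real.sqrt 2 - 1 / 10 ^ 19) * M := by
  have hC₀ : 0 ≤ 1 + Real.sqrt 2 - 1 / 10 ^ 19 := by
    have hs : (1 : ℝ) < Real.sqrt 2 := by
      rw [Real.lt_sqrt (by norm_num)]; norm_num
    have h2 : (1 : ℝ) / 10 ^ 19 ≤ 1 := by norm_num
    linarith
  apply ContinuousLinearMap.opNorm_le_bound _ (by positivity)
  intro x
  set d := P.natDegree with hd
  set K : Submodule ℂ H := Submodule.span ℂ (Set.range fun j : Fin (d + 1) => (A ^ (j : ℕ)) x)
    with hK
  have hfd : FiniteDimensional ℂ K := FiniteDimensional.span_of_finite ℂ (Set.finite_range _)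
  have hcomp : CompleteSpace K := FiniteDimensional.complete ℂ K
  have hmem : ∀ j, j ≤ d → (A ^ j) x ∈ K := fun j hj =>
    Submodule.subset_span ⟨⟨j, by omega⟩, rfl⟩
  set PP : H →L[ℂ] K := K.orthogonalProjectionOnto with hPP
  have hPPmem : ∀ {y : H} (hy : y ∈ K), ((PP y : K) : H) = y := by
    intro y hy
    have := K.orthogonalProjectionOnto_mem_subspace_eq_self ⟨y, hy⟩
    have h2 : PP y = ⟨y, hy⟩ := this
    rw [h2]
  set B : K →L[ℂ] K := PP ∘L A ∘L K.subtypeL with hB
  have hx0 : x ∈ K := by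
    have := hmem 0 (Nat.zero_le _)
    simpa using this
  set x₀ : K := ⟨x, hx0⟩ with hx₀
  have hpow : ∀ j, j ≤ d → (((B ^ j) x₀ : K) : H) = (A ^ j) x := by
    intro j
    induction j with
    | zero => intro _; simp [hx₀]
    | succ j ih =>
      intro hj
      have h1 := ih (by omega)
      rw [pow_succ', ContinuousLinearMap.mul_apply]
      have e : B ((B ^ j) x₀) = PP (A (((B ^ j) x₀ : K) : H)) := rfl
      rw [e, h1]
      have e2 : A ((A ^ j) x) = (A ^ (j + 1)) x := by
        rw [pow_succ', ContinuousLinearMap.mul_apply]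
      rw [e2, hPPmem (hmem _ hj)]
  have haeval : ((Polynomial.aeval B P x₀ : K) : H) = Polynomial.aeval A P x := by
    rw [Polynomial.aeval_eq_sum_range, Polynomial.aeval_eq_sum_range]
    simp only [ContinuousLinearMap.sum_apply, ContinuousLinearMap.smul_apply,
      Submodule.coe_sum, Submodule.coe_smul]
    refine Finset.sum_congr rfl fun i hi => ?_
    rw [hpow i (by have := Finset.mem_range.mp hi; omega)]
  have hrange : ∀ u : K, ‖u‖ = 1 → ‖P.eval (inner ℂ u (B u))‖ ≤ M := by
    intro u hu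
    have hu' : ‖(u : H)‖ = 1 := by simpa using hu
    have e : inner ℂ u (B u) = inner ℂ (u : H) (A (u : H)) := by
      have : B u = PP (A (u : H)) := rfl
      rw [this]
      exact K.inner_orthogonalProjectionOnto_eq_of_mem_left u (A (u : H))
    rw [e]
    exact hP _ hu'
  have hfin := fd_range B P hM hrange
  have h1 : ‖Polynomial.aeval A P x‖ = ‖Polynomial.aeval B P x₀‖ := by
    rw [← haeval]; simp
  rw [h1]
  refine ((Polynomial.aeval B P).le_opNorm x₀).trans ?_
  have h2 : ‖x₀‖ = ‖x‖ := rfl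
  rw [h2]
  exact mul_le_mul_of_nonneg_right hfin (norm_nonneg _)

end Vale.Agent.Lib.P123H99
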